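import Vale.Agent.P201.Z.PC

/-!
P201, part F, block F3: dual components (helper516).
-/

namespace Vale.Agent.P201.Z

open Finset Relation

namespace DG

set_option linter.unusedSectionVars false
set_option linter.unusedVariables false

variable {N E : Type} [Fintype N] [DecidableEq N] [Fintype E] [DecidableEq E] (s : E × Bool → N)

/-- adjacency of nodes -/
def Adj (a b : N) : Prop := ∃ d, s d = a ∧ s (rv d) = b

theorem rv_rv {E : Type} (d : E × Bool) : rv (rv d) = d := by
  obtain ⟨e, b⟩ := d
  simp [rv]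

theorem Adj.symm' {a b : N} (h : Adj s a b) : Adj s b a := by
  obtain ⟨d, h1, h2⟩ := h
  exact ⟨rv d, h2, by rw [rv_rv]; exact h1⟩

/-- crossing edges of a set of nodes -/
def bS (C : Finset N) : Finset E := univ.filter (fun e => ¬ (s (e, true) ∈ C ↔ s (e, false) ∈ C))

theorem mem_bS {C : Finset N} {e : E} :
    e ∈ bS s C ↔ ¬ (s (e, true) ∈ C ↔ s (e, false) ∈ C) := by
  simp [bS]

theorem bS_compl (C : Finset N) : bS s Cᶜ = bS s C := by
  ext e
  simp only [mem_bS, mem_compl]
  tauto

/-- one step inside `W` -/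
def St (W : Finset N) (a b : N) : Prop := b ∈ W ∧ Adj s a b

/-- connected -/
def Cn (W : Finset N) : Prop := ∀ f ∈ W, ∀ g ∈ W, ReflTransGen (St s W) f g

open Classical in
noncomputable def cmp (W : Finset N) (f : N) : Finset N :=
  univ.filter (fun g => ReflTransGen (St s W) f g)

theorem mem_cmp {W : Finset N} {f g : N} : g ∈ cmp s W f ↔ ReflTransGen (St s W) f g := by
  simp [cmp]

theorem rtg_mem {W : Finset N} {f g : N} (hf : f ∈ W) (h : ReflTransGen (St s W) f g) : g ∈ W := by
  induction h with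
  | refl => exact hf
  | tail _ h _ => exact h.1

theorem rtg_symm {W : Finset N} {f g : N} (hf : f ∈ W) (h : ReflTransGen (St s W) f g) :
    ReflTransGen (St s W) g f := by
  induction h with
  | refl => exact ReflTransGen.refl
  | tail h1 h2 ih =>
    exact ReflTransGen.head ⟨rtg_mem s hf h1, Adj.symm' s h2.2⟩ ih

theorem cmp_sub {W : Finset N} {f : N} (hf : f ∈ W) : cmp s W f ⊆ W := by
  intro g hg
  exact rtg_mem s hf ((mem_cmp s).1 hg)

theorem self_mem_cmp (W : Finset N) (f : N) : f ∈ cmp s W f := (mem_cmp s).2 ReflTransGen.refl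

theorem cmp_cn {W : Finset N} {f : N} (hf : f ∈ W) : Cn s (cmp s W f) := by
  -- from `f` to every element inside the component
  have key : ∀ g, ReflTransGen (St s W) f g → ReflTransGen (St s (cmp s W f)) f g := by
    intro g hg
    induction hg with
    | refl => exact ReflTransGen.refl
    | tail h1 h2 ih => exact ih.tail ⟨(mem_cmp s).2 (h1.tail h2), h2.2⟩
  intro a ha b hb
  have h1 := key a ((mem_cmp s).1 ha)
  have h2 := key b ((mem_cmp s).1 hb)
  exact (rtg_symm s (self_mem_cmp s W f) h1).trans h2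

theorem cmp_eq {W : Finset N} {f g : N} (hf : f ∈ W) (hg : g ∈ cmp s W f) :
    cmp s W g = cmp s W f := by
  have h := (mem_cmp s).1 hg
  have h' := rtg_symm s hf h
  ext x
  rw [mem_cmp, mem_cmp]
  exact ⟨fun hx => h.trans hx, fun hx => h'.trans hx⟩

theorem cmp_adj {W : Finset N} {f g h : N} (hg : g ∈ cmp s W f) (hh : h ∈ W) (ha : Adj s g h) :
    h ∈ cmp s W f := (mem_cmp s).2 (((mem_cmp s).1 hg).tail ⟨hh, ha⟩)

/-- the components of `W` -/
noncomputable def comps (W : Finset N) : Finset (Finset N) := W.image (cmp s W)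

theorem mem_comps {W C : Finset N} : C ∈ comps s W ↔ ∃ f ∈ W, cmp s W f = C := by
  simp [comps]

theorem comps_cn {W C : Finset N} (h : C ∈ comps s W) : Cn s C := by
  obtain ⟨f, hf, rfl⟩ := (mem_comps s).1 h
  exact cmp_cn s hf

theorem comps_ne {W C : Finset N} (h : C ∈ comps s W) : C.Nonempty := by
  obtain ⟨f, hf, rfl⟩ := (mem_comps s).1 h
  exact ⟨f, self_mem_cmp s W f⟩

theorem comps_sub {W C : Finset N} (h : C ∈ comps s W) : C ⊆ W := by
  obtain ⟨f, hf, rfl⟩ := (mem_comps s).1 h
  exact cmp_sub s hf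

theorem comps_disj {W C D : Finset N} (hC : C ∈ comps s W) (hD : D ∈ comps s W) (hne : C ≠ D) :
    Disjoint C D := by
  obtain ⟨f, hf, rfl⟩ := (mem_comps s).1 hC
  obtain ⟨g, hg, rfl⟩ := (mem_comps s).1 hD
  rw [Finset.disjoint_left]
  intro x hx hx'
  exact hne ((cmp_eq s hf hx).symm.trans (cmp_eq s hg hx'))

theorem comps_union (W : Finset N) : (comps s W).biUnion id = W := by
  ext x
  simp only [mem_biUnion, id]
  constructor
  · rintro ⟨C, hC, hx⟩
    exact comps_sub s hC hx
  · intro hx
    exact ⟨cmp s W x, (mem_comps s).2 ⟨x, hx, rfl⟩, self_mem_cmp s W x⟩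

/-- a crossing edge of a component has exactly one side in the component, the other is not in `W` -/
theorem comps_edge {W C : Finset N} (hC : C ∈ comps s W) {e : E} (he : e ∈ bS s C) :
    ∃ b, s (e, b) ∈ C ∧ s (e, !b) ∉ W := by
  obtain ⟨f, hf, rfl⟩ := (mem_comps s).1 hC
  rw [mem_bS] at he
  by_cases h1 : s (e, true) ∈ cmp s W f
  · have h2 : s (e, false) ∉ cmp s W f := fun h => he ⟨fun _ => h, fun _ => h1⟩
    refine ⟨true, h1, fun h3 => h2 ?_⟩
    exact cmp_adj s h1 h3 ⟨(e, true), rfl, rfl⟩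
  · have h2 : s (e, false) ∈ cmp s W f := by
      by_contra h
      exact he ⟨fun h' => absurd h' h1, fun h' => absurd h' h⟩
    refine ⟨false, h2, fun h3 => h1 ?_⟩
    exact cmp_adj s h2 h3 ⟨(e, false), rfl, rfl⟩

theorem comps_bdisj {W C D : Finset N} (hC : C ∈ comps s W) (hD : D ∈ comps s W) (hne : C ≠ D) :
    Disjoint (bS s C) (bS s D) := by
  rw [Finset.disjoint_left]
  intro e he he'
  obtain ⟨b, h1, h2⟩ := comps_edge s hC he
  obtain ⟨b', h3, h4⟩ := comps_edge s hD he'
  have hb : b = b' := by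
    by_contra hb
    have : b' = !b := by
      cases b <;> cases b' <;> simp_all
    subst this
    exact h2 (comps_sub s hD h3)
  subst hb
  exact Finset.disjoint_left.1 (comps_disj s hC hD hne) h1 h3

theorem comps_bunion (W : Finset N) : (comps s W).biUnion (bS s) = bS s W := by
  ext e
  simp only [mem_biUnion]
  constructor
  · rintro ⟨C, hC, he⟩
    obtain ⟨b, h1, h2⟩ := comps_edge s hC he
    have h3 := comps_sub s hC h1
    rw [mem_bS]
    cases b
    · simp only [Bool.not_false] at h2
      tauto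
    · simp only [Bool.not_true] at h2
      tauto
  · intro he
    rw [mem_bS] at he
    by_cases h1 : s (e, true) ∈ W
    · have h2 : s (e, false) ∉ W := fun h => he ⟨fun _ => h, fun _ => h1⟩
      refine ⟨cmp s W (s (e, true)), (mem_comps s).2 ⟨_, h1, rfl⟩, ?_⟩
      rw [mem_bS]
      have h3 := self_mem_cmp s W (s (e, true))
      have h4 : s (e, false) ∉ cmp s W (s (e, true)) := fun h => h2 (cmp_sub s h1 h)
      tauto
    · have h2 : s (e, false) ∈ W := by
        by_contra h
        exact he ⟨fun h' => absurd h' h1, fun h' => absurd h' h⟩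
      refine ⟨cmp s W (s (e, false)), (mem_comps s).2 ⟨_, h2, rfl⟩, ?_⟩
      rw [mem_bS]
      have h3 := self_mem_cmp s W (s (e, false))
      have h4 : s (e, true) ∉ cmp s W (s (e, false)) := fun h => h1 (cmp_sub s h2 h)
      tauto

/-- complement of a component of the complement of a connected set -/
theorem comps_compl (hc : ∀ f g : N, ReflTransGen (Adj s) f g) {O C : Finset N} (hO : Cn s O)
    (hne : O.Nonempty) (hC : C ∈ comps s Oᶜ) : Cn s Cᶜ := by
  obtain ⟨o, ho⟩ := hne
  have hOC : O ⊆ Cᶜ := by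
    intro x hx
    rw [mem_compl]
    intro hx'
    exact (mem_compl.1 (comps_sub s hC hx')) hx
  -- inside `O` a path is a path in `Cᶜ`
  have mono : ∀ {a b : N}, ReflTransGen (St s O) a b → ReflTransGen (St s Cᶜ) a b := by
    intro a b h
    induction h with
    | refl => exact ReflTransGen.refl
    | tail _ h2 ih => exact ih.tail ⟨hOC h2.1, h2.2⟩
  -- every element of `Cᶜ` is joined to `O`
  have key : ∀ x : N, x ∈ Cᶜ → ∃ y ∈ O, ReflTransGen (St s Cᶜ) x y := by
    intro x hx
    have hp := hc x o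
    induction hp using ReflTransGen.head_induction_on with
    | refl => exact ⟨o, ho, ReflTransGen.refl⟩
    | head h1 h0 ih =>
      rename_i a c
      by_cases ha : a ∈ O
      · exact ⟨a, ha, ReflTransGen.refl⟩
      · have hcC : c ∈ Cᶜ := by
          rw [mem_compl]
          intro hcC
          obtain ⟨f, hf, rfl⟩ := (mem_comps s).1 hC
          have := cmp_adj s hcC (mem_compl.2 ha) (Adj.symm' s h1)
          exact (mem_compl.1 hx) this
        obtain ⟨y, hy, hpy⟩ := ih hcC
        exact ⟨y, hy, hpy.head ⟨hcC, h1⟩⟩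
  intro f hf g hg
  obtain ⟨y, hy, h1⟩ := key f hf
  obtain ⟨z, hz, h2⟩ := key g hg
  exact (h1.trans (mono (hO y hy z hz))).trans (rtg_symm s hg h2)

theorem sum_comps_card (W : Finset N) : ∑ C ∈ comps s W, C.card = W.card := by
  conv_rhs => rw [← comps_union s W]
  rw [Finset.card_biUnion]
  · rfl
  · intro C hC D hD hne
    exact comps_disj s hC hD hne

theorem sum_comps_bS {M : Type*} [AddCommMonoid M] (w : E → M) (W : Finset N) :
    ∑ C ∈ comps s W, ∑ e ∈ bS s C, w e = ∑ e ∈ bS s W, w e := by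
  rw [← comps_bunion s W, Finset.sum_biUnion]
  intro C hC D hD hne
  exact comps_bdisj s hC hD hne

/-- sphere version of the isoperimetric inequality: it suffices to know it for connected sets with
connected complement. -/
theorem sphere_iso (hc : ∀ f g : N, ReflTransGen (Adj s) f g) (w : E → ℝ) (hw : ∀ e, 0 ≤ w e) (a : ℝ)
    (ha : 0 ≤ a)
    (h : ∀ C : Finset N, C.Nonempty → Cᶜ.Nonempty → Cn s C → Cn s Cᶜ →
      a * min (C.card : ℝ) (Cᶜ.card : ℝ) ≤ ∑ e ∈ bS s C, w e) (S : Finset N) :
    a * min (S.card : ℝ) (Sᶜ.card : ℝ) ≤ ∑ e ∈ bS s S, w e := by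
  -- the connected case
  have h1 : ∀ S : Finset N, S.Nonempty → Cn s S → S.card ≤ Sᶜ.card →
      a * S.card ≤ ∑ e ∈ bS s S, w e := by
    intro S hS hcn hle
    have hOC : ∀ C ∈ comps s Sᶜ, S ⊆ Cᶜ := by
      intro C hC x hx
      rw [mem_compl]
      intro hx'
      exact (mem_compl.1 (comps_sub s hC hx')) hx
    have hb : ∀ C ∈ comps s Sᶜ, a * min (C.card : ℝ) (Cᶜ.card : ℝ) ≤ ∑ e ∈ bS s C, w e := by
      intro C hC
      refine h C (comps_ne s hC) (hS.mono (hOC C hC)) (comps_cn s hC) (comps_compl s hc hcn hS hC)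
    have hsum := sum_comps_bS s w Sᶜ
    rw [bS_compl] at hsum
    by_cases hbig : ∃ C ∈ comps s Sᶜ, Cᶜ.card ≤ C.card
    · obtain ⟨C, hC, hcard⟩ := hbig
      have h2 := hb C hC
      have h3 : S.card ≤ Cᶜ.card := Finset.card_le_card (hOC C hC)
      have h4 : ∑ e ∈ bS s C, w e ≤ ∑ e ∈ bS s S, w e := by
        rw [← hsum]
        exact Finset.single_le_sum (f := fun C => ∑ e ∈ bS s C, w e)
          (fun C _ => Finset.sum_nonneg (fun e _ => hw e)) hC
      have h5 : (S.card : ℝ) ≤ min (C.card : ℝ) (Cᶜ.card : ℝ) := by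
        rw [le_min_iff]
        constructor
        · exact_mod_cast h3.trans hcard
        · exact_mod_cast h3
      calc a * S.card ≤ a * min (C.card : ℝ) (Cᶜ.card : ℝ) := mul_le_mul_of_nonneg_left h5 ha
        _ ≤ _ := h2.trans h4
    · push Not at hbig
      have h2 : ∀ C ∈ comps s Sᶜ, a * C.card ≤ ∑ e ∈ bS s C, w e := by
        intro C hC
        have h3 := hb C hC
        rwa [min_eq_left (by exact_mod_cast (hbig C hC).le)] at h3
      have h3 := Finset.sum_le_sum h2
      rw [hsum, ← Finset.mul_sum, ← Nat.cast_sum, sum_comps_card] at h3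
      refine le_trans ?_ h3
      exact mul_le_mul_of_nonneg_left (by exact_mod_cast hle) ha
  -- the case `card S ≤ card Sᶜ`
  have h2 : ∀ S : Finset N, S.card ≤ Sᶜ.card → a * S.card ≤ ∑ e ∈ bS s S, w e := by
    intro S hle
    rw [← sum_comps_bS s w S, ← sum_comps_card s S, Nat.cast_sum, Finset.mul_sum]
    refine Finset.sum_le_sum ?_
    intro C hC
    refine h1 C (comps_ne s hC) (comps_cn s hC) ?_
    have h3 : C.card ≤ S.card := Finset.card_le_card (comps_sub s hC)
    have h4 : Sᶜ.card ≤ Cᶜ.card := Finset.card_le_card (Finset.compl_subset_compl.2 (comps_sub s hC))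
    omega
  rcases le_total S.card Sᶜ.card with hle | hle
  · rw [min_eq_left (by exact_mod_cast hle)]
    exact h2 S hle
  · rw [min_eq_right (by exact_mod_cast hle), ← bS_compl]
    refine h2 Sᶜ ?_
    rwa [compl_compl]

end DG

end Vale.Agent.P201.Z
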