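import Vale.Agent.P201.Z.F.Centroid

/-!
P201, part F, blocks F5 and F7 (d) (helper475): the cut along a balanced fundamental cycle.
-/

namespace Vale.Agent.P201.Z.F5

open Finset

variable {A : Type} {K : PC A}

theorem eq_or_rv {E : Type} {d d' : E × Bool} (h : d.1 = d'.1) : d = d' ∨ d = rv d' := by
  obtain ⟨e, b⟩ := d
  obtain ⟨e', b'⟩ := d'
  simp only at h
  subst h
  cases b <;> cases b' <;> simp [rv]

/-- a boundary edge on the outer boundary -/
theorem out_side {e : K.E} {B : Finset K.F} {d0 : K.E × Bool} (h0 : d0 ∈ K.bd none) (he : d0.1 = e)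
    (hb : e ∈ K.bdry B) : ∃ x ∈ B, rv d0 ∈ K.bd (some x) := by
  obtain ⟨d, h1, ⟨x, hx, h2⟩, -⟩ := mem_bdry_iff.1 hb
  rcases eq_or_rv (h1.trans he.symm) with h | h
  · subst h
    exact absurd (face_uniq h0 h2) (by simp)
  · exact ⟨x, hx, h ▸ h2⟩

theorem out_disj {B B' : Finset K.F} (h : Disjoint B B') {e : K.E} (he : e ∈ K.outE)
    (hb : e ∈ K.bdry B) (hb' : e ∈ K.bdry B') : False := by
  obtain ⟨d0, h0, h1⟩ := mem_outE.1 he
  obtain ⟨x, hx, h2⟩ := out_side h0 h1 hb
  obtain ⟨x', hx', h2'⟩ := out_side h0 h1 hb'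
  have := Option.some.inj (face_uniq h2 h2')
  subst this
  exact Finset.disjoint_left.1 h hx hx'

theorem kid_none_bdry {T : K.STree} {C : K.Cotree}
    (hC : ∀ f, ∀ e ∈ K.bdry (C.sub f), e = (C.dd f).1 ∨ T.Anc (K.org (C.dd f)) e ∨
      T.Anc (K.org (rv (C.dd f))) e)
    (P1 : ∀ d ∈ K.bd none, ∀ e, T.Anc (K.org d) e → e ∈ K.outE) {f : K.F} (hf : C.par f = none) :
    K.bdry (C.sub f) ⊆ K.outE := by
  have h1 : rv (C.dd f) ∈ K.bd none := hf ▸ C.memr f
  intro e he
  rcases hC f e he with h | h | h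
  · exact mem_outE.2 ⟨_, h1, h.symm⟩
  · obtain ⟨d', h2, h3⟩ := next_org h1
    rw [rvrv] at h3
    exact P1 d' h2 e (h3 ▸ h)
  · exact P1 _ h1 e h

/-- some subtree is everything -/
theorem exists_full {T : K.STree} {C : K.Cotree}
    (hC : ∀ f, ∀ e ∈ K.bdry (C.sub f), e = (C.dd f).1 ∨ T.Anc (K.org (C.dd f)) e ∨
      T.Anc (K.org (rv (C.dd f))) e)
    (P1 : ∀ d ∈ K.bd none, ∀ e, T.Anc (K.org d) e → e ∈ K.outE)
    (w : K.E → ℝ) (hw : ∀ e, 0 ≤ w e)
    (psi : ℕ → ℝ) (psi0 : psi 0 ≤ 0) (hsub : ∀ a b, psi (a + b) ≤ psi a + psi b)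
    (hB : ∀ B, K.Bond B → B ≠ univ → psi B.card ≤ ∑ e ∈ K.bdry B, w e)
    (hL : ∑ e ∈ K.outE, w e < psi (Fintype.card K.F)) : ∃ f : K.F, C.sub f = univ := by
  classical
  by_contra hcon
  push Not at hcon
  have hsum : ∀ J : Finset K.F, psi (∑ g ∈ J, (C.sub g).card) ≤ ∑ g ∈ J, psi (C.sub g).card := by
    intro J
    induction J using Finset.induction_on with
    | empty => simpa using psi0
    | insert a J ha ih =>
      rw [Finset.sum_insert ha, Finset.sum_insert ha]
      exact (hsub _ _).trans (by linarith)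
  have h1 : psi (Fintype.card K.F) ≤ ∑ e ∈ K.outE, w e :=
    calc psi (Fintype.card K.F) = psi (∑ g ∈ kids C none, (C.sub g).card) := by rw [← card_univ]
      _ ≤ ∑ g ∈ kids C none, psi (C.sub g).card := hsum _
      _ ≤ ∑ g ∈ kids C none, ∑ e ∈ K.bdry (C.sub g), w e :=
          Finset.sum_le_sum fun g _ => hB _ (sub_bond C g) (hcon g)
      _ = ∑ e ∈ (kids C none).biUnion (fun g => K.bdry (C.sub g)), w e := by
          rw [Finset.sum_biUnion]
          intro g hg g' hg' hne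
          change Disjoint _ _
          rw [Finset.disjoint_left]
          intro e he he'
          exact out_disj (kids_disj C none hg hg' hne)
            (kid_none_bdry hC P1 ((mem_kids C).1 (Finset.mem_coe.1 hg)) he) he he'
      _ ≤ ∑ e ∈ K.outE, w e := by
          refine Finset.sum_le_sum_of_subset_of_nonneg ?_ (fun e _ _ => hw e)
          intro e he
          obtain ⟨g, hg, he'⟩ := Finset.mem_biUnion.1 he
          exact kid_none_bdry hC P1 ((mem_kids C).1 hg) he'
  linarith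

open Classical in
/-- the part of the boundary of a subtree inside -/
theorem inner_bdry {T : K.STree} {C : K.Cotree}
    (hC : ∀ f, ∀ e ∈ K.bdry (C.sub f), e = (C.dd f).1 ∨ T.Anc (K.org (C.dd f)) e ∨
      T.Anc (K.org (rv (C.dd f))) e)
    (w : K.E → ℝ) (hw : ∀ e, 0 ≤ w e) (Y R : ℝ) (hwY : ∀ e, w e ≤ Y) (O : Finset K.E)
    (P2 : ∀ v, ∑ e ∈ univ.filter (fun e => T.Anc v e ∧ e ∉ O), w e ≤ R) (g : K.F) :
    ∑ e ∈ K.bdry (C.sub g) \ O, w e ≤ 2 * R + Y := by
  have h1 : K.bdry (C.sub g) \ O ⊆ {(C.dd g).1} ∪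
      (univ.filter (fun e => T.Anc (K.org (C.dd g)) e ∧ e ∉ O) ∪
      univ.filter (fun e => T.Anc (K.org (rv (C.dd g))) e ∧ e ∉ O)) := by
    intro e he
    rw [Finset.mem_sdiff] at he
    simp only [Finset.mem_union, Finset.mem_singleton, Finset.mem_filter, Finset.mem_univ, true_and]
    rcases hC g e he.1 with h | h | h
    · exact Or.inl h
    · exact Or.inr (Or.inl ⟨h, he.2⟩)
    · exact Or.inr (Or.inr ⟨h, he.2⟩)
  have hun : ∀ S1 S2 : Finset K.E, ∑ e ∈ S1 ∪ S2, w e ≤ ∑ e ∈ S1, w e + ∑ e ∈ S2, w e := by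
    intro S1 S2
    rw [← Finset.sum_union_inter (f := w)]
    have : 0 ≤ ∑ e ∈ S1 ∩ S2, w e := Finset.sum_nonneg fun e _ => hw e
    linarith
  calc ∑ e ∈ K.bdry (C.sub g) \ O, w e ≤ _ :=
        Finset.sum_le_sum_of_subset_of_nonneg h1 (fun e _ _ => hw e)
    _ ≤ _ := (hun _ _).trans (add_le_add le_rfl (hun _ _))
    _ ≤ 2 * R + Y := by
        rw [Finset.sum_singleton]
        have := hwY (C.dd g).1
        have h2 := P2 (K.org (C.dd g))
        have h3 := P2 (K.org (rv (C.dd g)))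
        linarith

/-- **F5, combinatorial part**: the balanced cut of a disc. -/
theorem disc_cut (T : K.STree) (C : K.Cotree)
    (hC : ∀ f, ∀ e ∈ K.bdry (C.sub f), e = (C.dd f).1 ∨ T.Anc (K.org (C.dd f)) e ∨
      T.Anc (K.org (rv (C.dd f))) e)
    (w : K.E → ℝ) (hw : ∀ e, 0 ≤ w e) (Y R : ℝ) (hwY : ∀ e, w e ≤ Y)
    (Δ : ℕ) (hΔ : ∀ f : K.F, (K.bd (some f)).length ≤ Δ)
    (P1 : ∀ d ∈ K.bd none, ∀ e, T.Anc (K.org d) e → e ∈ K.outE)
    (P2 : ∀ v, ∀ B : Finset K.E, (∀ e ∈ B, T.Anc v e ∧ e ∉ K.outE) → ∑ e ∈ B, w e ≤ R)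
    (psi : ℕ → ℝ) (psi0 : psi 0 ≤ 0) (hsub : ∀ a b, psi (a + b) ≤ psi a + psi b)
    (hB : ∀ B, K.Bond B → B ≠ univ → psi B.card ≤ ∑ e ∈ K.bdry B, w e)
    (hF : 2 ≤ Fintype.card K.F)
    (hL : ∑ e ∈ K.outE, w e < psi (Fintype.card K.F)) :
    ∃ s : ℕ, Fintype.card K.F ≤ 4 * Δ * s ∧ 2 * s ≤ Fintype.card K.F ∧
      (psi s ≤ 2 * R + Y ∨
        psi s + psi (Fintype.card K.F - s) ≤ ∑ e ∈ K.outE, w e + 2 * (2 * R + Y)) := by
  classical
  obtain ⟨f0, hf0⟩ := exists_full hC P1 w hw psi psi0 hsub hB hL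
  obtain ⟨g, hg1, hg2⟩ := centroid C Δ (Fintype.card K.F) hΔ hF f0
    (by rw [hf0, Finset.card_univ]; omega)
  have hne : C.sub g ≠ univ := by
    intro h
    rw [h, Finset.card_univ] at hg2
    omega
  have h1 := hB _ (sub_bond C g) hne
  have hz := inner_bdry hC w hw Y R hwY K.outE
    (fun v => P2 v _ (fun e he => (Finset.mem_filter.1 he).2)) g
  refine ⟨(C.sub g).card, hg1, hg2, ?_⟩
  by_cases ha : ∀ e ∈ K.bdry (C.sub g), e ∉ K.outE
  · left
    have h2 : K.bdry (C.sub g) \ K.outE = K.bdry (C.sub g) := by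
      rw [Finset.sdiff_eq_self_iff_disjoint, Finset.disjoint_left]
      exact ha
    rw [h2] at hz
    linarith
  · right
    push Not at ha
    obtain ⟨e0, he0, he0'⟩ := ha
    obtain ⟨d0, hd0, hd0e⟩ := mem_outE.1 he0'
    obtain ⟨x, hx, hx'⟩ := out_side hd0 hd0e he0
    -- the complement
    have hS : ∀ h : Option K.F, (∀ y ∈ (univ \ C.sub g : Finset K.F), h ≠ some y) →
        Relation.ReflTransGen (fun a b => (∀ y ∈ (univ \ C.sub g : Finset K.F), b ≠ some y) ∧
          Adj K a b) h none := by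
      intro h hh
      cases h with
      | none => exact Relation.ReflTransGen.refl
      | some y =>
        have hy : y ∈ C.sub g := by
          by_contra hy
          exact hh y (by simp [hy]) rfl
        have h2 : ∀ y ∈ C.sub g, Relation.ReflTransGen
            (fun a b => (∀ y ∈ (univ \ C.sub g : Finset K.F), b ≠ some y) ∧
              Adj K a b) (some y) (some g) := by
          intro y hy
          have h3 := sub_conn C g y hy
          clear hh
          induction h3 using Relation.ReflTransGen.head_induction_on with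
          | refl => exact Relation.ReflTransGen.refl
          | head h4 h5 ih =>
            refine Relation.ReflTransGen.head ⟨?_, h4.2⟩ (ih h4.1)
            rintro z hz1 hz2
            have := Option.some.inj hz2
            subst this
            simp only [Finset.mem_sdiff, Finset.mem_univ, true_and] at hz1
            exact hz1 h4.1
        refine (h2 y hy).trans ?_
        have h3 := (rtg_symm (S := fun b => ∀ y ∈ (univ \ C.sub g : Finset K.F), b ≠ some y)
          (r := Adj K) adj_symm (f := some x) (g := some g) ?_ (h2 x hx)).2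
        · refine h3.tail ⟨fun y _ => by simp, rv d0, hx', ?_⟩
          rw [rvrv]
          exact hd0
        · intro y hy hxy
          have := Option.some.inj hxy
          subst this
          simp only [Finset.mem_sdiff, Finset.mem_univ, true_and] at hy
          exact hy hx
    have h2 := iso_of_bonds hS w hw psi psi0 hsub (fun B hBS hBB => hB B hBB (by
      rintro rfl
      have := hBS (Finset.mem_univ g)
      simp only [Finset.mem_sdiff, Finset.mem_univ, true_and] at this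
      exact this (self_mem C g)))
    have hcard : (univ \ C.sub g : Finset K.F).card = Fintype.card K.F - (C.sub g).card := by
      rw [Finset.card_sdiff_of_subset (Finset.subset_univ _), Finset.card_univ]
    rw [hcard] at h2
    set B1 := K.bdry (C.sub g) with hB1
    set B2 := K.bdry (univ \ C.sub g : Finset K.F) with hB2
    have h3 : B2 \ K.outE ⊆ B1 \ K.outE := by
      intro e he
      rw [Finset.mem_sdiff] at he ⊢
      refine ⟨?_, he.2⟩
      obtain ⟨d, hd1, ⟨y, hy, hd2⟩, hd3⟩ := mem_bdry_iff.1 he.1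
      obtain ⟨f, hf⟩ := face_ex (rv d)
      cases f with
      | none => exact absurd (mem_outE.2 ⟨_, hf, hd1⟩) he.2
      | some v =>
        have hv : v ∈ C.sub g := by
          by_contra hv
          exact hd3 ⟨v, by simp [hv], hf⟩
        refine mem_bdry_iff.2 ⟨rv d, hd1, ⟨v, hv, hf⟩, ?_⟩
        rintro ⟨u, hu, hu2⟩
        rw [rvrv] at hu2
        have := Option.some.inj (face_uniq hu2 hd2)
        subst this
        simp only [Finset.mem_sdiff, Finset.mem_univ, true_and] at hy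
        exact hy hu
    have h4 : ∑ e ∈ B2 \ K.outE, w e ≤ ∑ e ∈ B1 \ K.outE, w e :=
      Finset.sum_le_sum_of_subset_of_nonneg h3 (fun e _ _ => hw e)
    have h5 : Disjoint (B1 ∩ K.outE) (B2 ∩ K.outE) := by
      rw [Finset.disjoint_left]
      intro e he he'
      rw [Finset.mem_inter] at he he'
      refine out_disj (B := C.sub g) (B' := univ \ C.sub g) Finset.disjoint_sdiff he.2 he.1 he'.1
    have h6 : ∑ e ∈ B1 ∩ K.outE, w e + ∑ e ∈ B2 ∩ K.outE, w e ≤ ∑ e ∈ K.outE, w e := by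
      rw [← Finset.sum_union h5]
      refine Finset.sum_le_sum_of_subset_of_nonneg ?_ (fun e _ _ => hw e)
      intro e he
      rcases Finset.mem_union.1 he with h | h
      · exact (Finset.mem_inter.1 h).2
      · exact (Finset.mem_inter.1 h).2
    have h7 : ∑ e ∈ B1, w e = ∑ e ∈ B1 ∩ K.outE, w e + ∑ e ∈ B1 \ K.outE, w e :=
      (Finset.sum_inter_add_sum_sdiff _ _ _).symm
    have h8 : ∑ e ∈ B2, w e = ∑ e ∈ B2 ∩ K.outE, w e + ∑ e ∈ B2 \ K.outE, w e :=
      (Finset.sum_inter_add_sum_sdiff _ _ _).symm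
    linarith

/-- **F7 (d), combinatorial part**: the balanced cut of a sphere. -/
theorem sphere_cut (T : K.STree) (C : K.Cotree)
    (hC : ∀ f, ∀ e ∈ K.bdry (C.sub f), e = (C.dd f).1 ∨ T.Anc (K.org (C.dd f)) e ∨
      T.Anc (K.org (rv (C.dd f))) e)
    (w : K.E → ℝ) (hw : ∀ e, 0 ≤ w e) (Y R : ℝ) (hwY : ∀ e, w e ≤ Y)
    (Δ : ℕ) (hΔ : ∀ f : Option K.F, (K.bd f).length ≤ Δ)
    (P2 : ∀ v, ∀ B : Finset K.E, (∀ e ∈ B, T.Anc v e) → ∑ e ∈ B, w e ≤ R)
    (hF : 1 ≤ Fintype.card K.F) :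
    ∃ g : K.F, Fintype.card K.F + 1 ≤ 4 * Δ * (C.sub g).card ∧
      2 * (C.sub g).card ≤ Fintype.card K.F + 1 ∧ K.Bond (C.sub g) ∧
      ∑ e ∈ K.bdry (C.sub g), w e ≤ 2 * R + Y := by
  classical
  obtain ⟨g, h1, h2⟩ := centroid_sphere C Δ hΔ hF
  refine ⟨g, h1, h2, sub_bond C g, ?_⟩
  have := inner_bdry hC w hw Y R hwY ∅
    (fun v => P2 v _ (fun e he => (Finset.mem_filter.1 he).2.1)) g
  simpa using this

end Vale.Agent.P201.Z.F5
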