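import Vale.Agent.P201.Z.PC

/-!
P201, part F, block F1: the local isoperimetric inequality for words (helper402).
`f1a`: no power `t^m`, `m ≠ 0`, is a product of `k ≤ M` conjugates of relators.
`f1b`: `e1 * k ≤ |u|` (even `≤ |u| / 2`) if `u` has area `k ≤ M`.
-/

namespace Vale.Agent.P201.Z

open Finset

variable {p : Pat} {n : ℕ} {σ : Equiv.Perm (Cel p n)}

theorem Expr.zero_eq {u : FreeGroup (Let p n)} {z : Chn σ} (h : Expr σ 0 u z) : u = 1 ∧ z = 0 := by
  cases h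
  exact ⟨rfl, rfl⟩

/-- minimal area gives unreducible expressions -/
theorem MinA.noRed {u : FreeGroup (Let p n)} {k : ℕ} {z : Chn σ} (h : MinA σ u k) :
    NoRed σ u k z := by
  intro k1 z1 h1 h2 _ h4
  have := h.2 _ _ h4
  omega

/-- existence of the minimal area -/
theorem exists_minA {u : FreeGroup (Let p n)} {k : ℕ} {z : Chn σ} (h : Expr σ k u z) :
    ∃ k0, k0 ≤ k ∧ MinA σ u k0 := by
  classical
  have hex : ∃ k, ∃ z, Expr σ k u z := ⟨k, z, h⟩
  exact ⟨Nat.find hex, Nat.find_min' hex ⟨z, h⟩, Nat.find_spec hex,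
    fun k' z' h' => Nat.find_min' hex ⟨z', h'⟩⟩

theorem val_toWord (u : FreeGroup (Let p n)) : val u.toWord = u := by
  unfold val
  exact FreeGroup.mk_toWord

theorem mem_toWord_of {l : List (Let p n × Bool)} {a : Let p n × Bool}
    (h : a ∈ (val l).toWord) : a ∈ l := by
  unfold val at h
  rw [FreeGroup.toWord_mk] at h
  exact (FreeGroup.Red.sublist (FreeGroup.reduce.red (L := l))).subset h

theorem mem_tw {m : ℤ} {a : Let p n × Bool} (h : a ∈ tw p n m) : a.1 = Let.t := by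
  unfold tw at h
  rw [(List.mem_replicate.1 h).2]

/-- weight of a word all whose letters are `t` -/
theorem wtw_eq_zero {Y : ℕ} {l : List (Let p n × Bool)} (h : ∀ a ∈ l, a.1 = Let.t) :
    wtw Y l = 0 := by
  unfold wtw
  rw [List.sum_eq_zero_iff]
  intro x hx
  obtain ⟨a, ha, rfl⟩ := List.mem_map.1 hx
  rw [h a ha]
  rfl

open Classical in
/-- exponent sum of `t` -/
noncomputable def tsum (p : Pat) (n : ℕ) : FreeGroup (Let p n) →* Multiplicative ℤ :=
  FreeGroup.lift (fun a => if a = Let.t then Multiplicative.ofAdd 1 else 1)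

theorem tsum_tw (m : ℤ) : tsum p n (val (tw p n m)) = Multiplicative.ofAdd m := by
  unfold tsum val tw
  rw [FreeGroup.lift_mk, List.map_replicate, List.prod_replicate]
  rcases le_or_gt 0 m with h | h
  · simp only [h, decide_true, if_true, Bool.cond_true]
    rw [← ofAdd_nsmul]
    congr 1
    simp [Int.natAbs_of_nonneg h]
  · have h' : ¬ (0 ≤ m) := not_le.2 h
    simp only [h', decide_false, if_true, Bool.cond_false]
    rw [← ofAdd_neg, ← ofAdd_nsmul]
    congr 1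
    simp only [smul_neg, nsmul_eq_mul, mul_one]
    omega

theorem tw_ne_one {m : ℤ} (hm : m ≠ 0) : val (tw p n m) ≠ 1 := by
  intro h
  have h1 := tsum_tw (p := p) (n := n) m
  rw [h, map_one] at h1
  apply hm
  exact (ofAdd_eq_one.1 h1.symm)

/-- F1 (a) -/
theorem f1a (hVK : StmtVK) (hBr : StmtBridge) {M Y : ℕ} {e1 : ℝ} (he : 0 < e1)
    (hloc : LocIso σ M Y e1) (m : ℤ) (k : ℕ) (z : Chn σ) (hm : m ≠ 0) (hk : k ≤ M)
    (hE : Expr σ k (val (tw p n m)) z) : False := by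
  classical
  -- minimal number of relators over all `m`
  have hex : ∃ k, ∃ (m : ℤ) (z : Chn σ), m ≠ 0 ∧ Expr σ k (val (tw p n m)) z :=
    ⟨k, m, z, hm, hE⟩
  obtain ⟨m0, z0, hm0, hE0⟩ := Nat.find_spec hex
  have hmin : ∀ k' (m' : ℤ) (z' : Chn σ), m' ≠ 0 → Expr σ k' (val (tw p n m')) z' →
      Nat.find hex ≤ k' := fun k' m' z' h1 h2 => Nat.find_min' hex ⟨m', z', h1, h2⟩
  set k0 := Nat.find hex with hk0
  have hk0M : k0 ≤ M := (hmin k m z hm hE).trans hk
  have hMinA : MinA σ (val (tw p n m0)) k0 := ⟨⟨z0, hE0⟩, fun k' z' h => hmin k' m0 z' hm0 h⟩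
  obtain ⟨K, P, hcard, hout, hchn⟩ := hVK p n σ _ k0 z0 hE0 hMinA.noRed
  have hlet : ∀ a ∈ K.outw, a.1 = Let.t := by
    intro a ha
    rw [hout] at ha
    exact mem_tw (mem_toWord_of ha)
  obtain ⟨G, hR, hL, hEu, hGc, hw⟩ := hBr p n σ K P
    (by rw [hout, val_toWord, hcard, hchn]; exact hMinA.noRed)
    (fun m' k' z' h1 h2 => Or.inr ⟨by rw [hcard]; exact hmin k' m' z' h1 h2, hlet⟩)
  have hw1 := hw 1
  rw [wtw_eq_zero hlet] at hw1
  have hX : Fintype.card G.S ≤ domc G.X := by omega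
  have hY : Fintype.card G.S ≤ domc G.Y := by omega
  have hiso := hloc G hR hL hEu (by rw [hGc, hcard]; exact hk0M)
  have hX' : (Fintype.card G.S : ℝ) ≤ domc G.X := by exact_mod_cast hX
  have hY' : (Fintype.card G.S : ℝ) ≤ domc G.Y := by exact_mod_cast hY
  have hnon : e1 * (Fintype.card G.S : ℝ) ≤ 0 := by
    have : (Y : ℝ) * ((Fintype.card G.S : ℝ) - domc G.Y) ≤ 0 :=
      mul_nonpos_of_nonneg_of_nonpos (Nat.cast_nonneg _) (by linarith)
    linarith
  have hk00 : k0 = 0 := by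
    have h2 : (Fintype.card G.S : ℝ) ≤ 0 := by
      by_contra hc
      push Not at hc
      have := mul_pos he hc
      linarith
    have h3 : Fintype.card G.S = 0 := by
      have : (Fintype.card G.S : ℝ) = 0 := le_antisymm h2 (Nat.cast_nonneg _)
      exact_mod_cast this
    rw [← hcard, ← hGc, h3]
  rw [hk00] at hE0
  exact tw_ne_one hm0 hE0.zero_eq.1

/-- F1 (b), with the factor 2 -/
theorem f1b2 (hVK : StmtVK) (hBr : StmtBridge) {M Y : ℕ} {e1 : ℝ} (he : 0 < e1)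
    (hloc : LocIso σ M Y e1) {u : FreeGroup (Let p n)} {k : ℕ} (hu : MinA σ u k) (hk : k ≤ M) :
    2 * (e1 * k) ≤ (wtw Y u.toWord : ℝ) := by
  classical
  obtain ⟨⟨z, hz⟩, hmin⟩ := id hu
  obtain ⟨K, P, hcard, hout, hchn⟩ := hVK p n σ u k z hz hu.noRed
  obtain ⟨G, hR, hL, hEu, hGc, hw⟩ := hBr p n σ K P
    (by rw [hout, val_toWord, hcard, hchn]; exact hu.noRed)
    (fun m' k' z' h1 h2 => Or.inl (by
      rw [hcard]
      by_contra hc
      push Not at hc
      exact f1a hVK hBr he hloc m' k' z' h1 (hc.trans hk) h2))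
  have hw1 := hw Y
  rw [hout] at hw1
  have hiso := hloc G hR hL hEu (by rw [hGc, hcard]; exact hk)
  have hsub : ∀ a b : ℕ, (a : ℝ) - b ≤ ((a - b : ℕ) : ℝ) := by
    intro a b
    rcases le_total b a with h | h
    · rw [Nat.cast_sub h]
    · rw [Nat.sub_eq_zero_of_le h]
      have : (a : ℝ) ≤ b := by exact_mod_cast h
      simpa using this
  have h1 := hsub (Fintype.card G.S) (domc G.X)
  have h2 := hsub (Fintype.card G.S) (domc G.Y)
  have hw2 : (2 * ((Fintype.card G.S - domc G.X : ℕ) : ℝ) +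
      Y * (2 * ((Fintype.card G.S - domc G.Y : ℕ) : ℝ))) ≤ (wtw Y u.toWord : ℝ) := by
    exact_mod_cast hw1
  have h3 : (Y : ℝ) * ((Fintype.card G.S : ℝ) - domc G.Y) ≤
      Y * ((Fintype.card G.S - domc G.Y : ℕ) : ℝ) :=
    mul_le_mul_of_nonneg_left h2 (Nat.cast_nonneg _)
  have hkc : (k : ℝ) = (Fintype.card G.S : ℝ) := by rw [hGc, hcard]
  rw [hkc]
  linarith

/-- F1 (b) -/
theorem f1b (hVK : StmtVK) (hBr : StmtBridge) {M Y : ℕ} {e1 : ℝ} (he : 0 < e1)
    (hloc : LocIso σ M Y e1) {u : FreeGroup (Let p n)} {k : ℕ} (hu : MinA σ u k) (hk : k ≤ M) :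
    e1 * k ≤ (wtw Y u.toWord : ℝ) := by
  have h := f1b2 hVK hBr he hloc hu hk
  have h0 : 0 ≤ e1 * (k : ℝ) := mul_nonneg he.le (Nat.cast_nonneg _)
  linarith

end Vale.Agent.P201.Z
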