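import Vale.Agent.P201.Z.F.Comp

/-!
P201, part F: F7(b) (sphere isoperimetry from bonds) and the decomposition of a set of inner faces with
dual connected complement into bonds (used in F3(b), F5(b)).  (helper516)
-/

namespace Vale.Agent.P201.Z

open Finset Relation

namespace PC

set_option linter.unusedSectionVars false
set_option linter.unusedVariables false

variable {A : Type} (K : PC A)

theorem sph_exists_face (d : K.E × Bool) : ∃ f, d ∈ K.bd f := by
  by_contra h
  push Not at h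
  have := K.once d
  rw [Finset.sum_eq_zero (fun f _ => List.count_eq_zero.mpr (h f))] at this
  exact absurd this (by decide)

theorem sph_face_unique {d : K.E × Bool} {f g : Option K.F} (hf : d ∈ K.bd f) (hg : d ∈ K.bd g) :
    f = g := by
  by_contra hne
  have h1 : 1 ≤ (K.bd f).count d := List.count_pos_iff.mpr hf
  have h2 : 1 ≤ (K.bd g).count d := List.count_pos_iff.mpr hg
  have h3 : (K.bd f).count d + (K.bd g).count d ≤ ∑ f, (K.bd f).count d := by
    rw [← Finset.sum_pair (f := fun x => (K.bd x).count d) hne]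
    exact Finset.sum_le_sum_of_subset (Finset.subset_univ _)
  have h4 := K.once d
  omega

theorem sph_fc_mem (d : K.E × Bool) : d ∈ K.bd (K.fc d) :=
  Classical.epsilon_spec (K.sph_exists_face d)

theorem sph_mem_bd_iff {d : K.E × Bool} {f : Option K.F} : d ∈ K.bd f ↔ K.fc d = f :=
  ⟨fun h => K.sph_face_unique (K.sph_fc_mem d) h, fun h => h ▸ K.sph_fc_mem d⟩

theorem sph_mem_bdry {C : Finset K.F} {e : K.E} : e ∈ K.bdry C ↔
    ¬ ((∃ f ∈ C, K.fc (e, true) = some f) ↔ (∃ f ∈ C, K.fc (e, false) = some f)) := by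
  unfold bdry
  simp only [mem_filter, mem_univ, true_and, sph_mem_bd_iff]

/-- a set of inner faces as a set of faces -/
def sphUp (C : Finset K.F) : Finset (Option K.F) := C.map Function.Embedding.some

theorem sph_mem_up {C : Finset K.F} {x : Option K.F} : x ∈ K.sphUp C ↔ ∃ f ∈ C, x = some f := by
  simp only [sphUp, mem_map, Function.Embedding.some_apply]
  constructor
  · rintro ⟨f, hf, rfl⟩; exact ⟨f, hf, rfl⟩
  · rintro ⟨f, hf, rfl⟩; exact ⟨f, hf, rfl⟩

theorem sph_some_mem_up {C : Finset K.F} {f : K.F} : some f ∈ K.sphUp C ↔ f ∈ C := by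
  simp [sph_mem_up]

theorem sph_none_notMem_up {C : Finset K.F} : none ∉ K.sphUp C := by
  simp [sph_mem_up]

theorem sph_card_up (C : Finset K.F) : (K.sphUp C).card = C.card := Finset.card_map _

theorem sph_not_up {C : Finset K.F} {x : Option K.F} : x ∉ K.sphUp C ↔ ∀ f ∈ C, x ≠ some f := by
  rw [sph_mem_up]; push Not; rfl

theorem sph_bdry_eq (C : Finset K.F) : K.bdry C = DG.bS K.fc (K.sphUp C) := by
  ext e
  have h1 : ∀ b, K.fc (e, b) ∈ K.sphUp C ↔ ∃ f ∈ C, K.fc (e, b) = some f := fun b => K.sph_mem_up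
  rw [K.sph_mem_bdry, DG.mem_bS, h1, h1]

theorem sph_adj_iff {a b : Option K.F} : DG.Adj K.fc a b ↔ ∃ d, d ∈ K.bd a ∧ rv d ∈ K.bd b := by
  unfold DG.Adj
  simp only [K.sph_mem_bd_iff]

theorem sph_dg_conn (f g : Option K.F) : ReflTransGen (DG.Adj K.fc) f g := by
  have h := K.dconn f g
  induction h with
  | refl => exact ReflTransGen.refl
  | tail _ h2 ih => exact ih.tail (K.sph_adj_iff.2 h2)

/-- a set of faces without the outer one is `up` of a set of inner faces -/
theorem sph_exists_up {S : Finset (Option K.F)} (h : none ∉ S) : ∃ C : Finset K.F, K.sphUp C = S := by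
  refine ⟨univ.filter (fun f => some f ∈ S), ?_⟩
  ext x
  rw [sph_mem_up]
  constructor
  · rintro ⟨f, hf, rfl⟩
    simpa using hf
  · intro hx
    cases x with
    | none => exact absurd hx h
    | some f => exact ⟨f, by simpa using hx, rfl⟩

theorem sph_bond_of_cn {C : Finset K.F} (hne : C.Nonempty) (h1 : DG.Cn K.fc (K.sphUp C))
    (h2 : DG.Cn K.fc (K.sphUp C)ᶜ) : K.Bond C := by
  refine ⟨hne, ?_, ?_⟩
  · intro f hf g hg
    have key : ∀ x, ReflTransGen (DG.St K.fc (K.sphUp C)) (some f) x → ∀ g, x = some g →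
        ReflTransGen (fun a b => b ∈ C ∧ ∃ d, d ∈ K.bd (some a) ∧ rv d ∈ K.bd (some b)) f g := by
      intro x hx
      induction hx with
      | refl => intro g hg; cases hg; exact ReflTransGen.refl
      | tail hp hs ih =>
        rename_i y z
        intro g hg
        subst hg
        have hy : y ∈ K.sphUp C := DG.rtg_mem K.fc (K.sph_some_mem_up.2 hf) hp
        obtain ⟨y', hy', rfl⟩ := K.sph_mem_up.1 hy
        exact (ih y' rfl).tail ⟨K.sph_some_mem_up.1 hs.1, K.sph_adj_iff.1 hs.2⟩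
    exact key _ (h1 _ (K.sph_some_mem_up.2 hf) _ (K.sph_some_mem_up.2 hg)) g rfl
  · intro f g hf hg
    have hf' : f ∈ (K.sphUp C)ᶜ := by rw [mem_compl]; exact K.sph_not_up.2 hf
    have hg' : g ∈ (K.sphUp C)ᶜ := by rw [mem_compl]; exact K.sph_not_up.2 hg
    have := h2 f hf' g hg'
    clear hg hg'
    induction this with
    | refl => exact ReflTransGen.refl
    | tail _ hs ih =>
      exact ih.tail ⟨K.sph_not_up.1 (mem_compl.1 hs.1), K.sph_adj_iff.1 hs.2⟩

/-- F7(b): isoperimetry on the sphere for all sets of faces, from the bonds. -/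
theorem sphere_iso (w : K.E → ℝ) (hw : ∀ e, 0 ≤ w e) (a : ℝ) (ha : 0 ≤ a)
    (h : ∀ C : Finset K.F, K.Bond C →
      a * min (C.card : ℝ) ((Fintype.card K.F : ℝ) + 1 - C.card) ≤ ∑ e ∈ K.bdry C, w e)
    (S : Finset (Option K.F)) :
    a * min (S.card : ℝ) ((Fintype.card K.F : ℝ) + 1 - S.card) ≤ ∑ e ∈ DG.bS K.fc S, w e := by
  have hcard : ∀ S : Finset (Option K.F), (Sᶜ.card : ℝ) = (Fintype.card K.F : ℝ) + 1 - S.card := by
    intro S
    have h1 : S.card + Sᶜ.card = Fintype.card K.F + 1 := by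
      rw [Finset.card_add_card_compl, Fintype.card_option]
    have h2 : (S.card : ℝ) + (Sᶜ.card : ℝ) = (Fintype.card K.F : ℝ) + 1 := by exact_mod_cast h1
    linarith
  have h0 := DG.sphere_iso K.fc K.sph_dg_conn w hw a ha ?_ S
  · rwa [hcard] at h0
  · intro C hne hne' hcn hcn'
    by_cases hnone : none ∈ C
    · obtain ⟨D, hD⟩ := K.sph_exists_up (S := Cᶜ) (by rw [mem_compl]; exact fun h => h hnone)
      have hDne : D.Nonempty := by
        obtain ⟨x, hx⟩ := hne'
        rw [← hD] at hx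
        obtain ⟨f, hf, _⟩ := K.sph_mem_up.1 hx
        exact ⟨f, hf⟩
      have hb : K.Bond D := K.sph_bond_of_cn hDne (by rw [hD]; exact hcn') (by rw [hD, compl_compl]; exact hcn)
      have h1 := h D hb
      rw [K.sph_bdry_eq, hD, DG.bS_compl] at h1
      have h2 : (D.card : ℝ) = (Cᶜ.card : ℝ) := by rw [← hD, K.sph_card_up]
      have h3 : (Fintype.card K.F : ℝ) + 1 - D.card = (C.card : ℝ) := by
        rw [h2, hcard]; ring
      rw [h3, h2, min_comm] at h1
      exact h1
    · obtain ⟨D, hD⟩ := K.sph_exists_up (S := C) hnone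
      have hDne : D.Nonempty := by
        obtain ⟨x, hx⟩ := hne
        rw [← hD] at hx
        obtain ⟨f, hf, _⟩ := K.sph_mem_up.1 hx
        exact ⟨f, hf⟩
      have hb : K.Bond D := K.sph_bond_of_cn hDne (by rw [hD]; exact hcn) (by rw [hD]; exact hcn')
      have h1 := h D hb
      rw [K.sph_bdry_eq, hD] at h1
      have h2 : (D.card : ℝ) = (C.card : ℝ) := by rw [← hD, K.sph_card_up]
      rw [h2, ← hcard] at h1
      exact h1

/-- F7(b) for sets of inner faces -/
theorem sphere_iso' (w : K.E → ℝ) (hw : ∀ e, 0 ≤ w e) (a : ℝ) (ha : 0 ≤ a)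
    (h : ∀ C : Finset K.F, K.Bond C →
      a * min (C.card : ℝ) ((Fintype.card K.F : ℝ) + 1 - C.card) ≤ ∑ e ∈ K.bdry C, w e)
    (S : Finset K.F) :
    a * min (S.card : ℝ) ((Fintype.card K.F : ℝ) + 1 - S.card) ≤ ∑ e ∈ K.bdry S, w e := by
  have h0 := K.sphere_iso w hw a ha h (K.sphUp S)
  rwa [K.sph_card_up, ← K.sph_bdry_eq] at h0

/-- decomposition of a set `U` of inner faces with dual connected complement into bonds -/
theorem decomp_bonds (U : Finset K.F)
    (hU : ∀ f g : Option K.F, (∀ x ∈ U, f ≠ some x) → (∀ x ∈ U, g ≠ some x) → ReflTransGen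
      (fun a b => (∀ x ∈ U, b ≠ some x) ∧ ∃ d, d ∈ K.bd a ∧ rv d ∈ K.bd b) f g) :
    ∃ P : Finset (Finset K.F), (∀ C ∈ P, K.Bond C) ∧ (∀ C ∈ P, C ⊆ U) ∧
      (∀ C ∈ P, ∀ D ∈ P, C ≠ D → Disjoint C D) ∧ P.biUnion id = U ∧ (∑ C ∈ P, C.card = U.card) ∧
      (∀ C ∈ P, K.bdry C ⊆ K.bdry U) ∧
      (∀ w : K.E → ℝ, ∑ C ∈ P, ∑ e ∈ K.bdry C, w e = ∑ e ∈ K.bdry U, w e) := by
  classical
  set O : Finset (Option K.F) := (K.sphUp U)ᶜ with hO
  have hOc : Oᶜ = K.sphUp U := by rw [hO, compl_compl]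
  have hcn : DG.Cn K.fc O := by
    intro f hf g hg
    have hf' := K.sph_not_up.1 (mem_compl.1 hf)
    have hg' := K.sph_not_up.1 (mem_compl.1 hg)
    have := hU f g hf' hg'
    clear hg hg'
    induction this with
    | refl => exact ReflTransGen.refl
    | tail _ hs ih =>
      exact ih.tail ⟨mem_compl.2 (K.sph_not_up.2 hs.1), K.sph_adj_iff.2 hs.2⟩
  have hne : O.Nonempty := ⟨none, mem_compl.2 K.sph_none_notMem_up⟩
  -- every component is `up` of a set of inner faces
  have hup : ∀ C' ∈ DG.comps K.fc Oᶜ, ∃ C : Finset K.F, K.sphUp C = C' := by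
    intro C' hC'
    refine K.sph_exists_up ?_
    intro h
    have := DG.comps_sub K.fc hC' h
    rw [hOc] at this
    exact K.sph_none_notMem_up this
  set dn : Finset (Option K.F) → Finset K.F := fun C' => univ.filter (fun f => some f ∈ C') with hdn
  have hdnup : ∀ C : Finset K.F, dn (K.sphUp C) = C := by
    intro C
    ext f
    simp only [hdn, mem_filter, mem_univ, true_and]
    exact K.sph_some_mem_up
  have hupdn : ∀ C' ∈ DG.comps K.fc Oᶜ, K.sphUp (dn C') = C' := by
    intro C' hC'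
    obtain ⟨C, rfl⟩ := hup C' hC'
    rw [hdnup]
  have hinj : Set.InjOn dn (DG.comps K.fc Oᶜ : Set (Finset (Option K.F))) := by
    intro C hC D hD hCD
    rw [← hupdn C hC, ← hupdn D hD, hCD]
  refine ⟨(DG.comps K.fc Oᶜ).image dn, ?_, ?_, ?_, ?_, ?_, ?_, ?_⟩
  · intro C hC
    obtain ⟨C', hC', rfl⟩ := mem_image.1 hC
    have h1 := DG.comps_cn K.fc hC'
    have h2 := DG.comps_compl K.fc K.sph_dg_conn hcn hne hC'
    rw [← hupdn C' hC'] at h1 h2
    refine K.sph_bond_of_cn ?_ h1 h2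
    obtain ⟨x, hx⟩ := DG.comps_ne K.fc hC'
    rw [← hupdn C' hC'] at hx
    obtain ⟨f, hf, _⟩ := K.sph_mem_up.1 hx
    exact ⟨f, hf⟩
  · intro C hC
    obtain ⟨C', hC', rfl⟩ := mem_image.1 hC
    intro f hf
    have h1 : some f ∈ C' := by
      rw [← hupdn C' hC']; exact K.sph_some_mem_up.2 hf
    have h2 := DG.comps_sub K.fc hC' h1
    rw [hOc] at h2
    exact K.sph_some_mem_up.1 h2
  · intro C hC D hD hne'
    obtain ⟨C', hC', rfl⟩ := mem_image.1 hC
    obtain ⟨D', hD', rfl⟩ := mem_image.1 hD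
    have h1 := DG.comps_disj K.fc hC' hD' (fun h => hne' (by rw [h]))
    rw [Finset.disjoint_left] at h1 ⊢
    intro f hf hf'
    refine h1 (a := some f) ?_ ?_
    · rw [← hupdn C' hC']; exact K.sph_some_mem_up.2 hf
    · rw [← hupdn D' hD']; exact K.sph_some_mem_up.2 hf'
  · ext f
    simp only [mem_biUnion, mem_image, id]
    constructor
    · rintro ⟨C, ⟨C', hC', rfl⟩, hf⟩
      have h1 : some f ∈ C' := by
        rw [← hupdn C' hC']; exact K.sph_some_mem_up.2 hf
      have h2 := DG.comps_sub K.fc hC' h1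
      rw [hOc] at h2
      exact K.sph_some_mem_up.1 h2
    · intro hf
      have h1 : some f ∈ Oᶜ := by rw [hOc]; exact K.sph_some_mem_up.2 hf
      rw [← DG.comps_union K.fc Oᶜ] at h1
      obtain ⟨C', hC', hf'⟩ := mem_biUnion.1 h1
      refine ⟨dn C', ⟨C', hC', rfl⟩, ?_⟩
      simp only [hdn, mem_filter, mem_univ, true_and]
      exact hf'
  · rw [Finset.sum_image hinj]
    have h1 : ∀ C' ∈ DG.comps K.fc Oᶜ, (dn C').card = C'.card := by
      intro C' hC'
      conv_rhs => rw [← hupdn C' hC']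
      rw [K.sph_card_up]
    rw [Finset.sum_congr rfl h1, DG.sum_comps_card, hOc, K.sph_card_up]
  · intro C hC
    obtain ⟨C', hC', rfl⟩ := mem_image.1 hC
    rw [K.sph_bdry_eq, K.sph_bdry_eq, hupdn C' hC', ← hOc, ← DG.comps_bunion K.fc Oᶜ]
    exact Finset.subset_biUnion_of_mem (DG.bS K.fc) hC'
  · intro w
    rw [Finset.sum_image hinj]
    have h1 : ∀ C' ∈ DG.comps K.fc Oᶜ, ∑ e ∈ K.bdry (dn C'), w e = ∑ e ∈ DG.bS K.fc C', w e := by
      intro C' hC'
      rw [K.sph_bdry_eq, hupdn C' hC']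
    rw [Finset.sum_congr rfl h1, DG.sum_comps_bS, hOc, K.sph_bdry_eq]

end PC

end Vale.Agent.P201.Z
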