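import Vale.Agent.P201.Z.F.Sq

/-!
P201, part F: growth of balls (helper643).
* `PC.radius_disc` (F4): every vertex is close to the outer boundary.
* `PC.diam_sphere` (F7c): all vertices are close to each other (all faces squares).
-/

set_option linter.all false

namespace Vale.Agent.P201.Z

open Finset

variable {p : Pat} {n : ℕ} {σ : Equiv.Perm (Cel p n)}

namespace PC

variable (K : PC (Let p n))

/-- `b` is the boundary of a set of faces (possibly with the outer face) -/
noncomputable def bdryO (C : Finset (Option K.F)) : Finset K.E := by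
  classical
  exact univ.filter (fun e => ¬ (K.fc (e, true) ∈ C ↔ K.fc (e, false) ∈ C))

/-- faces of `Q` whose end vertex is within weight `r` of `v` -/
noncomputable def ball (Y : ℕ) (Q : Finset (Option K.F)) (r : ℕ) (v : K.V) : Finset (Option K.F) := by
  classical
  exact Q.filter (fun φ => K.Reach (K.wE Y) r v (K.ev φ))

/-- x-edges of a face -/
noncomputable def xed (φ : Option K.F) : Finset K.E := by
  classical
  exact univ.filter (fun e => (∃ i a, K.lab e = Let.x i a) ∧ ∃ b, (e, b) ∈ K.bd φ)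

variable {K}

theorem mem_bdryO {C : Finset (Option K.F)} {e : K.E} :
    e ∈ K.bdryO C ↔ ¬ (K.fc (e, true) ∈ C ↔ K.fc (e, false) ∈ C) := by
  simp [bdryO]

theorem mem_ball {Y : ℕ} {Q : Finset (Option K.F)} {r : ℕ} {v : K.V} {φ : Option K.F} :
    φ ∈ K.ball Y Q r v ↔ φ ∈ Q ∧ K.Reach (K.wE Y) r v (K.ev φ) := by
  simp [ball]

theorem mem_xed {φ : Option K.F} {e : K.E} :
    e ∈ K.xed φ ↔ (∃ i a, K.lab e = Let.x i a) ∧ ∃ b, (e, b) ∈ K.bd φ := by
  simp [xed]

theorem ball_subset (Y : ℕ) (Q : Finset (Option K.F)) (r : ℕ) (v : K.V) : K.ball Y Q r v ⊆ Q := by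
  intro φ hφ
  exact (mem_ball.1 hφ).1

theorem ball_mono {Y : ℕ} {Q : Finset (Option K.F)} {r s : ℕ} (h : r ≤ s) (v : K.V) :
    K.ball Y Q r v ⊆ K.ball Y Q s v := by
  intro φ hφ
  rw [mem_ball] at hφ ⊢
  exact ⟨hφ.1, hφ.2.mono h⟩

theorem card_xed {φ : Option K.F} {q : Port p n} (h : K.IsSq σ φ q) : (K.xed φ).card ≤ 2 := by
  classical
  obtain ⟨G⟩ := h.geo
  have : K.xed φ ⊆ {G.dx.1, G.dx'.1} := by
    intro e he
    rw [mem_xed] at he
    obtain ⟨hx, b, hb⟩ := he
    rcases G.x_darts hb hx with h | h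
    · simp [← h]
    · simp [← h]
  exact (card_le_card this).trans card_le_two

/-- the crossing edges of a ball -/
theorem bdry_ball {Y : ℕ} {Q : Finset (Option K.F)} (hQ : ∀ φ ∈ Q, ∃ q, K.IsSq σ φ q)
    {r : ℕ} {v : K.V}
    (hno : ∀ φ, φ ∉ Q → ∀ d ∈ K.bd φ, ¬ K.Reach (K.wE Y) (r + 2 * Y + 2) v (K.org d))
    {e : K.E} {b : Bool} (h1 : K.fc (e, b) ∈ K.ball Y Q r v) (h2 : K.fc (e, !b) ∉ K.ball Y Q r v) :
    K.lab e = Let.t ∨ ∃ φ ∈ K.ball Y Q (r + 2 * Y) v \ K.ball Y Q r v, e ∈ K.xed φ := by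
  classical
  have hα := K.fc_mem (e, b)
  have hβ := K.fc_mem (e, !b)
  set α := K.fc (e, b) with hαd
  set β := K.fc (e, !b) with hβd
  obtain ⟨hαQ, hαr⟩ := mem_ball.1 h1
  obtain ⟨qa, hqa⟩ := hQ α hαQ
  obtain ⟨Ga⟩ := hqa.geo
  -- the head of the edge
  have key : ∀ (s : ℕ), s ≤ r + Y → wtl Y (K.lab e) ≤ Y + 1 →
      K.Reach (K.wE Y) s v (K.org (e, false)) → β ∈ Q := by
    intro s hs hw hreach
    by_contra hβQ
    cases hb : (!b) with
    | false =>
      rw [hb] at hβ
      exact hno β hβQ _ hβ (hreach.mono (by omega))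
    | true =>
      rw [hb] at hβ
      have h3 := hreach.trans (Reach.edge (K := K) (wt := K.wE Y) (e, false))
      have h4 : rv ((e, false) : K.E × Bool) = (e, true) := rfl
      rw [h4] at h3
      refine hno β hβQ _ hβ (h3.mono ?_)
      have : K.wE Y e = wtl Y (K.lab e) := rfl
      simp only at *
      omega
  cases hl : K.lab e with
  | t => exact Or.inl rfl
  | y c =>
    exfalso
    have h3 : K.org (e, false) = K.ev α := Ga.ev_y hα ⟨c, hl⟩
    have h4 : K.Reach (K.wE Y) r v (K.org (e, false)) := by rw [h3]; exact hαr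
    have hβQ : β ∈ Q := key r (by omega) (by rw [hl]; simp [wtl]) h4
    obtain ⟨qb, hqb⟩ := hQ β hβQ
    obtain ⟨Gb⟩ := hqb.geo
    have h5 : K.org (e, false) = K.ev β := Gb.ev_y hβ ⟨c, hl⟩
    apply h2
    rw [mem_ball]
    exact ⟨hβQ, by rw [← h5]; exact h4⟩
  | x i a =>
    right
    have h3 : K.Reach (K.wE Y) (r + Y) v (K.org (e, false)) := hαr.trans (Ga.reach_x Y hα ⟨i, a, hl⟩)
    have hβQ : β ∈ Q := key (r + Y) le_rfl (by rw [hl]; simp [wtl]) h3
    obtain ⟨qb, hqb⟩ := hQ β hβQ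
    obtain ⟨Gb⟩ := hqb.geo
    refine ⟨β, ?_, ?_⟩
    · rw [mem_sdiff]
      refine ⟨?_, h2⟩
      rw [mem_ball]
      refine ⟨hβQ, ?_⟩
      have h6 := h3.trans (Gb.reach_x Y hβ ⟨i, a, hl⟩).symm
      exact h6.mono (by omega)
    · rw [mem_xed]
      exact ⟨⟨i, a, hl⟩, _, hβ⟩

/-- the weight of the boundary of a ball is at most twice the next annulus -/
theorem wt_bdry_ball {Y : ℕ} {Q : Finset (Option K.F)} (hQ : ∀ φ ∈ Q, ∃ q, K.IsSq σ φ q)
    {r : ℕ} {v : K.V}
    (hno : ∀ φ, φ ∉ Q → ∀ d ∈ K.bd φ, ¬ K.Reach (K.wE Y) (r + 2 * Y + 2) v (K.org d)) :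
    ∑ e ∈ K.bdryO (K.ball Y Q r v), K.wE Y e ≤
      2 * (K.ball Y Q (r + 2 * Y) v \ K.ball Y Q r v).card := by
  classical
  set D := K.ball Y Q (r + 2 * Y) v \ K.ball Y Q r v with hD
  have h1 : ∀ e ∈ K.bdryO (K.ball Y Q r v), K.lab e = Let.t ∨ e ∈ D.biUnion K.xed := by
    intro e he
    rw [mem_bdryO] at he
    rw [mem_biUnion]
    by_cases h2 : K.fc (e, true) ∈ K.ball Y Q r v
    · have h3 : K.fc (e, !true) ∉ K.ball Y Q r v := by
        intro h4; exact he ⟨fun _ => h4, fun _ => h2⟩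
      exact bdry_ball hQ hno h2 h3
    · have h3 : K.fc (e, false) ∈ K.ball Y Q r v := by
        by_contra h4; exact he ⟨fun h => absurd h h2, fun h => absurd h h4⟩
      have h2' : K.fc (e, !false) ∉ K.ball Y Q r v := h2
      exact bdry_ball hQ hno h3 h2'
  have h2 : ∑ e ∈ K.bdryO (K.ball Y Q r v), K.wE Y e ≤ ∑ e ∈ D.biUnion K.xed, 1 := by
    have h3 : ∑ e ∈ K.bdryO (K.ball Y Q r v), K.wE Y e =
        ∑ e ∈ (K.bdryO (K.ball Y Q r v)).filter (fun e => e ∈ D.biUnion K.xed), K.wE Y e := by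
      rw [Finset.sum_filter]
      refine Finset.sum_congr rfl ?_
      intro e he
      split_ifs with h4
      · rfl
      · rcases h1 e he with h5 | h5
        · simp [wE, h5, wtl]
        · exact absurd h5 h4
    rw [h3]
    calc ∑ e ∈ (K.bdryO (K.ball Y Q r v)).filter (fun e => e ∈ D.biUnion K.xed), K.wE Y e
        ≤ ∑ e ∈ (K.bdryO (K.ball Y Q r v)).filter (fun e => e ∈ D.biUnion K.xed), 1 := by
          refine Finset.sum_le_sum ?_
          intro e he
          obtain ⟨φ, _, h5⟩ := mem_biUnion.1 (mem_filter.1 he).2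
          obtain ⟨⟨i, a, h6⟩, _⟩ := mem_xed.1 h5
          simp [wE, h6, wtl]
      _ ≤ ∑ e ∈ D.biUnion K.xed, 1 := by
          refine Finset.sum_le_sum_of_subset ?_
          intro e he
          exact (mem_filter.1 he).2
  refine h2.trans ?_
  rw [Finset.sum_const, smul_eq_mul, mul_one, mul_comm]
  refine card_biUnion_le_card_mul _ _ _ ?_
  intro φ hφ
  rw [hD, mem_sdiff] at hφ
  obtain ⟨q, hq⟩ := hQ φ (mem_ball.1 hφ.1).1
  exact card_xed hq

/-! ## disc -/

variable (K) in
/-- inner faces as faces -/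
noncomputable def inn : Finset (Option K.F) := (univ : Finset K.F).map Function.Embedding.some

theorem mem_inn {φ : Option K.F} : φ ∈ K.inn ↔ φ ≠ none := by
  cases φ <;> simp [inn]

theorem bdryO_map (C : Finset K.F) : K.bdryO (C.map Function.Embedding.some) = K.bdry C := by
  ext e
  rw [mem_bdryO, mem_bdry]
  have h : ∀ b, K.fc (e, b) ∈ C.map Function.Embedding.some ↔ ∃ f ∈ C, K.fc (e, b) = some f := by
    intro b
    rw [mem_map]
    constructor
    · rintro ⟨f, hf, h⟩
      exact ⟨f, hf, h.symm⟩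
    · rintro ⟨f, hf, h⟩
      exact ⟨f, hf, h.symm⟩
  rw [h, h]

theorem exists_dart [Nonempty K.F] (v : K.V) : ∃ d, K.org d = v := by
  obtain ⟨f⟩ := ‹Nonempty K.F›
  have h1 : ∃ d, d ∈ K.bd (some f) := by
    cases h : K.bd (some f) with
    | nil => exact absurd h (K.ne f)
    | cons a l => exact ⟨a, by simp⟩
  obtain ⟨d, _⟩ := h1
  by_cases h : K.org d = v
  · exact ⟨d, h⟩
  · have h2 := K.conn v (K.org d)
    rcases Relation.ReflTransGen.cases_head h2 with h3 | ⟨c, h3, _⟩
    · exact ⟨d, h3.symm⟩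
    · obtain ⟨d', h4, _⟩ := h3
      exact ⟨d', h4⟩

theorem wE_le (Y : ℕ) (e : K.E) : K.wE Y e ≤ Y + 1 := by
  unfold wE
  cases K.lab e <;> simp [wtl]

theorem radius_disc (K : PC (Let p n)) [Nonempty K.F]
    (hsq : ∀ f : K.F, ∃ q, K.IsSq σ (some f) q) (Y j0 : ℕ) (e g : ℝ) (he : 0 ≤ e) (hg : 0 < g)
    (hj : (Fintype.card K.F : ℝ) < g * (1 + e / 2) ^ j0)
    (iso : ∀ D : Finset K.F, (∀ h, K.DAdj none (some h) → h ∉ D) →
      e * D.card ≤ ∑ b ∈ K.bdry D, (K.wE Y b : ℝ))
    (star : ∀ f : K.F, (∀ d ∈ K.bd none, K.org d ≠ K.ev (some f)) →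
      g ≤ ((univ.filter (fun f' : K.F => K.ev (some f') = K.ev (some f))).card : ℝ))
    (v : K.V) : ∃ d ∈ K.bd none, K.Reach (K.wE Y) (2 * Y * j0 + Y + 3) v (K.org d) := by
  classical
  by_contra hcon
  push Not at hcon
  have hQ : ∀ φ ∈ K.inn, ∃ q, K.IsSq σ φ q := by
    intro φ hφ
    cases φ with
    | none => exact absurd rfl (mem_inn.1 hφ)
    | some f => exact hsq f
  have hballcard : ∀ r, ((K.ball Y K.inn r v).card : ℝ) ≤ Fintype.card K.F := by
    intro r
    have h1 := card_le_card (ball_subset (K := K) Y K.inn r v)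
    have h2 : (K.inn).card = Fintype.card K.F := by simp [inn]
    rw [h2] at h1
    exact_mod_cast h1
  have hstep : ∀ j, j ≤ j0 → g * (1 + e / 2) ^ j ≤ ((K.ball Y K.inn (Y + 1 + 2 * Y * j) v).card : ℝ) := by
    intro j
    induction j with
    | zero =>
      intro _
      obtain ⟨d, hd⟩ := exists_dart (K := K) v
      have hfd := K.fc_mem d
      cases hφ : K.fc d with
      | none =>
        rw [hφ] at hfd
        refine absurd ?_ (hcon d hfd)
        rw [hd]
        exact (Reach.refl v).mono (by omega)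
      | some f0 =>
        rw [hφ] at hfd
        obtain ⟨q, hq⟩ := hsq f0
        obtain ⟨G⟩ := hq.geo
        have h1 : K.Reach (K.wE Y) (Y + 1) v (K.ev (some f0)) := by
          have := (G.reach_all Y hfd).symm
          rwa [hd] at this
        have h2 : ∀ d ∈ K.bd none, K.org d ≠ K.ev (some f0) := by
          intro d' hd' he'
          refine hcon d' hd' ?_
          rw [he']
          exact h1.mono (by omega)
        have h3 := star f0 h2
        have h4 : (univ.filter (fun f' : K.F => K.ev (some f') = K.ev (some f0))).map Function.Embedding.some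
            ⊆ K.ball Y K.inn (Y + 1 + 2 * Y * 0) v := by
          intro φ hφ'
          rw [mem_map] at hφ'
          obtain ⟨f', hf', rfl⟩ := hφ'
          rw [mem_ball]
          refine ⟨by simp [inn], ?_⟩
          have h5 : K.ev (some f') = K.ev (some f0) := (mem_filter.1 hf').2
          have h6 : (Function.Embedding.some f' : Option K.F) = some f' := rfl
          rw [h6, h5]
          exact h1.mono (by omega)
        have h7 := card_le_card h4
        rw [card_map] at h7
        have h8 : (((univ.filter (fun f' : K.F => K.ev (some f') = K.ev (some f0))).card : ℕ) : ℝ) ≤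
          ((K.ball Y K.inn (Y + 1 + 2 * Y * 0) v).card : ℝ) := by exact_mod_cast h7
        simpa using h3.trans h8
    | succ j ih =>
      intro hjj
      have ih' := ih (by omega)
      set r := Y + 1 + 2 * Y * j with hr
      have hrr : Y + 1 + 2 * Y * (j + 1) = r + 2 * Y := by rw [hr]; ring
      have hle : r + 2 * Y + 2 ≤ 2 * Y * j0 + Y + 3 := by
        have : 2 * Y * (j + 1) ≤ 2 * Y * j0 := Nat.mul_le_mul_left _ hjj
        rw [hr]
        nlinarith
      have hno : ∀ φ, φ ∉ K.inn → ∀ d ∈ K.bd φ, ¬ K.Reach (K.wE Y) (r + 2 * Y + 2) v (K.org d) := by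
        intro φ hφ d hd hre
        have : φ = none := by
          by_contra h; exact hφ (mem_inn.2 h)
        subst this
        exact hcon d hd (hre.mono hle)
      have hw := wt_bdry_ball (v := v) hQ hno
      set S : Finset K.F := univ.filter (fun f => K.Reach (K.wE Y) r v (K.ev (some f))) with hS
      have hSball : K.ball Y K.inn r v = S.map Function.Embedding.some := by
        ext φ
        rw [mem_ball, mem_map]
        constructor
        · rintro ⟨h1, h2⟩
          cases φ with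
          | none => exact absurd rfl (mem_inn.1 h1)
          | some f => exact ⟨f, by simp [hS, h2], rfl⟩
        · rintro ⟨f, hf, rfl⟩
          refine ⟨by simp [inn], ?_⟩
          exact (mem_filter.1 hf).2
      have hiso := iso S (by
        intro h hadj hhS
        obtain ⟨d, hd1, hd2⟩ := hadj
        obtain ⟨q, hq⟩ := hsq h
        obtain ⟨G⟩ := hq.geo
        have h1 : K.Reach (K.wE Y) r v (K.ev (some h)) := (mem_filter.1 hhS).2
        have h2 := h1.trans (G.reach_all Y hd2)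
        have h3 := h2.trans (Reach.edge (K := K) (wt := K.wE Y) (rv d))
        rw [rv_rv] at h3
        have h4 : K.wE Y (rv d).1 ≤ Y + 1 := wE_le Y _
        exact hcon d hd1 (h3.mono (by omega)))
      rw [← bdryO_map, ← hSball] at hiso
      have h5 : (S.card : ℝ) = ((K.ball Y K.inn r v).card : ℝ) := by
        rw [hSball, card_map]
      have h6 : (∑ b ∈ K.bdryO (K.ball Y K.inn r v), (K.wE Y b : ℝ)) ≤
          2 * (((K.ball Y K.inn (r + 2 * Y) v).card : ℝ) - ((K.ball Y K.inn r v).card : ℝ)) := by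
        have h7 : (∑ b ∈ K.bdryO (K.ball Y K.inn r v), (K.wE Y b : ℝ)) =
          ((∑ b ∈ K.bdryO (K.ball Y K.inn r v), K.wE Y b : ℕ) : ℝ) := by push_cast; rfl
        rw [h7]
        have h8 : ((∑ b ∈ K.bdryO (K.ball Y K.inn r v), K.wE Y b : ℕ) : ℝ) ≤
          ((2 * (K.ball Y K.inn (r + 2 * Y) v \ K.ball Y K.inn r v).card : ℕ) : ℝ) := by exact_mod_cast hw
        refine h8.trans ?_
        rw [card_sdiff_of_subset (ball_mono (by omega) v)]
        have h9 := card_le_card (ball_mono (K := K) (Y := Y) (Q := K.inn) (r := r) (s := r + 2 * Y) (by omega) v)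
        rw [Nat.cast_mul, Nat.cast_sub h9]
        norm_num
      rw [hrr, pow_succ]
      rw [h5] at hiso
      have h10 : 0 ≤ 1 + e / 2 := by linarith
      nlinarith [mul_le_mul_of_nonneg_right ih' h10]
  have h1 := hstep j0 le_rfl
  have h2 := hballcard (Y + 1 + 2 * Y * j0)
  linarith

/-! ## sphere -/

theorem diam_sphere (K : PC (Let p n)) [Nonempty K.F]
    (hsq : ∀ φ : Option K.F, ∃ q, K.IsSq σ φ q) (Y j0 : ℕ) (e g : ℝ) (he : 0 ≤ e) (hg : 0 < g)
    (hj : (Fintype.card K.F : ℝ) + 1 < g * (1 + e / 2) ^ j0)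
    (iso : ∀ D : Finset (Option K.F),
      e * min (D.card : ℝ) ((Fintype.card K.F : ℝ) + 1 - D.card) ≤ ∑ b ∈ K.bdryO D, (K.wE Y b : ℝ))
    (star : ∀ φ : Option K.F,
      g ≤ ((univ.filter (fun φ' : Option K.F => K.ev φ' = K.ev φ)).card : ℝ))
    (v1 v2 : K.V) : K.Reach (K.wE Y) (4 * Y * j0 + 2) v1 v2 := by
  classical
  by_contra hcon
  have hdisj : ∀ r, r ≤ 2 * Y * j0 + 1 → Disjoint (K.ball Y univ r v1) (K.ball Y univ r v2) := by
    intro r hr
    rw [Finset.disjoint_left]
    intro φ h1 h2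
    have h3 := (mem_ball.1 h1).2.trans (mem_ball.1 h2).2.symm
    exact hcon (h3.mono (by nlinarith))
  have hno : ∀ (v : K.V) (r : ℕ), ∀ φ, φ ∉ (univ : Finset (Option K.F)) → ∀ d ∈ K.bd φ,
      ¬ K.Reach (K.wE Y) (r + 2 * Y + 2) v (K.org d) := by
    intro v r φ hφ
    exact absurd (mem_univ φ) hφ
  have hNcard : (Fintype.card (Option K.F) : ℝ) = (Fintype.card K.F : ℝ) + 1 := by
    rw [Fintype.card_option]; push_cast; rfl
  have hballcard : ∀ (v : K.V) (r : ℕ), ((K.ball Y univ r v).card : ℝ) ≤ (Fintype.card K.F : ℝ) + 1 := by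
    intro v r
    rw [← hNcard]
    exact_mod_cast card_le_univ _
  have hgrow : ∀ (v : K.V) (r : ℕ), e * min ((K.ball Y univ r v).card : ℝ)
      ((Fintype.card K.F : ℝ) + 1 - (K.ball Y univ r v).card) ≤
      2 * (((K.ball Y univ (r + 2 * Y) v).card : ℝ) - ((K.ball Y univ r v).card : ℝ)) := by
    intro v r
    have hw := wt_bdry_ball (v := v) (fun φ _ => hsq φ) (hno v r)
    refine (iso _).trans ?_
    have h7 : (∑ b ∈ K.bdryO (K.ball Y univ r v), (K.wE Y b : ℝ)) =
      ((∑ b ∈ K.bdryO (K.ball Y univ r v), K.wE Y b : ℕ) : ℝ) := by push_cast; rfl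
    rw [h7]
    have h8 : ((∑ b ∈ K.bdryO (K.ball Y univ r v), K.wE Y b : ℕ) : ℝ) ≤
      ((2 * (K.ball Y univ (r + 2 * Y) v \ K.ball Y univ r v).card : ℕ) : ℝ) := by exact_mod_cast hw
    refine h8.trans ?_
    rw [card_sdiff_of_subset (ball_mono (by omega) v)]
    have h9 := card_le_card (ball_mono (K := K) (Y := Y) (Q := univ) (r := r) (s := r + 2 * Y) (by omega) v)
    rw [Nat.cast_mul, Nat.cast_sub h9]
    norm_num
  have hstart : ∀ v : K.V, g ≤ ((K.ball Y univ (Y + 1 + 2 * Y * 0) v).card : ℝ) := by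
    intro v
    obtain ⟨d, hd⟩ := exists_dart (K := K) v
    have hfd := K.fc_mem d
    obtain ⟨q, hq⟩ := hsq (K.fc d)
    obtain ⟨G⟩ := hq.geo
    have h1 : K.Reach (K.wE Y) (Y + 1) v (K.ev (K.fc d)) := by
      have := (G.reach_all Y hfd).symm
      rwa [hd] at this
    refine (star (K.fc d)).trans ?_
    have h4 : (univ.filter (fun φ' : Option K.F => K.ev φ' = K.ev (K.fc d)))
        ⊆ K.ball Y univ (Y + 1 + 2 * Y * 0) v := by
      intro φ hφ'
      rw [mem_ball]
      refine ⟨mem_univ _, ?_⟩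
      rw [(mem_filter.1 hφ').2]
      exact h1.mono (by omega)
    exact_mod_cast card_le_card h4
  have hstep : ∀ j, j ≤ j0 → g * (1 + e / 2) ^ j ≤ ((K.ball Y univ (Y + 1 + 2 * Y * j) v1).card : ℝ) ∧
      g * (1 + e / 2) ^ j ≤ ((K.ball Y univ (Y + 1 + 2 * Y * j) v2).card : ℝ) := by
    intro j
    induction j with
    | zero =>
      intro _
      exact ⟨by simpa using hstart v1, by simpa using hstart v2⟩
    | succ j ih =>
      intro hjj
      obtain ⟨i1, i2⟩ := ih (by omega)
      set r := Y + 1 + 2 * Y * j with hr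
      have hrr : Y + 1 + 2 * Y * (j + 1) = r + 2 * Y := by rw [hr]; ring
      have hle : r ≤ 2 * Y * j0 + 1 := by
        have : 2 * Y * (j + 1) ≤ 2 * Y * j0 := Nat.mul_le_mul_left _ hjj
        rw [hr]
        nlinarith
      have hd := hdisj r hle
      have h1 : ((K.ball Y univ r v1).card : ℝ) + ((K.ball Y univ r v2).card : ℝ) ≤
          (Fintype.card K.F : ℝ) + 1 := by
        rw [← hNcard]
        have h2 : (K.ball Y univ r v1 ∪ K.ball Y univ r v2).card ≤ Fintype.card (Option K.F) :=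
          card_le_univ _
        rw [card_union_of_disjoint hd] at h2
        exact_mod_cast h2
      have g1 := hgrow v1 r
      have g2 := hgrow v2 r
      rw [hrr, pow_succ]
      set a := ((K.ball Y univ r v1).card : ℝ)
      set b := ((K.ball Y univ r v2).card : ℝ)
      set m := g * (1 + e / 2) ^ j
      have hm1 : m ≤ min a ((Fintype.card K.F : ℝ) + 1 - a) := le_min i1 (by linarith)
      have hm2 : m ≤ min b ((Fintype.card K.F : ℝ) + 1 - b) := le_min i2 (by linarith)
      have k1 := mul_le_mul_of_nonneg_left hm1 he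
      have k2 := mul_le_mul_of_nonneg_left hm2 he
      constructor
      · nlinarith
      · nlinarith
  have h1 := (hstep j0 le_rfl).1
  have h2 := hballcard v1 (Y + 1 + 2 * Y * j0)
  linarith

end PC

end Vale.Agent.P201.Z
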