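import Vale.Agent.P201.Z.F.Sq

/-!
P201, part F: spanning trees from weighted reachability (leaf F5a, helper828).

* `PC.rt_stree_of_reach` : spanning tree through a connected set `Eo` of edges, all other parts of the
  tree paths have weight `≤ R`;
* `PC.exists_stree_out` (F5a), `PC.exists_stree_root` (F7d), `PC.exists_cotree_out`,
  `PC.exists_cotree_root` (with `StmtT1`).
-/

namespace Vale.Agent.P201.Z

open Finset

namespace PC

variable {A : Type} (K : PC A) (w : K.E → ℕ)

/-- there is a walk of weight `≤ r` from `u` to `v` -/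
inductive RTReach : ℕ → K.V → K.V → Prop
  | refl (r : ℕ) (v : K.V) : RTReach r v v
  | step (r : ℕ) (d : K.E × Bool) (v : K.V) :
      RTReach r (K.org (rv d)) v → RTReach (r + w d.1) (K.org d) v

variable {K w}

theorem RTReach.mono {r s : ℕ} {u v : K.V} (h : K.RTReach w r u v) (hrs : r ≤ s) : K.RTReach w s u v := by
  induction h generalizing s with
  | refl r v => exact .refl _ _
  | step r d v h ih =>
    obtain ⟨t, rfl⟩ := Nat.exists_eq_add_of_le hrs
    have := ih (s := r + t) (by omega)
    have h2 := RTReach.step (r + t) d v this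
    have e : r + t + w d.1 = r + w d.1 + t := by omega
    rwa [e] at h2

theorem RTReach.of_reach {r : ℕ} {u v : K.V} (h : K.Reach w r u v) : K.RTReach w r u v := by
  obtain ⟨l, h1, h2⟩ := h
  refine RTReach.mono ?_ h2
  clear h2
  induction h1 with
  | nil v => exact .refl _ _
  | cons d l v _ ih =>
    have e : K.wtD w (d :: l) = K.wtD w l + w d.1 := by
      simp only [wtD, List.map_cons, List.sum_cons]; omega
    rw [e]
    exact .step _ d v ih

variable (K w)

/-! ### distance to a set `O` of vertices: weight and length of the walk -/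

/-- walk of weight `≤ r` and length `≤ k` from `v` to a vertex of `O` -/
inductive RTToO (O : K.V → Prop) : ℕ → ℕ → K.V → Prop
  | here (r k : ℕ) (v : K.V) : O v → RTToO O r k v
  | step (r k : ℕ) (d : K.E × Bool) : RTToO O r k (K.org (rv d)) → RTToO O (r + w d.1) (k + 1) (K.org d)

variable {K w}

theorem RTToO.of_reach {O : K.V → Prop} {r : ℕ} {u v : K.V} (h : K.Reach w r u v) (hv : O v) :
    ∃ k, K.RTToO w O r k u := by
  replace h := RTReach.of_reach h
  induction h with
  | refl r v => exact ⟨0, .here _ _ _ hv⟩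
  | step r d v h ih =>
    obtain ⟨k, hk⟩ := ih hv
    exact ⟨k + 1, .step r k d hk⟩

/-- the combined statement for vertices outside `O` -/
theorem rtToO_key (O : K.V → Prop) (hall : ∀ v, ∃ r k, K.RTToO w O r k v) :
    ∃ (W L : K.V → ℕ), (∀ v r k, K.RTToO w O r k v → W v ≤ r) ∧
      ∀ v, ¬ O v → ∃ d : K.E × Bool, K.org d = v ∧ W v = W (K.org (rv d)) + w d.1 ∧
        L (K.org (rv d)) < L v := by
  classical
  let W : K.V → ℕ := fun v => Nat.find (hall v)
  have hW : ∀ v, ∃ k, K.RTToO w O (W v) k v := fun v => Nat.find_spec (hall v)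
  have hWm : ∀ v r k, K.RTToO w O r k v → W v ≤ r := fun v r k h => Nat.find_min' (hall v) ⟨k, h⟩
  let L : K.V → ℕ := fun v => Nat.find (hW v)
  have hL : ∀ v, K.RTToO w O (W v) (L v) v := fun v => Nat.find_spec (hW v)
  have hLm : ∀ v k, K.RTToO w O (W v) k v → L v ≤ k := fun v k h => Nat.find_min' (hW v) h
  refine ⟨W, L, hWm, fun v hv => ?_⟩
  have h := hL v
  generalize hWv : W v = W0 at h
  generalize hLv : L v = L0 at h
  cases h with
  | here r k v hO => exact absurd hO hv
  | step r k d h =>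
    refine ⟨d, rfl, ?_, ?_⟩
    · have h1 : W (K.org (rv d)) ≤ r := hWm _ _ _ h
      have h2 : W (K.org d) ≤ W (K.org (rv d)) + w d.1 := hWm _ _ _ (.step _ _ d (hL (K.org (rv d))))
      omega
    · have h1 : W (K.org (rv d)) ≤ r := hWm _ _ _ h
      have h2 : W (K.org d) ≤ W (K.org (rv d)) + w d.1 := hWm _ _ _ (.step _ _ d (hL (K.org (rv d))))
      have h3 : W (K.org (rv d)) = r := by omega
      have h4 : L (K.org (rv d)) ≤ k := hLm _ _ (by rw [h3]; exact h)
      omega

/-- paths through edges of `Eo` -/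
def RTConn (K : PC A) (Eo : Finset K.E) (u v : K.V) : Prop :=
  Relation.ReflTransGen (fun a b => ∃ d : K.E × Bool, d.1 ∈ Eo ∧ K.org d = a ∧ K.org (rv d) = b) u v

/-- number of steps through `Eo` to `r0` -/
inductive RTToR (K : PC A) (Eo : Finset K.E) (r0 : K.V) : ℕ → K.V → Prop
  | here (k : ℕ) : RTToR K Eo r0 k r0
  | step (k : ℕ) (d : K.E × Bool) : d.1 ∈ Eo → RTToR K Eo r0 k (K.org (rv d)) →
      RTToR K Eo r0 (k + 1) (K.org d)

theorem RTToR.of_conn {Eo : Finset K.E} {u r0 : K.V} (h : K.RTConn Eo u r0) :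
    ∃ k, K.RTToR Eo r0 k u := by
  induction h using Relation.ReflTransGen.head_induction_on with
  | refl => exact ⟨0, .here 0⟩
  | head h1 _ ih =>
    obtain ⟨d, hd, rfl, rfl⟩ := h1
    obtain ⟨k, hk⟩ := ih
    exact ⟨k + 1, .step k d hd hk⟩

theorem RTToR.conn {Eo : Finset K.E} {u r0 : K.V} {k : ℕ} (h : K.RTToR Eo r0 k u) :
    K.RTConn Eo u r0 := by
  induction h with
  | here k => exact .refl
  | step k d hd _ ih => exact .head ⟨d, hd, rfl, rfl⟩ ih

theorem rtToR_key (Eo : Finset K.E) (r0 : K.V) :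
    ∃ D : K.V → ℕ, ∀ v, K.RTConn Eo v r0 → v ≠ r0 → ∃ d : K.E × Bool, d.1 ∈ Eo ∧ K.org d = v ∧
      K.RTConn Eo (K.org (rv d)) r0 ∧ D (K.org (rv d)) < D v := by
  classical
  let D : K.V → ℕ := fun v => if h : ∃ k, K.RTToR Eo r0 k v then Nat.find h else 0
  have hD : ∀ v (h : ∃ k, K.RTToR Eo r0 k v), D v = Nat.find h := fun v h => dif_pos h
  refine ⟨D, fun v hv hne => ?_⟩
  have h := RTToR.of_conn hv
  have h1 := Nat.find_spec h
  rw [← hD v h] at h1
  generalize hDv : D v = D0 at h1
  cases h1 with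
  | here k => exact absurd rfl hne
  | step k d hd h2 =>
    refine ⟨d, hd, rfl, h2.conn, ?_⟩
    have h3 : D (K.org (rv d)) ≤ k := by
      rw [hD _ ⟨k, h2⟩]
      exact Nat.find_min' _ h2
    omega

/-! ### API of `STree.Anc` -/

namespace STree

variable (T : K.STree)

theorem rt_anc_iff (v : K.V) (e : K.E) :
    T.Anc v e ↔ ∃ d, T.pd v = some d ∧ (d.1 = e ∨ T.Anc (K.org (rv d)) e) := by
  constructor
  · rintro ⟨u, d, h, hd, rfl⟩
    rcases Relation.ReflTransGen.cases_head h with rfl | ⟨x, ⟨d', hd', rfl⟩, hx⟩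
    · exact ⟨d, hd, .inl rfl⟩
    · exact ⟨d', hd', .inr ⟨u, d, hx, hd, rfl⟩⟩
  · rintro ⟨d, hd, rfl | ⟨u, d', h, hd', rfl⟩⟩
    · exact ⟨v, d, .refl, hd, rfl⟩
    · exact ⟨u, d', .head ⟨d, hd, rfl⟩ h, hd', rfl⟩

end STree

theorem rt_sum_insert_le {E : Type} [DecidableEq E] (w : E → ℕ) (e : E) (S : Finset E) :
    ∑ x ∈ insert e S, w x ≤ w e + ∑ x ∈ S, w x := by
  by_cases h : e ∈ S
  · rw [Finset.insert_eq_of_mem h]; exact Nat.le_add_left _ _
  · rw [Finset.sum_insert h]

open Classical in
/-- spanning tree through a connected set of edges `Eo` -/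
theorem rt_stree_of_reach (w : K.E → ℕ) (Eo : Finset K.E) (r0 : K.V) (R : ℕ)
    (hR : ∀ v, ∃ u, K.RTConn Eo u r0 ∧ K.Reach w R v u) :
    ∃ T : K.STree, T.root = r0 ∧ (∀ u, K.RTConn Eo u r0 → ∀ e, T.Anc u e → e ∈ Eo) ∧
      ∀ v, ∑ e ∈ univ.filter (fun e => T.Anc v e ∧ e ∉ Eo), w e ≤ R := by
  obtain ⟨W, L, hW, hL⟩ := rtToO_key (w := w) (fun u => K.RTConn Eo u r0) (fun v => by
    obtain ⟨u, hu, hr⟩ := hR v
    obtain ⟨k, hk⟩ := RTToO.of_reach (O := fun u => K.RTConn Eo u r0) hr hu
    exact ⟨R, k, hk⟩)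
  obtain ⟨D, hD⟩ := rtToR_key Eo r0
  have hWR : ∀ v, W v ≤ R := fun v => by
    obtain ⟨u, hu, hr⟩ := hR v
    obtain ⟨k, hk⟩ := RTToO.of_reach (O := fun u => K.RTConn Eo u r0) hr hu
    exact hW v R k hk
  choose dN hN1 hN2 hN3 using hL
  choose dO hO1 hO2 hO3 hO4 using hD
  let M : ℕ := ∑ v : K.V, D v
  have hM : ∀ v, D v ≤ M := fun v => Finset.single_le_sum (f := D) (fun _ _ => Nat.zero_le _) (mem_univ v)
  let pd : K.V → Option (K.E × Bool) := fun v =>
    if h1 : K.RTConn Eo v r0 then (if h2 : v = r0 then none else some (dO v h1 h2)) else some (dN v h1)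
  have hroot : K.RTConn Eo r0 r0 := .refl
  have pd_root : pd r0 = none := by dsimp only [pd]; rw [dif_pos hroot, dif_pos rfl]
  have pd_O : ∀ v (h1 : K.RTConn Eo v r0) (h2 : v ≠ r0), pd v = some (dO v h1 h2) := fun v h1 h2 => by
    dsimp only [pd]; rw [dif_pos h1, dif_neg h2]
  have pd_N : ∀ v (h1 : ¬ K.RTConn Eo v r0), pd v = some (dN v h1) := fun v h1 => by
    dsimp only [pd]; rw [dif_neg h1]
  let hgt : K.V → ℕ := fun v => if K.RTConn Eo v r0 then D v else L v + M
  have hgt_O : ∀ v, K.RTConn Eo v r0 → hgt v = D v := fun v h => if_pos h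
  have hgt_N : ∀ v, ¬ K.RTConn Eo v r0 → hgt v = L v + M := fun v h => if_neg h
  let T : K.STree :=
    { pd := pd
      hgt := hgt
      root := r0
      rt := fun v => by
        constructor
        · intro h
          by_contra hne
          by_cases h1 : K.RTConn Eo v r0
          · rw [pd_O v h1 hne] at h; exact absurd h (by simp)
          · rw [pd_N v h1] at h; exact absurd h (by simp)
        · rintro rfl; exact pd_root
      or := fun v d h => by
        by_cases h1 : K.RTConn Eo v r0
        · by_cases h2 : v = r0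
          · rw [h2, pd_root] at h; exact absurd h (by simp)
          · rw [pd_O v h1 h2] at h
            obtain rfl := Option.some.inj h
            exact hO2 v h1 h2
        · rw [pd_N v h1] at h
          obtain rfl := Option.some.inj h
          exact hN1 v h1
      dec := fun v d h => by
        by_cases h1 : K.RTConn Eo v r0
        · by_cases h2 : v = r0
          · rw [h2, pd_root] at h; exact absurd h (by simp)
          · rw [pd_O v h1 h2] at h
            obtain rfl := Option.some.inj h
            rw [hgt_O _ (hO3 v h1 h2), hgt_O v h1]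
            exact hO4 v h1 h2
        · rw [pd_N v h1] at h
          obtain rfl := Option.some.inj h
          have h3 := hN3 v h1
          rw [hgt_N v h1]
          by_cases h4 : K.RTConn Eo (K.org (rv (dN v h1))) r0
          · rw [hgt_O _ h4]
            have := hM (K.org (rv (dN v h1)))
            omega
          · rw [hgt_N _ h4]
            omega }
  have hTpd : T.pd = pd := rfl
  have hP1 : ∀ u, K.RTConn Eo u r0 → ∀ e, T.Anc u e → e ∈ Eo := by
    have key : ∀ m u, T.hgt u = m → K.RTConn Eo u r0 → ∀ e, T.Anc u e → e ∈ Eo := by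
      intro m
      induction m using Nat.strong_induction_on with
      | _ m ih =>
        intro u hu hO e he
        rw [STree.rt_anc_iff] at he
        obtain ⟨d, hd, hde⟩ := he
        have hdec := T.dec u d hd
        rw [hTpd] at hd
        by_cases h2 : u = r0
        · rw [h2, pd_root] at hd; exact absurd hd (by simp)
        · rw [pd_O u hO h2] at hd
          obtain rfl := Option.some.inj hd
          rcases hde with rfl | hde
          · exact hO1 u hO h2
          · exact ih _ (by rw [← hu]; exact hdec) _ rfl (hO3 u hO h2) e hde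
    exact fun u => key _ u rfl
  refine ⟨T, rfl, hP1, fun v => ?_⟩
  refine le_trans ?_ (hWR v)
  have key : ∀ m v, T.hgt v = m → ∑ e ∈ univ.filter (fun e => T.Anc v e ∧ e ∉ Eo), w e ≤ W v := by
    intro m
    induction m using Nat.strong_induction_on with
    | _ m ih =>
      intro v hv
      by_cases h1 : K.RTConn Eo v r0
      · have : univ.filter (fun e => T.Anc v e ∧ e ∉ Eo) = ∅ := by
          rw [Finset.filter_eq_empty_iff]
          rintro e _ ⟨h2, h3⟩
          exact h3 (hP1 v h1 e h2)
        rw [this, Finset.sum_empty]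
        exact Nat.zero_le _
      · have hd : T.pd v = some (dN v h1) := pd_N v h1
        have hdec := T.dec v _ hd
        have hi := ih _ (by rw [← hv]; exact hdec) (K.org (rv (dN v h1))) rfl
        have hsub : univ.filter (fun e => T.Anc v e ∧ e ∉ Eo) ⊆
            insert (dN v h1).1 (univ.filter (fun e => T.Anc (K.org (rv (dN v h1))) e ∧ e ∉ Eo)) := by
          intro e he
          rw [mem_filter] at he
          obtain ⟨_, he, he2⟩ := he
          rw [STree.rt_anc_iff] at he
          obtain ⟨d, hd2, hde⟩ := he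
          rw [hd] at hd2
          obtain rfl := Option.some.inj hd2
          rw [mem_insert, mem_filter]
          rcases hde with rfl | hde
          · exact .inl rfl
          · exact .inr ⟨mem_univ _, hde, he2⟩
        calc ∑ e ∈ univ.filter (fun e => T.Anc v e ∧ e ∉ Eo), w e
            ≤ ∑ e ∈ insert (dN v h1).1 (univ.filter (fun e => T.Anc (K.org (rv (dN v h1))) e ∧ e ∉ Eo)), w e :=
              Finset.sum_le_sum_of_subset hsub
          _ ≤ w (dN v h1).1 + ∑ e ∈ univ.filter (fun e => T.Anc (K.org (rv (dN v h1))) e ∧ e ∉ Eo), w e :=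
              rt_sum_insert_le _ _ _
          _ ≤ w (dN v h1).1 + W (K.org (rv (dN v h1))) := Nat.add_le_add_left hi _
          _ = W v := by rw [hN2 v h1, Nat.add_comm]
  exact key _ v rfl

/-! ### consequences: the outer boundary, cotrees -/

/-- `v` is a vertex of the outer boundary -/
def OutV (K : PC A) (v : K.V) : Prop := ∃ d ∈ K.bd none, K.org d = v

theorem rt_mem_outE {d : K.E × Bool} (h : d ∈ K.bd none) : d.1 ∈ K.outE := by
  simp only [outE, List.mem_toFinset, List.mem_map]
  exact ⟨d, h, rfl⟩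

/-- in a closed list the first dart is reached from every dart (going on along the list) -/
theorem rt_chain_conn {l : List (K.E × Bool)} (hc : l.IsChain (fun a b => K.org b = K.org (rv a)))
    {Eo : Finset K.E} (hE : ∀ d ∈ l, d.1 ∈ Eo) :
    ∀ a ∈ l, ∀ z ∈ l.getLast?, K.RTConn Eo (K.org a) (K.org (rv z)) := by
  induction l with
  | nil => simp
  | cons b l ih =>
    have step : K.RTConn Eo (K.org b) (K.org (rv b)) :=
      .single ⟨b, hE b (by simp), rfl, rfl⟩
    cases l with
    | nil =>
      intro a ha z hz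
      simp only [List.mem_singleton] at ha
      simp only [List.getLast?_singleton, Option.mem_def, Option.some.injEq] at hz
      subst ha hz
      exact step
    | cons c l =>
      rw [List.isChain_cons_cons] at hc
      intro a ha z hz
      rw [List.getLast?_cons_cons] at hz
      have hz2 : z ∈ (c :: l).getLast? := hz
      have ih' := ih hc.2 (fun d hd => hE d (List.mem_cons_of_mem _ hd))
      rcases List.mem_cons.1 ha with rfl | ha
      · have h2 := ih' c (by simp) z hz2
        rw [hc.1] at h2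
        exact step.trans h2
      · exact ih' a ha z hz2

theorem rt_outV_conn {r0 : K.V} (h0 : ∀ d ∈ (K.bd none).head?, K.org d = r0) {v : K.V}
    (hv : K.OutV v) : K.RTConn K.outE v r0 := by
  obtain ⟨d, hd, rfl⟩ := hv
  have hne : K.bd none ≠ [] := List.ne_nil_of_mem hd
  have hz : (K.bd none).getLast hne ∈ (K.bd none).getLast? := by
    rw [List.getLast?_eq_some_getLast hne]; rfl
  have hh : (K.bd none).head hne ∈ (K.bd none).head? := by
    rw [List.head?_eq_some_head hne]; rfl
  have h1 := rt_chain_conn (K.chain none) (Eo := K.outE) (fun d hd => rt_mem_outE hd) d hd _ hz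
  have h2 := K.closed none _ hz _ hh
  rw [← h2, h0 _ hh] at h1
  exact h1

/-- the end of a dart of the outer boundary is a vertex of the outer boundary -/
theorem outV_end {d : K.E × Bool} (hd : d ∈ K.bd none) : K.OutV (K.org (rv d)) := by
  have key : ∀ l : List (K.E × Bool), l.IsChain (fun a b => K.org b = K.org (rv a)) → d ∈ l →
      (∃ b ∈ l, K.org b = K.org (rv d)) ∨ d ∈ l.getLast? := by
    intro l
    induction l with
    | nil => simp
    | cons b l ih =>
      intro hc hd
      cases l with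
      | nil =>
        simp only [List.mem_singleton] at hd
        subst hd
        right; simp
      | cons c l =>
        rw [List.isChain_cons_cons] at hc
        rcases List.mem_cons.1 hd with rfl | hd
        · left; exact ⟨c, by simp, hc.1⟩
        · rcases ih hc.2 hd with ⟨x, hx, hx2⟩ | h
          · left; exact ⟨x, List.mem_cons_of_mem _ hx, hx2⟩
          · right; rw [List.getLast?_cons_cons]; exact h
  rcases key _ (K.chain none) hd with ⟨b, hb, hb2⟩ | h
  · exact ⟨b, hb, hb2⟩
  · have hne : K.bd none ≠ [] := List.ne_nil_of_mem hd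
    have hh : (K.bd none).head hne ∈ (K.bd none).head? := by
      rw [List.head?_eq_some_head hne]; rfl
    exact ⟨_, List.head_mem hne, K.closed none _ h _ hh⟩

open Classical in
/-- (F5a) spanning tree: the tree paths of outer vertices use only outer edges (P1), and for every
vertex the edges of its tree path which are not outer have total weight `≤ R` (P2).
`hR`: every vertex has an outer vertex (or the root) within weight `R`. -/
theorem exists_stree_out (w : K.E → ℕ) (r0 : K.V) (h0 : ∀ d ∈ (K.bd none).head?, K.org d = r0) (R : ℕ)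
    (hR : ∀ v, ∃ u, (u = r0 ∨ K.OutV u) ∧ K.Reach w R v u) :
    ∃ T : K.STree, T.root = r0 ∧ (∀ u, K.OutV u → ∀ e, T.Anc u e → e ∈ K.outE) ∧
      ∀ v, ∑ e ∈ univ.filter (fun e => T.Anc v e ∧ e ∉ K.outE), w e ≤ R := by
  obtain ⟨T, h1, h2, h3⟩ := rt_stree_of_reach w K.outE r0 R (fun v => by
    obtain ⟨u, hu, hr⟩ := hR v
    refine ⟨u, ?_, hr⟩
    rcases hu with rfl | hu
    · exact .refl
    · exact rt_outV_conn h0 hu)
  exact ⟨T, h1, fun u hu => h2 u (rt_outV_conn h0 hu), h3⟩

open Classical in
/-- (F7d) shortest path tree: all tree paths have weight `≤ R`. -/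
theorem exists_stree_root (w : K.E → ℕ) (r0 : K.V) (R : ℕ) (hR : ∀ v, K.Reach w R v r0) :
    ∃ T : K.STree, T.root = r0 ∧ ∀ v, ∑ e ∈ univ.filter (fun e => T.Anc v e), w e ≤ R := by
  obtain ⟨T, h1, _, h3⟩ := rt_stree_of_reach w ∅ r0 R (fun v => ⟨r0, .refl, hR v⟩)
  refine ⟨T, h1, fun v => ?_⟩
  have := h3 v
  simpa using this

open Classical in
/-- (F5a) with the cotree of `StmtT1`. -/
theorem exists_cotree_out (hT1 : StmtT1) (w : K.E → ℕ) (r0 : K.V)
    (h0 : ∀ d ∈ (K.bd none).head?, K.org d = r0) (R : ℕ)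
    (hR : ∀ v, ∃ u, (u = r0 ∨ K.OutV u) ∧ K.Reach w R v u) :
    ∃ C : K.Cotree, C.root = r0 ∧ (∀ f, C.par f = none → K.bdry (C.sub f) ⊆ K.outE) ∧
      ∀ f, ∑ e ∈ K.bdry (C.sub f) \ K.outE, w e ≤ 2 * R + w (C.dd f).1 := by
  obtain ⟨T, h1, h2, h3⟩ := exists_stree_out w r0 h0 R hR
  obtain ⟨C, hC1, hC2, hC3⟩ := hT1 A K T
  refine ⟨C, hC1.trans h1, fun f hf e he => ?_, fun f => ?_⟩
  · have hm : rv (C.dd f) ∈ K.bd none := by rw [← hf]; exact C.memr f
    rcases hC3 f e he with rfl | h | h
    · exact rt_mem_outE (d := rv (C.dd f)) hm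
    · refine h2 _ ?_ e h
      have := outV_end hm
      rwa [rv_rv] at this
    · exact h2 _ ⟨_, hm, rfl⟩ e h
  · have hsub : K.bdry (C.sub f) \ K.outE ⊆ insert (C.dd f).1
        ((univ.filter (fun e => T.Anc (K.org (C.dd f)) e ∧ e ∉ K.outE)) ∪
        (univ.filter (fun e => T.Anc (K.org (rv (C.dd f))) e ∧ e ∉ K.outE))) := by
      intro e he
      rw [mem_sdiff] at he
      rw [mem_insert, mem_union, mem_filter, mem_filter]
      rcases hC3 f e he.1 with h | h | h
      · exact .inl h
      · exact .inr (.inl ⟨mem_univ _, h, he.2⟩)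
      · exact .inr (.inr ⟨mem_univ _, h, he.2⟩)
    calc ∑ e ∈ K.bdry (C.sub f) \ K.outE, w e
        ≤ _ := Finset.sum_le_sum_of_subset hsub
      _ ≤ _ := rt_sum_insert_le _ _ _
      _ ≤ w (C.dd f).1 + (R + R) := by
          refine Nat.add_le_add_left (le_trans ?_ (Nat.add_le_add (h3 (K.org (C.dd f)))
            (h3 (K.org (rv (C.dd f)))))) _
          rw [← Finset.sum_union_inter]
          exact Nat.le_add_right _ _
      _ = 2 * R + w (C.dd f).1 := by omega

open Classical in
/-- (F7d) with the cotree of `StmtT1`. -/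
theorem exists_cotree_root (hT1 : StmtT1) (w : K.E → ℕ) (r0 : K.V) (R : ℕ)
    (hR : ∀ v, K.Reach w R v r0) :
    ∃ C : K.Cotree, C.root = r0 ∧ ∀ f, ∑ e ∈ K.bdry (C.sub f), w e ≤ 2 * R + w (C.dd f).1 := by
  obtain ⟨T, h1, h3⟩ := exists_stree_root w r0 R hR
  obtain ⟨C, hC1, hC2, hC3⟩ := hT1 A K T
  refine ⟨C, hC1.trans h1, fun f => ?_⟩
  have hsub : K.bdry (C.sub f) ⊆ insert (C.dd f).1
      ((univ.filter (fun e => T.Anc (K.org (C.dd f)) e)) ∪
      (univ.filter (fun e => T.Anc (K.org (rv (C.dd f))) e))) := by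
    intro e he
    rw [mem_insert, mem_union, mem_filter, mem_filter]
    rcases hC3 f e he with h | h | h
    · exact .inl h
    · exact .inr (.inl ⟨mem_univ _, h⟩)
    · exact .inr (.inr ⟨mem_univ _, h⟩)
  calc ∑ e ∈ K.bdry (C.sub f), w e
      ≤ _ := Finset.sum_le_sum_of_subset hsub
    _ ≤ _ := rt_sum_insert_le _ _ _
    _ ≤ w (C.dd f).1 + (R + R) := by
        refine Nat.add_le_add_left (le_trans ?_ (Nat.add_le_add (h3 (K.org (C.dd f)))
          (h3 (K.org (rv (C.dd f)))))) _
        rw [← Finset.sum_union_inter]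
        exact Nat.le_add_right _ _
    _ = 2 * R + w (C.dd f).1 := by omega

end PC

end Vale.Agent.P201.Z
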