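import Vale.Agent.P201.Z.F.F6

/-!
P201, part F7: reduction of asphericity to spheres and part (a), the isoperimetric inequality for
bonds of a minimal sphere (helper165).
-/

namespace Vale.Agent.P201.Z

open Finset

/-- A minimal sphere: planar complex whose outer face is (the inverse of) a square, with nonzero total
chain, such that all shorter identities have chain zero.  These are exactly the hypotheses of
`StmtBridgeS`. -/
structure Sph {p : Pat} {n : ℕ} (σ : Equiv.Perm (Cel p n)) where
  K : SqK σ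
  P : K.GPot
  q0 : Port p n
  out : K.outw = relw σ q0
  chn : K.chn P univ - pch σ 1 q0 ≠ 0
  min : ∀ (k : ℕ) (z : Chn σ), k ≤ Fintype.card K.F → Expr σ k 1 z → z = 0

namespace F7

variable {p : Pat} {n : ℕ} {σ : Equiv.Perm (Cel p n)}

/-- the two blocks of a port are different if the girth is at least two -/
theorem blk_ne {g : ℕ} (hg : Girth σ g) (h2 : 2 ≤ g) (q : Port p n) : blk q.1 ≠ blk (mt σ q).1 := by
  intro h
  have h1 := hg [q] (by simp) ⟨List.isChain_singleton q, by
    intro a ha b hb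
    simp only [List.getLast?_singleton, Option.mem_def, Option.some.injEq] at ha
    simp only [List.head?_cons, Option.mem_def, Option.some.injEq] at hb
    subst ha hb
    refine ⟨h.symm, ?_⟩
    intro h3
    have h4 : q.2 = (mt σ q).2 := congrArg Prod.snd h3
    obtain ⟨c, b⟩ := q
    cases b <;> simp [mt] at h4⟩
  simp at h1
  omega

theorem winv_red {A : Type} {l : List (A × Bool)} (h : FreeGroup.IsReduced l) :
    FreeGroup.IsReduced (winv l) := by
  unfold FreeGroup.IsReduced at h ⊢
  unfold winv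
  rw [List.isChain_reverse, List.isChain_map]
  refine h.imp ?_
  intro a b hab h1
  have h2 := hab h1.symm
  simp only
  rw [h2]

theorem half_red (q : Port p n) : FreeGroup.IsReduced (half q) := by
  unfold FreeGroup.IsReduced half
  have htw : ∀ a ∈ tw p n (ht q.1), a.1 = Let.t := by
    intro a ha
    rw [List.eq_of_mem_replicate ha]
  rw [List.isChain_cons]
  constructor
  · intro b hb h
    exfalso
    have hb2 : b ∈ tw p n (ht q.1) ++ [(Let.y (blk q.1), true)] := List.mem_of_mem_head? hb
    rw [List.mem_append] at hb2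
    rcases hb2 with hb3 | hb3
    · rw [htw b hb3] at h
      exact absurd h (by simp)
    · rw [List.mem_singleton] at hb3
      subst hb3
      exact absurd h (by simp)
  · rw [List.isChain_append]
    refine ⟨?_, List.isChain_singleton _, ?_⟩
    · unfold tw
      exact List.isChain_replicate_of_rel _ (fun _ => rfl)
    · intro a ha b hb h
      exfalso
      have ha2 := htw a (List.mem_of_mem_getLast? ha)
      simp only [List.head?_cons, Option.mem_def, Option.some.injEq] at hb
      subst hb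
      rw [ha2] at h
      exact absurd h (by simp)

/-- the relator words are reduced -/
theorem relw_reduced {q : Port p n} (h : blk q.1 ≠ blk (mt σ q).1) :
    (val (relw σ q)).toWord = relw σ q := by
  rw [val, FreeGroup.toWord_mk]
  refine FreeGroup.IsReduced.reduce_eq ?_
  unfold relw FreeGroup.IsReduced
  rw [List.isChain_append]
  refine ⟨half_red q, winv_red (half_red _), ?_⟩
  intro a ha b hb hab
  exfalso
  have h1 : a = (Let.y (blk q.1), true) := by
    have : (half q).getLast? = some (Let.y (blk q.1), true) := by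
      unfold half
      rw [← List.cons_append, List.getLast?_append]
      rfl
    rw [this] at ha
    exact (Option.some.inj ha).symm
  have h2 : b = (Let.y (blk (mt σ q).1), false) := by
    have : (winv (half (mt σ q))).head? = some (Let.y (blk (mt σ q).1), false) := by
      unfold winv half
      rw [List.head?_reverse, ← List.cons_append, List.map_append, List.getLast?_append]
      rfl
    rw [this] at hb
    exact (Option.some.inj hb).symm
  subst h1 h2
  exact h (Let.y.inj hab)

theorem expr_cases {N : ℕ} {u : FreeGroup (Let p n)} {z : Chn σ} (h : Expr σ N u z) :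
    (N = 0 ∧ u = 1 ∧ z = 0) ∨ ∃ (N' : ℕ) (v : FreeGroup (Let p n)) (q : Port p n)
      (u' : FreeGroup (Let p n)) (z' : Chn σ), N = N' + 1 ∧ Expr σ N' u' z' ∧
        u = v * val (relw σ q) * v⁻¹ * u' ∧ z = pch σ (PresentedGroup.mk (rels σ) v) q + z' := by
  cases h with
  | nil => exact Or.inl ⟨rfl, rfl, rfl⟩
  | cons k u z v q h => exact Or.inr ⟨k, v, q, u, z, rfl, h, rfl, rfl⟩

theorem act_inj (g : Gp σ) {z : Chn σ} (h : EX.act g z = 0) : z = 0 := by
  have hinj : Function.Injective (fun x : Gp σ × Cel p n => (g * x.1, x.2)) := by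
    rintro ⟨a, b⟩ ⟨c, d⟩ h
    simp only [Prod.mk.injEq, mul_right_inj] at h
    exact Prod.ext h.1 h.2
  exact Finsupp.mapDomain_injective hinj (h.trans Finsupp.mapDomain_zero.symm)

/-- **F7, reduction**: an identity with nonzero chain gives a minimal sphere. -/
theorem exists_sph (hVK : StmtVK) {g : ℕ} (hg : Girth σ g) (h2 : 2 ≤ g) {k : ℕ} {z : Chn σ}
    (h : Expr σ k 1 z) (hz : z ≠ 0) : Nonempty (Sph σ) := by
  classical
  have hex : ∃ N, ∃ z : Chn σ, Expr σ N 1 z ∧ z ≠ 0 := ⟨k, z, h, hz⟩
  obtain ⟨z0, hz0, hz0'⟩ := Nat.find_spec hex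
  have hmin : ∀ (k : ℕ) (z : Chn σ), k < Nat.find hex → Expr σ k 1 z → z = 0 := by
    intro k z hk hE
    by_contra hne
    exact Nat.find_min hex hk ⟨z, hE, hne⟩
  generalize hN : Nat.find hex = N at hz0 hmin
  rcases expr_cases hz0 with ⟨-, -, h3⟩ | ⟨N', v, q, u', z', h3, h4, h5, h6⟩
  · exact absurd h3 hz0'
  subst h3
  have hu' : v⁻¹ * u' * v = val (relw σ (mt σ q)) := by
    rw [EX.val_relw_mt]
    have : u' = (v * val (relw σ q) * v⁻¹)⁻¹ := (inv_eq_of_mul_eq_one_right h5.symm).symm
    rw [this]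
    group
  have h7 := EX.conj v⁻¹ h4
  rw [inv_inv, hu', map_inv] at h7
  set z'' := EX.act (PresentedGroup.mk (rels σ) v)⁻¹ z' with hz''
  have h8 : z'' - pch σ 1 (mt σ q) ≠ 0 := by
    rw [EX.pch_mt, sub_neg_eq_add]
    intro h9
    refine hz0' (act_inj (PresentedGroup.mk (rels σ) v)⁻¹ ?_)
    rw [h6, map_add, EX.act_pch, inv_mul_cancel, add_comm]
    exact h9
  have hNR : NoRed σ (val (relw σ (mt σ q))) N' z'' := by
    intro k1 z1 hk1 hk2 hE1 hE2
    have hz1 : z1 = 0 := hmin k1 z1 (by omega) hE1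
    subst hz1
    rw [sub_zero] at hE2
    have hE3 := EX.mul hE2 (EX.inv (EX.sq (σ := σ) 1 (mt σ q)))
    rw [one_mul, inv_one, mul_one, mul_inv_cancel, map_one, ← sub_eq_add_neg] at hE3
    exact h8 (hmin _ _ (by omega) hE3)
  obtain ⟨K, P, hc, ho, hch⟩ := hVK p n σ _ N' z'' h7 hNR
  rw [relw_reduced (blk_ne hg h2 _)] at ho
  exact ⟨⟨K, P, mt σ q, ho, by rw [hch]; exact h8, fun k z hk hE => hmin k z (by omega) hE⟩⟩

/-- a minimal sphere has more than `M` squares -/
theorem Sph.large (hBrS : StmtBridgeS) {M Y : ℕ} {e1 : ℝ} (he1 : 0 < e1) (hloc : LocIso σ M Y e1)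
    (htp : ∀ (m : ℤ) (k : ℕ) (z : Chn σ), m ≠ 0 → ¬ Expr σ k (val (tw p n m)) z) (S : Sph σ) :
    M < Fintype.card S.K.F + 1 := by
  by_contra hlt
  rw [not_lt] at hlt
  obtain ⟨G, hR, hL, hE, hS, hX, hY⟩ := hBrS p n σ S.K S.P S.q0 S.out S.chn S.min htp
  have h1 := hloc G hR hL hE (by rw [hS]; exact hlt)
  rw [hX, hY, sub_self, mul_zero, add_zero, hS] at h1
  have : (0 : ℝ) < ((Fintype.card S.K.F + 1 : ℕ) : ℝ) := by positivity
  nlinarith

theorem winv_val {A : Type} (l : List (A × Bool)) : winv (winv l) = l := by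
  simp [winv, Function.comp_def]

theorem bd_none_ne (S : Sph σ) : S.K.bd none ≠ [] := by
  intro h
  have h1 := S.out
  rw [SqK.outw, PC.wd, h] at h1
  simp [winv, relw, half] at h1

theorem wtw_darts (Y : ℕ) {E : Type} [DecidableEq E] (lab : E → Let p n) (l : List (E × Bool))
    (hl : (l.map Prod.fst).Nodup) :
    wtw Y (l.map (fun d => (lab d.1, d.2))) = ∑ e ∈ (l.map Prod.fst).toFinset, wtl Y (lab e) := by
  induction l with
  | nil => rfl
  | cons a l ih =>
    rw [List.map_cons, List.nodup_cons] at hl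
    rw [List.map_cons, F6.wtw_cons, ih hl.2, List.map_cons, List.toFinset_cons, sum_insert]
    rw [List.mem_toFinset]
    exact hl.1

/-- **F7 (a)**: isoperimetric inequality for bonds of a minimal sphere. -/
theorem bond_iso (hRec : StmtRec) (hRepl : StmtRepl) (hBond : StmtBond) (Y : ℕ) (ψ : ℕ → ℝ)
    (hmono : Monotone ψ)
    (iso : ∀ (u : FreeGroup (Let p n)) (k : ℕ), MinA σ u k → ψ k ≤ (wtw Y u.toWord : ℝ))
    (S : Sph σ) (C : Finset S.K.F) (hC : S.K.toPC.Bond C) :
    ψ (Min.min C.card (Fintype.card S.K.F + 1 - C.card)) ≤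
      ((∑ e ∈ S.K.toPC.bdry C, wtl Y (S.K.lab e) : ℕ) : ℝ) := by
  obtain ⟨T, f, l, v, hsub, hroot, hnd, hset, hval⟩ := hBond _ S.K.toPC C hC
  have hπ : S.P.π T.root = 1 := by
    cases hb : S.K.bd none with
    | nil => exact absurd hb (bd_none_ne S)
    | cons d l =>
      have hd : d ∈ (S.K.bd none).head? := by rw [hb]; rfl
      rw [← hroot d hd]
      exact S.P.base d hd
  obtain ⟨-, hR2⟩ := hRec p n σ S.K S.P T hπ
  have hE := hR2 f
  rw [hsub] at hE
  set w : List (Let p n × Bool) := l.map (fun d => (S.K.lab d.1, d.2)) with hw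
  have hcw : T.c (T.dd f) = v * val w * v⁻¹ := hval
  have hEw : Expr σ C.card (val w) (EX.act (PresentedGroup.mk (rels σ) v⁻¹) (S.K.chn S.P C)) := by
    have := EX.conj v⁻¹ hE
    refine EX.cast this rfl ?_ rfl
    rw [hcw]
    group
  obtain ⟨k0, hk0, hmin⟩ := F6.exists_minA hEw
  obtain ⟨z0, hz0⟩ := hmin.1
  have hle : C.card ≤ Fintype.card S.K.F := card_le_univ _
  -- the minimal area is at least the minimum
  have hkey : Min.min C.card (Fintype.card S.K.F + 1 - C.card) ≤ k0 := by
    by_contra hlt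
    rw [not_le] at hlt
    obtain ⟨hlt1, hlt2⟩ := lt_min_iff.1 hlt
    have h1 : Expr σ k0 (T.c (T.dd f)) (EX.act (PresentedGroup.mk (rels σ) v) z0) := by
      have := EX.conj v hz0
      exact EX.cast this rfl hcw.symm rfl
    have h2 := EX.mul hE (EX.inv h1)
    rw [mul_inv_cancel, ← sub_eq_add_neg] at h2
    have h3 := S.min _ _ (by omega) h2
    have h4 := hRepl p n σ S.K S.P T hπ hroot f k0 _ h1
    rw [hsub, sub_eq_zero.1 h3, sub_add_cancel, S.out] at h4
    have h5 := EX.mul h4 (EX.inv (EX.sq (σ := σ) 1 S.q0))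
    rw [one_mul, inv_one, mul_one, mul_inv_cancel, map_one, ← sub_eq_add_neg] at h5
    exact S.chn (S.min _ _ (by omega) h5)
  refine (hmono hkey).trans ((iso _ _ hmin).trans ?_)
  have h6 : wtw Y (val w).toWord ≤ ∑ e ∈ S.K.toPC.bdry C, wtl Y (S.K.lab e) := by
    refine (F6.wtw_toWord_le Y w).trans ?_
    rw [hw, wtw_darts Y S.K.lab l hnd]
    rw [hset]
  exact_mod_cast h6

end F7

end Vale.Agent.P201.Z
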