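import Vale.Agent.P201.Z.PC
import Vale.Agent.P201.Z.D.ExprAPI

/-! P201, part F: F1 and F6 (a),(b) (helper232). -/

namespace Vale.Agent.P201.Z

open Finset

namespace FL

variable {p : Pat} {n : ℕ} {σ : Equiv.Perm (Cel p n)}

lemma expr_zero {u : FreeGroup (Let p n)} {z : Chn σ} (h : Expr σ 0 u z) : u = 1 ∧ z = 0 := by
  cases h
  exact ⟨rfl, rfl⟩

lemma toWord_val (l : List (Let p n × Bool)) : (val l).toWord = FreeGroup.reduce l := FreeGroup.toWord_mk

lemma val_toWord (u : FreeGroup (Let p n)) : val u.toWord = u := FreeGroup.mk_toWord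

lemma toWord_tw (m : ℤ) : (val (tw p n m)).toWord = tw p n m := by
  rw [toWord_val]
  exact FreeGroup.reduce_replicate _ _

lemma tw_ne {m : ℤ} (hm : m ≠ 0) : val (tw p n m) ≠ 1 := by
  intro h
  have h1 := congrArg FreeGroup.toWord h
  rw [toWord_tw, FreeGroup.toWord_one] at h1
  have h2 := congrArg List.length h1
  simp [tw] at h2
  exact hm h2

lemma wt_sublist (Y : ℕ) {l l' : List (Let p n × Bool)} (h : l.Sublist l') : wtw Y l ≤ wtw Y l' := by
  unfold wtw
  exact (h.map _).sum_le_sum (fun _ _ => Nat.zero_le _)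

lemma toWord_sublist (l : List (Let p n × Bool)) : (val l).toWord.Sublist l := by
  rw [toWord_val]
  exact FreeGroup.Red.sublist FreeGroup.reduce.red

lemma wt_toWord (Y : ℕ) (l : List (Let p n × Bool)) : wtw Y (val l).toWord ≤ wtw Y l := wt_sublist Y (toWord_sublist l)

lemma wt_tw (Y : ℕ) (m : ℤ) : wtw Y (tw p n m) = 0 := by
  exact wtw_tw_zero Y m

lemma mem_tw {m : ℤ} {a : Let p n × Bool} (h : a ∈ tw p n m) : a.1 = Let.t := by
  unfold tw at h
  rw [List.eq_of_mem_replicate h]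

lemma noRed_of_minA {u : FreeGroup (Let p n)} {k : ℕ} {z : Chn σ} (h : MinA σ u k) : NoRed σ u k z := by
  intro k1 z1 h1 h2 _ h4
  have := h.2 _ _ h4
  omega

lemma exists_minA {u : FreeGroup (Let p n)} {k : ℕ} {z : Chn σ} (h : Expr σ k u z) : ∃ k0 ≤ k, MinA σ u k0 := by
  classical
  have hex : ∃ k, ∃ z, Expr σ k u z := ⟨k, z, h⟩
  refine ⟨Nat.find hex, Nat.find_min' hex ⟨z, h⟩, Nat.find_spec hex, fun k' z' h' => Nat.find_min' hex ⟨z', h'⟩⟩

lemma domc_le {S : Type} [Fintype S] (f : S ≃. S) : domc f ≤ Fintype.card S := by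
  classical
  exact (card_filter_le _ _).trans (le_of_eq card_univ)

/-- F1 (a): short expressions never give a power of `t` -/
theorem f1a (hVK : StmtVK) (hB : StmtBridge) {M Y : ℕ} {e1 : ℝ} (he : 0 < e1) (hL : LocIso σ M Y e1) :
    ∀ (m : ℤ) (k : ℕ) (z : Chn σ), m ≠ 0 → k ≤ M → ¬ Expr σ k (val (tw p n m)) z := by
  classical
  intro m0 k0 z0 hm0 hk0 h0
  have hex : ∃ k, ∃ (m : ℤ) (z : Chn σ), m ≠ 0 ∧ Expr σ k (val (tw p n m)) z := ⟨k0, m0, z0, hm0, h0⟩
  obtain ⟨m, z, hm, hz⟩ := Nat.find_spec hex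
  set F := Nat.find hex with hF
  have hFM : F ≤ M := (Nat.find_min' hex ⟨m0, z0, hm0, h0⟩).trans hk0
  have hmin : ∀ (m' : ℤ) (k' : ℕ) (z' : Chn σ), m' ≠ 0 → Expr σ k' (val (tw p n m')) z' → F ≤ k' :=
    fun m' k' z' hm' h' => Nat.find_min' hex ⟨m', z', hm', h'⟩
  have hF0 : F ≠ 0 := by
    intro hF0
    rw [hF0] at hz
    exact tw_ne hm (expr_zero hz).1
  have hMA : MinA σ (val (tw p n m)) F := ⟨⟨z, hz⟩, fun k' z' h' => hmin m k' z' hm h'⟩
  obtain ⟨K0, P, hc, ho, hch⟩ := hVK p n σ _ F z hz (noRed_of_minA hMA)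
  rw [toWord_tw] at ho
  obtain ⟨G, hG1, hG2, hG3, hG4, hG5⟩ := hB p n σ K0 P (by rw [ho, hc]; exact noRed_of_minA hMA)
    (fun m' k' z' hm' h' => Or.inr ⟨by rw [hc]; exact hmin m' k' z' hm' h', fun a ha => by
      rw [ho] at ha
      exact mem_tw ha⟩)
  have h1 := hL G hG1 hG2 hG3 (by rw [hG4, hc]; exact hFM)
  have h2 := hG5 1
  rw [ho, wt_tw] at h2
  have hX := domc_le G.X
  have hY := domc_le G.Y
  have eX : domc G.X = Fintype.card G.S := by omega
  have eY : domc G.Y = Fintype.card G.S := by omega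
  rw [eX, eY, sub_self, mul_zero, add_zero, hG4, hc] at h1
  have h3 : (0 : ℝ) < F := by exact_mod_cast Nat.pos_of_ne_zero hF0
  nlinarith [mul_pos he h3]

/-- the weight inequality of the bridge, over the reals -/
lemma wt_real {S : Type} [Fintype S] {X Y' : S ≃. S} {Y W : ℕ}
    (h : 2 * (Fintype.card S - domc X) + Y * (2 * (Fintype.card S - domc Y')) ≤ W) :
    2 * (((Fintype.card S : ℝ) - domc X) + Y * ((Fintype.card S : ℝ) - domc Y')) ≤ W := by
  have h1 : ((2 * (Fintype.card S - domc X) + Y * (2 * (Fintype.card S - domc Y')) : ℕ) : ℝ) ≤ (W : ℝ) := by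
    exact_mod_cast h
  rw [Nat.cast_add, Nat.cast_mul, Nat.cast_mul, Nat.cast_mul, Nat.cast_sub (domc_le X), Nat.cast_sub (domc_le Y')] at h1
  push_cast at h1
  linarith

/-- F1 (b): local isoperimetric inequality for areas -/
theorem f1b (hVK : StmtVK) (hB : StmtBridge) {M Y : ℕ} {e1 : ℝ} (he : 0 < e1) (hL : LocIso σ M Y e1)
    {u : FreeGroup (Let p n)} {k : ℕ} (hu : MinA σ u k) (hk : k ≤ M) : e1 * k ≤ wtw Y u.toWord := by
  obtain ⟨z, hz⟩ := hu.1
  obtain ⟨K0, P, hc, ho, hch⟩ := hVK p n σ _ k z hz (noRed_of_minA hu)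
  obtain ⟨G, hG1, hG2, hG3, hG4, hG5⟩ := hB p n σ K0 P (by rw [ho, hc, val_toWord]; exact noRed_of_minA hu)
    (fun m' k' z' hm' h' => Or.inl (by
      rw [hc]
      by_contra hcon
      exact f1a hVK hB he hL m' k' z' hm' (by omega) h'))
  have h1 := hL G hG1 hG2 hG3 (by rw [hG4, hc]; exact hk)
  have h2 := wt_real (hG5 Y)
  rw [ho] at h2
  rw [hG4, hc] at h1 h2
  have h3 : (0 : ℝ) ≤ wtw Y u.toWord := Nat.cast_nonneg _
  linarith

/-- F6 (a): no power of `t` is trivial -/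
theorem f6a {Y : ℕ} {a : ℝ} (ha : 0 < a)
    (hiso : ∀ (u : FreeGroup (Let p n)) (k : ℕ), MinA σ u k → a * k ≤ wtw Y u.toWord) :
    ∀ (m : ℤ) (k : ℕ) (z : Chn σ), m ≠ 0 → ¬ Expr σ k (val (tw p n m)) z := by
  intro m k z hm h
  obtain ⟨k0, _, hk0⟩ := exists_minA h
  have h1 := hiso _ _ hk0
  rw [toWord_tw, wt_tw, Nat.cast_zero] at h1
  have h2 : k0 = 0 := by
    by_contra h0
    have : (0 : ℝ) < k0 := by exact_mod_cast Nat.pos_of_ne_zero h0
    nlinarith [mul_pos ha this]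
  subst h2
  obtain ⟨z', hz'⟩ := hk0.1
  exact tw_ne hm (expr_zero hz').1

/-- a total reduced `Y` contains a closed walk of length at most the number of squares -/
lemma exists_cwalk (G : Glue σ) (hR : G.Red) (hY : domc G.Y = Fintype.card G.S) (hne : 0 < Fintype.card G.S) :
    ∃ l : List (Port p n), l ≠ [] ∧ IsCWalk σ l ∧ l.length ≤ Fintype.card G.S := by
  classical
  have htot : ∀ s, ∃ s', G.Y s = some s' := by
    intro s
    have h1 : (univ.filter (fun s => (G.Y s).isSome)) = univ := by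
      apply eq_univ_of_card
      exact hY
    have h2 : s ∈ univ.filter (fun s => (G.Y s).isSome) := by rw [h1]; exact mem_univ _
    exact Option.isSome_iff_exists.1 (mem_filter.1 h2).2
  choose f hf using htot
  have hinj : Function.Injective f := by
    intro a b hab
    have h1 := hf a
    have h2 := hf b
    rw [hab] at h1
    exact G.Y.inj h1 h2
  obtain ⟨s0⟩ : Nonempty G.S := Fintype.card_pos_iff.1 hne
  obtain ⟨i, j, hij, he⟩ : ∃ i j : Fin (Fintype.card G.S + 1), i ≠ j ∧ f^[i] s0 = f^[j] s0 := by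
    apply Fintype.exists_ne_map_eq_of_card_lt
    simp
  obtain ⟨m, hm0, hmc, hm⟩ : ∃ m, 0 < m ∧ m ≤ Fintype.card G.S ∧ f^[m] s0 = s0 := by
    have key : ∀ a b : ℕ, a < b → b ≤ Fintype.card G.S → f^[a] s0 = f^[b] s0 →
        ∃ m, 0 < m ∧ m ≤ Fintype.card G.S ∧ f^[m] s0 = s0 := by
      intro a b hab hb hE
      refine ⟨b - a, by omega, by omega, ?_⟩
      have h1 : f^[a] (f^[b - a] s0) = f^[a] s0 := by
        rw [← Function.iterate_add_apply, hE]
        congr 2
        omega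
      exact hinj.iterate a h1
    rcases lt_or_gt_of_ne (fun h => hij (Fin.ext h)) with h | h
    · exact key i j h (by omega) he
    · exact key j i h (by omega) he.symm
  have hstep : ∀ s, blk (mt σ (G.ε s)).1 = blk (G.ε (f s)).1 ∧ G.ε (f s) ≠ mt σ (G.ε s) := fun s => hR.y s _ (hf s)
  refine ⟨(List.range m).map fun i => G.ε (f^[i] s0), ?_, ⟨?_, ?_⟩, ?_⟩
  · intro h
    have := congrArg List.length h
    simp at this
    omega
  · unfold IsWalk
    rw [List.isChain_map]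
    obtain ⟨m', rfl⟩ : ∃ m', m = m' + 1 := ⟨m - 1, by omega⟩
    rw [List.isChain_range_succ]
    intro i _
    rw [Nat.succ_eq_add_one, Function.iterate_succ_apply']
    exact hstep _
  · obtain ⟨m', rfl⟩ : ∃ m', m = m' + 1 := ⟨m - 1, by omega⟩
    intro a ha b hb
    rw [List.range_succ, List.map_append, List.map_singleton, List.getLast?_append_of_ne_nil _ (by simp)] at ha
    simp only [List.getLast?_singleton, Option.mem_def, Option.some.injEq] at ha
    rw [List.range_succ_eq_map, List.map_cons] at hb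
    simp only [List.head?_cons, Option.mem_def, Option.some.injEq] at hb
    subst ha hb
    have h1 := hstep (f^[m'] s0)
    rw [← Function.iterate_succ_apply' f, hm] at h1
    exact h1
  · simpa using hmc

/-- every element of the kernel is expressed by relators -/
theorem of_ker {u : FreeGroup (Let p n)} (hu : PresentedGroup.mk (rels σ) u = 1) : ∃ k z, Expr σ k u z := by
  let N : Subgroup (FreeGroup (Let p n)) :=
    { carrier := {u | ∃ k z, Expr σ k u z}
      mul_mem' := fun ⟨k, z, h⟩ ⟨k', z', h'⟩ => ⟨k + k', z + z', EX.mul h h'⟩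
      one_mem' := ⟨0, 0, Expr.nil⟩
      inv_mem' := fun ⟨k, z, h⟩ => ⟨k, -z, EX.inv h⟩ }
  have : N.Normal := ⟨fun u ⟨k, z, h⟩ w => ⟨k, _, EX.conj w h⟩⟩
  have hle : Subgroup.normalClosure (rels σ) ≤ N := by
    refine Subgroup.normalClosure_le_normal ?_
    rintro _ ⟨q, rfl⟩
    have h := EX.sq (σ := σ) 1 q
    rw [one_mul, inv_one, mul_one] at h
    exact ⟨1, _, h⟩
  exact hle (PresentedGroup.mk_eq_one_iff.mp hu)

lemma wt_no_y {l : List (Let p n × Bool)} (h : ∀ a ∈ l, ∀ j, a.1 ≠ Let.y j) (Y Y' : ℕ) : wtw Y l = wtw Y' l := by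
  unfold wtw
  congr 1
  refine List.map_congr_left fun a ha => ?_
  rcases h1 : a.1 with _ | _ | j
  · rfl
  · rfl
  · exact absurd h1 (h a ha j)

/-- F6 (b): short words without `y` inject -/
theorem f6b (hVK : StmtVK) (hB : StmtBridge) {Y g : ℕ} {a : ℝ} (ha : 0 < a)
    (hiso : ∀ (u : FreeGroup (Let p n)) (k : ℕ), MinA σ u k → a * k ≤ wtw Y u.toWord)
    (hg : Girth σ g) (hag : 2 < a * g) (l : List (Let p n × Bool)) (hl : ∀ x ∈ l, ∀ j, x.1 ≠ Let.y j)
    (hw : wtw Y l ≤ 2) (h1 : PresentedGroup.mk (rels σ) (val l) = 1) : val l = 1 := by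
  obtain ⟨k', z', h'⟩ := of_ker h1
  obtain ⟨k, _, hk⟩ := exists_minA h'
  obtain ⟨z, hz⟩ := hk.1
  rcases Nat.eq_zero_or_pos k with rfl | hpos
  · exact (expr_zero hz).1
  exfalso
  obtain ⟨K0, P, hc, ho, hch⟩ := hVK p n σ _ k z hz (noRed_of_minA hk)
  obtain ⟨G, hG1, hG2, hG3, hG4, hG5⟩ := hB p n σ K0 P (by rw [ho, hc, val_toWord]; exact noRed_of_minA hk)
    (fun m' k' z' hm' h' => absurd h' (f6a ha hiso m' k' z' hm'))
  have hno : ∀ x ∈ K0.outw, ∀ j, x.1 ≠ Let.y j := by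
    intro x hx
    rw [ho] at hx
    exact hl x ((toWord_sublist l).subset hx)
  have hY : domc G.Y = Fintype.card G.S := by
    have hle := domc_le G.Y
    by_contra hne
    have h2 : 1 ≤ Fintype.card G.S - domc G.Y := by omega
    have h3 := hG5 (wtw 0 K0.outw + 1)
    rw [wt_no_y hno (wtw 0 K0.outw + 1) 0] at h3
    have h4 : (wtw 0 K0.outw + 1) * 2 ≤ (wtw 0 K0.outw + 1) * (2 * (Fintype.card G.S - domc G.Y)) :=
      Nat.mul_le_mul_left _ (by omega)
    omega
  obtain ⟨w, hw1, hw2, hw3⟩ := exists_cwalk G hG1 hY (by rw [hG4, hc]; exact hpos)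
  have h5 := hg w hw1 hw2
  have h6 : g ≤ k := by rw [hG4, hc] at hw3; omega
  have h7 := hiso _ _ hk
  have h8 : (wtw Y (val l).toWord : ℝ) ≤ 2 := by exact_mod_cast (wt_toWord Y l).trans hw
  have h9 : a * g ≤ a * k := mul_le_mul_of_nonneg_left (by exact_mod_cast h6) ha.le
  linarith

end FL

end Vale.Agent.P201.Z
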