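import Vale.Agent.P201.Z.F.Good
import Vale.Agent.P201.Z.D.BrMir
import Vale.Agent.P201.Z.D.BrLab
import Vale.Agent.P201.Z.D.BndB

/-!
P201 part F: `StmtGd` (unreducible complexes are good), from `StmtMirD` and the heights (helper631).
-/

namespace Vale.Agent.P201.Z

open Finset

namespace GdF

variable {p : Pat} {n : ℕ} {σ : Equiv.Perm (Cel p n)}

theorem redK_of (K : SqK σ)
    (h : ∀ (s s' : K.F), K.q s' = mt σ (K.q s) →
      rv ((brD K).xs s) ≠ (brD K).xe s' ∧ rv ((brD K).ye s) ≠ (brD K).ys s') : K.RedK := by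
  intro f f' d hd hd' hl hq
  have hq' : K.q f = mt σ (K.q f') := by rw [hq, mt_mt]
  have hm := (brD K).mem_cases (s := f) hd
  rcases hm with e | e | e | e | e | e
  · subst e
    refine (h f f' hq).1 ?_
    exact (brD K).eq_xe (s := f') hd' ((brD K).lab_xs f) (congrArg not ((brD K).sg_xs f))
  · exact hl ((brD K).lab_T1 f e)
  · subst e
    have h1 : rv ((brD K).ys f) = (brD K).ye f' :=
      (brD K).eq_ye (s := f') hd' ((brD K).lab_ys f) (congrArg not ((brD K).sg_ys f))
    refine (h f' f hq').2 ?_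
    rw [← h1, rv_rv]
  · subst e
    refine (h f f' hq).2 ?_
    exact (brD K).eq_ys (s := f') hd' ((brD K).lab_ye f) (congrArg not ((brD K).sg_ye f))
  · exact hl ((brD K).lab_T2 f e)
  · subst e
    have h1 : rv ((brD K).xe f) = (brD K).xs f' :=
      (brD K).eq_xs (s := f') hd' ((brD K).lab_xe f) (congrArg not ((brD K).sg_xe f))
    refine (h f' f hq').1 ?_
    rw [← h1, rv_rv]

end GdF

theorem stmtGd : StmtGd := by
  intro p n σ K P hN ht
  exact ⟨GdF.redK_of K (BrMir.stmtMirD p n σ K P hN), BrLab.posK_of stmtBond stmtRec stmtRepl K P hN ht⟩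

end Vale.Agent.P201.Z
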