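import Mathlib

/-!
P201, part F: real analysis (helper504).  See `../PROOF_F.md`, the function `psi` and the choice of `K`.

With `A = dl * K * Y` the function is
`psi e A x = (e/2) * (x + min x (sqrt (A x))) = min (e x) ((e/2) x + (e/2) sqrt (A x))`.
-/

namespace Vale.Agent.P201.Z

open Real

/-- `min (e x) ((e/2) x + (e/2) sqrt (A x))` -/
noncomputable def psi (e A x : ℝ) : ℝ := e / 2 * (x + min x (sqrt (A * x)))

namespace Psi

lemma psi_zero (e A : ℝ) : psi e A 0 = 0 := by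
  simp [psi]

lemma min_mono {A x y : ℝ} (hA : 0 ≤ A) (hxy : x ≤ y) :
    min x (sqrt (A * x)) ≤ min y (sqrt (A * y)) := by
  apply min_le_min hxy
  apply Real.sqrt_le_sqrt
  exact mul_le_mul_of_nonneg_left hxy hA

lemma psi_mono {e A x y : ℝ} (he : 0 ≤ e) (hA : 0 ≤ A) (hxy : x ≤ y) :
    psi e A x ≤ psi e A y := by
  unfold psi
  have h := min_mono hA hxy
  apply mul_le_mul_of_nonneg_left _ (by positivity)
  linarith

lemma min_nonneg {A x : ℝ} (hx : 0 ≤ x) : 0 ≤ min x (sqrt (A * x)) :=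
  le_min hx (Real.sqrt_nonneg _)

/-- mixed case of subadditivity -/
lemma sub_aux {A x y : ℝ} (hA : 0 ≤ A) (hx : 0 ≤ x) (hy : 0 ≤ y) (h : sqrt (A * y) ≤ y) :
    min (x + y) (sqrt (A * (x + y))) ≤ x + sqrt (A * y) := by
  rcases hy.eq_or_lt with h0 | hy0
  · subst h0
    exact (min_le_left _ _).trans (by simp)
  apply (min_le_right _ _).trans
  have hAy : A ≤ y := by
    have h1 : A * y ≤ y * y := by
      have := Real.sqrt_le_left (x := A * y) hy |>.mp h
      nlinarith [this]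
    exact le_of_mul_le_mul_right h1 hy0
  have h2 : A ≤ sqrt (A * y) := by
    apply Real.le_sqrt_of_sq_le
    nlinarith
  apply Real.sqrt_le_iff.mpr
  refine ⟨by positivity, ?_⟩
  have h3 : sqrt (A * y) ^ 2 = A * y := Real.sq_sqrt (by positivity)
  nlinarith [mul_nonneg hx (Real.sqrt_nonneg (A * y)), mul_le_mul_of_nonneg_left h2 hx, mul_nonneg hx hx]

lemma min_sub {A x y : ℝ} (hA : 0 ≤ A) (hx : 0 ≤ x) (hy : 0 ≤ y) :
    min (x + y) (sqrt (A * (x + y))) ≤ min x (sqrt (A * x)) + min y (sqrt (A * y)) := by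
  rcases le_total x (sqrt (A * x)) with h1 | h1 <;> rcases le_total y (sqrt (A * y)) with h2 | h2
  · rw [min_eq_left h1, min_eq_left h2]; exact min_le_left _ _
  · rw [min_eq_left h1, min_eq_right h2]; exact sub_aux hA hx hy h2
  · rw [min_eq_right h1, min_eq_left h2]
    have := sub_aux hA hy hx h1
    rw [add_comm x y, add_comm (sqrt _) y]; exact this
  · rw [min_eq_right h1, min_eq_right h2]
    apply (min_le_right _ _).trans
    apply Real.sqrt_le_iff.mpr
    refine ⟨by positivity, ?_⟩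
    have h3 : sqrt (A * y) ^ 2 = A * y := Real.sq_sqrt (by positivity)
    have h4 : sqrt (A * x) ^ 2 = A * x := Real.sq_sqrt (by positivity)
    nlinarith [mul_nonneg (Real.sqrt_nonneg (A * x)) (Real.sqrt_nonneg (A * y))]

/-- subadditivity -/
lemma psi_add {e A x y : ℝ} (he : 0 ≤ e) (hA : 0 ≤ A) (hx : 0 ≤ x) (hy : 0 ≤ y) :
    psi e A (x + y) ≤ psi e A x + psi e A y := by
  unfold psi
  have h := min_sub hA hx hy
  have h2 : e / 2 * (x + y + min (x + y) (sqrt (A * (x + y)))) ≤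
      e / 2 * ((x + min x (sqrt (A * x))) + (y + min y (sqrt (A * y)))) := by
    apply mul_le_mul_of_nonneg_left _ (by positivity)
    linarith
  linarith

/-- subadditivity for finite sums -/
lemma psi_sum {ι : Type*} (s : Finset ι) (f : ι → ℝ) {e A : ℝ} (he : 0 ≤ e) (hA : 0 ≤ A)
    (hf : ∀ i ∈ s, 0 ≤ f i) : psi e A (∑ i ∈ s, f i) ≤ ∑ i ∈ s, psi e A (f i) := by
  classical
  induction s using Finset.induction_on with
  | empty => simp [psi_zero]
  | insert a s ha ih =>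
    rw [Finset.sum_insert ha, Finset.sum_insert ha]
    have h1 : ∀ i ∈ s, 0 ≤ f i := fun i hi => hf i (Finset.mem_insert_of_mem hi)
    have h2 := psi_add he hA (hf a (Finset.mem_insert_self a s)) (Finset.sum_nonneg h1)
    have h3 := ih h1
    linarith

lemma psi_le {e A x : ℝ} (he : 0 ≤ e) : psi e A x ≤ e * x := by
  unfold psi
  have h : e / 2 * (x + min x (sqrt (A * x))) ≤ e / 2 * (x + x) := by
    apply mul_le_mul_of_nonneg_left _ (by positivity)
    linarith [min_le_left x (sqrt (A * x))]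
  linarith

lemma le_psi {e A x : ℝ} (he : 0 ≤ e) (hx : 0 ≤ x) : e / 2 * x ≤ psi e A x := by
  unfold psi
  apply mul_le_mul_of_nonneg_left _ (by positivity)
  linarith [min_nonneg (A := A) hx]

lemma psi_nonneg {e A x : ℝ} (he : 0 ≤ e) (hx : 0 ≤ x) : 0 ≤ psi e A x :=
  le_trans (by positivity) (le_psi he hx)

/-- small arguments -/
lemma psi_small {e A x : ℝ} (hx : 0 ≤ x) (h : x ≤ A) : psi e A x = e * x := by
  unfold psi
  have h1 : x ≤ sqrt (A * x) := Real.le_sqrt_of_sq_le (by nlinarith)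
  rw [min_eq_left h1]; ring

/-- large arguments -/
lemma psi_large {e A x : ℝ} (hA : 0 ≤ A) (h : A ≤ x) :
    psi e A x = e / 2 * x + e / 2 * sqrt (A * x) := by
  unfold psi
  have hx : 0 ≤ x := hA.trans h
  have h1 : sqrt (A * x) ≤ x := by
    apply Real.sqrt_le_iff.mpr
    exact ⟨hx, by nlinarith⟩
  rw [min_eq_right h1]; ring

/-- `sqrt t + sqrt (1-t) ≥ 1 + sqrt t / 2` in homogeneous form -/
lemma sqrt_gain {s F : ℝ} (hs : 0 ≤ s) (hF : s ≤ F / 2) :
    sqrt F + sqrt s / 2 ≤ sqrt s + sqrt (F - s) := by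
  have hF0 : 0 ≤ F := by linarith
  have hsF : sqrt s ≤ sqrt F := Real.sqrt_le_sqrt (by linarith)
  have h1 : sqrt s ^ 2 = s := Real.sq_sqrt hs
  have h2 : sqrt F ^ 2 = F := Real.sq_sqrt hF0
  have h3 : sqrt s ≤ 4 / 5 * sqrt F := by
    apply Real.sqrt_le_iff.mpr
    refine ⟨by positivity, ?_⟩
    rw [mul_pow, h2]; linarith
  have h4 : sqrt F - sqrt s / 2 ≤ sqrt (F - s) := by
    apply Real.le_sqrt_of_sq_le
    nlinarith [Real.sqrt_nonneg s, Real.sqrt_nonneg F]
  linarith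

/-- gain of a balanced cut -/
lemma psi_cut {e A s F dl : ℝ} (he : 0 ≤ e) (hA : 0 ≤ A) (hs1 : A ≤ s)
    (hs2 : dl * F ≤ s) (hs : s ≤ F / 2) :
    psi e A F + e / 4 * sqrt (A * (dl * F)) ≤ psi e A s + psi e A (F - s) := by
  have hs0 : 0 ≤ s := hA.trans hs1
  have hF0 : 0 ≤ F := by linarith
  rw [psi_large hA hs1, psi_large hA (x := F) (by linarith), psi_large hA (x := F - s) (by linarith)]
  rw [Real.sqrt_mul hA, Real.sqrt_mul hA, Real.sqrt_mul hA, Real.sqrt_mul hA]
  have h1 := sqrt_gain hs0 hs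
  have h2 : sqrt (dl * F) ≤ sqrt s := Real.sqrt_le_sqrt hs2
  have h3 : 0 ≤ sqrt A := Real.sqrt_nonneg _
  have h4 : sqrt A * (sqrt F + sqrt (dl * F) / 2) ≤ sqrt A * (sqrt s + sqrt (F - s)) :=
    mul_le_mul_of_nonneg_left (by linarith) h3
  have h5 : e / 2 * (sqrt A * (sqrt F + sqrt (dl * F) / 2)) ≤
      e / 2 * (sqrt A * (sqrt s + sqrt (F - s))) := mul_le_mul_of_nonneg_left h4 (by positivity)
  nlinarith [h5]

/-- geometric growth bounds the number of steps -/
lemma growth {e g F : ℝ} (he : 0 < e) (hg : 0 < g) (m : ℕ → ℝ) (J : ℕ) (h0 : g ≤ m 0)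
    (hs : ∀ j < J, (1 + e) * m j ≤ m (j + 1)) (hJ : m J ≤ F) :
    (J : ℝ) ≤ log (F / g) / log (1 + e) := by
  have h1 : ∀ j ≤ J, (1 + e) ^ j * g ≤ m j := by
    intro j
    induction j with
    | zero => intro _; simpa using h0
    | succ j ih =>
      intro hj
      have h2 := ih (by omega)
      have h3 := hs j (by omega)
      calc (1 + e) ^ (j + 1) * g = (1 + e) * ((1 + e) ^ j * g) := by ring
        _ ≤ (1 + e) * m j := mul_le_mul_of_nonneg_left h2 (by linarith)
        _ ≤ _ := h3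
  have h2 : (1 + e) ^ J * g ≤ F := (h1 J le_rfl).trans hJ
  have h3 : (1 + e) ^ J ≤ F / g := by rwa [le_div_iff₀ hg]
  have hl : 0 < log (1 + e) := Real.log_pos (by linarith)
  rw [le_div_iff₀ hl, ← Real.log_pow]
  exact Real.log_le_log (by positivity) h3

/-- bound used for the choice of `K` -/
noncomputable def Bd (c e rho : ℝ) : ℝ := 8 * (log (rho / c) / log (1 + e / 4) + 5) + 2

/-- choice of `K` -/
lemma exists_K (c e dl : ℝ) (hc : 0 < c) (he : 0 < e) (hdl : 0 < dl) :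
    ∃ K1 : ℕ, 1 ≤ K1 ∧ c ≤ K1 ∧ ∀ K : ℕ, K1 ≤ K → ∀ rho : ℝ, (K : ℝ) ≤ rho →
      Bd c e rho < e * dl / 4 * sqrt (K * rho) := by
  have hl : 0 < log (1 + e / 4) := Real.log_pos (by linarith)
  set a : ℝ := e * dl / 4 with ha
  have ha0 : 0 < a := by positivity
  have h1 : ∀ᶠ x : ℝ in Filter.atTop, ‖log x‖ ≤ (a * log (1 + e / 4) / 32) * ‖x ^ (1 / 2 : ℝ)‖ :=
    (isLittleO_log_rpow_atTop (by norm_num : (0 : ℝ) < 1 / 2)).bound (by positivity)
  have h2 : ∀ᶠ x : ℝ in Filter.atTop,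
      (8 * (-log c / log (1 + e / 4) + 5) + 2) / (a / 4) < x ^ (1 / 2 : ℝ) :=
    (tendsto_rpow_atTop (by norm_num : (0 : ℝ) < 1 / 2)).eventually_gt_atTop _
  obtain ⟨x0, hx0⟩ := Filter.eventually_atTop.mp (h1.and h2)
  obtain ⟨K1, hK1⟩ := exists_nat_ge (max (max x0 1) c)
  have hK1a : x0 ≤ K1 := (le_max_left _ _).trans ((le_max_left _ _).trans hK1)
  have hK1b : (1 : ℝ) ≤ K1 := (le_max_right _ _).trans ((le_max_left _ _).trans hK1)
  have hK1c : c ≤ K1 := (le_max_right _ _).trans hK1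
  refine ⟨K1, by exact_mod_cast hK1b, hK1c, ?_⟩
  intro K hK rho hrho
  have hKr : (K1 : ℝ) ≤ K := by exact_mod_cast hK
  have hr1 : (1 : ℝ) ≤ rho := by linarith
  obtain ⟨h3, h4⟩ := hx0 rho (by linarith)
  rw [Real.norm_eq_abs, Real.norm_eq_abs, ← Real.sqrt_eq_rpow, abs_of_nonneg (Real.sqrt_nonneg _)] at h3
  rw [← Real.sqrt_eq_rpow, div_lt_iff₀ (by positivity)] at h4
  have h5 : log rho ≤ a * log (1 + e / 4) / 32 * sqrt rho := (le_abs_self _).trans h3
  have h6 : log rho / log (1 + e / 4) ≤ a / 32 * sqrt rho := by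
    rw [div_le_iff₀ hl]; linarith
  have h7 : log (rho / c) / log (1 + e / 4) = log rho / log (1 + e / 4) + -log c / log (1 + e / 4) := by
    rw [Real.log_div (by linarith) hc.ne']; ring
  have h8 : sqrt rho ≤ sqrt (K * rho) := Real.sqrt_le_sqrt (by nlinarith)
  have h9 : 0 < sqrt rho := Real.sqrt_pos.mpr (by linarith)
  unfold Bd
  rw [h7]
  nlinarith [mul_pos ha0 h9, mul_le_mul_of_nonneg_left h8 ha0.le]

/-- all the inequalities needed in F5 and F7.  `dl ≤ 1`, `A = dl K Y`. -/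
theorem numerics (c e dl : ℝ) (hc : 0 < c) (he : 0 < e) (hdl : 0 < dl) :
    ∃ K1 : ℕ, 1 ≤ K1 ∧ ∀ K : ℕ, K1 ≤ K → ∀ Y : ℕ, 1 ≤ Y → ∀ F g : ℝ, c * Y ≤ g → (K * Y : ℝ) ≤ F →
      (∀ s : ℝ, dl * F ≤ s → s ≤ F / 2 →
        psi e (dl * K * Y) F + 2 * (2 * (2 * Y * (log (F / g) / log (1 + e / 4) + 4)) + Y) <
          psi e (dl * K * Y) s + psi e (dl * K * Y) (F - s) ∧
        2 * (2 * Y * (log (F / g) / log (1 + e / 4) + 4)) + Y < psi e (dl * K * Y) s) ∧
      2 * (4 * Y * (log (F / g) / log (1 + e / 4) + 5)) + Y < e / 2 * (dl * F) := by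
  obtain ⟨K1, hK1, hK1c, h⟩ := exists_K c e dl hc he hdl
  refine ⟨K1, hK1, ?_⟩
  intro K hK Y hY F g hg hF
  have hl : 0 < log (1 + e / 4) := Real.log_pos (by linarith)
  have hKr : (K1 : ℝ) ≤ K := by exact_mod_cast hK
  have hK1r : (1 : ℝ) ≤ K1 := by exact_mod_cast hK1
  have hYr : (1 : ℝ) ≤ Y := by exact_mod_cast hY
  have hY0 : (0 : ℝ) < Y := by linarith
  have hF0 : 0 < F := by nlinarith
  set rho : ℝ := F / Y with hrho
  have hFr : F = rho * Y := by rw [hrho]; field_simp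
  have hrK : (K : ℝ) ≤ rho := by rw [hrho, le_div_iff₀ hY0]; exact hF
  have h1 := h K hK rho hrK
  have hg0 : 0 < g := lt_of_lt_of_le (by positivity) hg
  have hlog : log (F / g) ≤ log (rho / c) := by
    apply Real.log_le_log (by positivity)
    rw [div_le_div_iff₀ hg0 hc, hFr]
    have : 0 ≤ rho := by linarith
    nlinarith
  have hL : log (F / g) / log (1 + e / 4) ≤ log (rho / c) / log (1 + e / 4) :=
    div_le_div_of_nonneg_right hlog hl.le
  have hL0 : 0 ≤ log (rho / c) / log (1 + e / 4) := by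
    apply div_nonneg _ hl.le
    apply Real.log_nonneg
    rw [le_div_iff₀ hc]; linarith
  unfold Bd at h1
  set L := log (F / g) / log (1 + e / 4)
  set L' := log (rho / c) / log (1 + e / 4)
  have hrho0 : 0 ≤ rho := by linarith
  have hsq : sqrt (K * rho) ≤ rho := by
    apply Real.sqrt_le_iff.mpr
    exact ⟨hrho0, by nlinarith⟩
  have hA0 : 0 ≤ dl * K * Y := by positivity
  have hmain : e * dl / 4 * sqrt (K * rho) ≤ e * dl / 4 * rho :=
    mul_le_mul_of_nonneg_left hsq (by positivity)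
  have hlast : 2 * (4 * Y * (L + 5)) + Y < e / 2 * (dl * F) := by
    have h2 : 8 * (L + 5) + 1 < e / 2 * dl * rho := by
      have : 0 ≤ e * dl / 4 * rho := by positivity
      nlinarith
    calc 2 * (4 * Y * (L + 5)) + Y = (8 * (L + 5) + 1) * Y := by ring
      _ < (e / 2 * dl * rho) * Y := mul_lt_mul_of_pos_right h2 hY0
      _ = e / 2 * (dl * F) := by rw [hFr]; ring
  refine ⟨?_, hlast⟩
  intro s hs1 hs2
  have hAs : dl * K * Y ≤ s := by
    calc dl * K * Y = dl * (K * Y) := by ring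
      _ ≤ dl * F := mul_le_mul_of_nonneg_left hF hdl.le
      _ ≤ s := hs1
  constructor
  · have h2 := psi_cut he.le hA0 hAs hs1 hs2
    have h3 : e / 4 * sqrt (dl * K * Y * (dl * F)) = e * dl / 4 * sqrt (K * rho) * Y := by
      have : dl * K * Y * (dl * F) = (dl * Y) ^ 2 * (K * rho) := by rw [hFr]; ring
      rw [this, Real.sqrt_mul (by positivity), Real.sqrt_sq (by positivity)]
      ring
    rw [h3] at h2
    have h4 : 2 * (2 * (2 * Y * (L + 4)) + Y) < e * dl / 4 * sqrt (K * rho) * Y := by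
      calc 2 * (2 * (2 * Y * (L + 4)) + Y) = (8 * (L + 4) + 2) * Y := by ring
        _ < e * dl / 4 * sqrt (K * rho) * Y := by
          apply mul_lt_mul_of_pos_right _ hY0
          linarith
    linarith
  · have h2 := le_psi (A := dl * K * Y) he.le (hA0.trans hAs)
    have h3 : e / 2 * (dl * F) ≤ e / 2 * s := mul_le_mul_of_nonneg_left hs1 (by positivity)
    have h4 : 2 * (2 * Y * (L + 4)) + Y < e / 2 * (dl * F) := by
      have h2 : 4 * (L + 4) + 1 < e / 2 * dl * rho := by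
        have : 0 ≤ e * dl / 4 * rho := by positivity
        nlinarith
      calc 2 * (2 * Y * (L + 4)) + Y = (4 * (L + 4) + 1) * Y := by ring
        _ < (e / 2 * dl * rho) * Y := mul_lt_mul_of_pos_right h2 hY0
        _ = e / 2 * (dl * F) := by rw [hFr]; ring
    linarith

end Psi

end Vale.Agent.P201.Z
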