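import Vale.Agent.P201.Z.PC

/-!
P201, part F2 + F4 + growth of F7(c) (helper476): e-vertices, stars, weighted balls.
Everything is in the namespace `Gro` and uses only PC.lean.  `Sqs` covers the disc
(`S = K.F`, `φ = some`) and the sphere (`S = Option K.F`, `φ = id`).
-/

namespace Vale.Agent.P201.Z.Gro

open Finset

variable {p : Pat} {n : ℕ}

theorem rv_rv' {E : Type} (d : E × Bool) : rv (rv d) = d := by
  cases d; simp [rv]

/-- a family of squares among the faces of `K` -/
structure Sqs (σ : Equiv.Perm (Cel p n)) (K : PC (Let p n)) where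
  S : Type
  [fS : Fintype S]
  [dS : DecidableEq S]
  φ : S → Option K.F
  inj : Function.Injective φ
  ε : S → Port p n
  sq : ∀ s : S, (K.bd (φ s)).map (fun d => (K.lab d.1, d.2)) = relw σ (ε s)

attribute [instance] Sqs.fS Sqs.dS

/-! ### raw facts on PC -/

theorem exF (K : PC (Let p n)) (d : K.E × Bool) : ∃ f, d ∈ K.bd f := by
  by_contra h
  push Not at h
  have h1 := K.once d
  rw [Finset.sum_eq_zero] at h1
  · exact absurd h1 (by norm_num)
  · intro f _
    exact List.count_eq_zero_of_not_mem (h f)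

theorem unF (K : PC (Let p n)) {d : K.E × Bool} {f g : Option K.F} (hf : d ∈ K.bd f)
    (hg : d ∈ K.bd g) : f = g := by
  by_contra hne
  have h1 := K.once d
  have h2 : (K.bd f).count d + (K.bd g).count d ≤ ∑ x, (K.bd x).count d := by
    rw [← Finset.sum_pair (f := fun x => (K.bd x).count d) hne]
    exact Finset.sum_le_sum_of_subset (Finset.subset_univ _)
  have h3 : 0 < (K.bd f).count d := List.count_pos_iff.2 hf
  have h4 : 0 < (K.bd g).count d := List.count_pos_iff.2 hg
  omega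

/-- the next dart on a face -/
theorem exNext (K : PC (Let p n)) {f : Option K.F} {d : K.E × Bool} (h : d ∈ K.bd f) :
    ∃ b ∈ K.bd f, K.org b = K.org (rv d) := by
  obtain ⟨l1, l2, hl⟩ := List.append_of_mem h
  cases l2 with
  | cons b l2 =>
    refine ⟨b, by rw [hl]; simp, ?_⟩
    have hc := K.chain f
    rw [hl, List.isChain_append] at hc
    have := hc.2.1
    rw [List.isChain_cons_cons] at this
    exact this.1
  | nil =>
    have hlast : d ∈ (K.bd f).getLast? := by rw [hl]; simp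
    cases hb : (K.bd f) with
    | nil => rw [hb] at h; simp at h
    | cons b l =>
      refine ⟨b, by simp, ?_⟩
      exact K.closed f d hlast b (by rw [hb]; simp)

/-! ### weighted reachability -/

/-- weight of a dart -/
def wt (K : PC (Let p n)) (Y : ℕ) (d : K.E × Bool) : ℕ := wtl Y (K.lab d.1)

/-- `Reach K Y r v w`: a walk from `v` to `w` of weight at most `r` -/
inductive Reach (K : PC (Let p n)) (Y : ℕ) : ℕ → K.V → K.V → Prop
  | refl (r : ℕ) (v : K.V) : Reach K Y r v v
  | step (r : ℕ) (v : K.V) (d : K.E × Bool) : Reach K Y r v (K.org d) →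
      Reach K Y (r + wt K Y d) v (K.org (rv d))

theorem Reach.mono {K : PC (Let p n)} {Y r s : ℕ} {v w : K.V} (h : Reach K Y r v w) (hs : r ≤ s) :
    Reach K Y s v w := by
  induction h generalizing s with
  | refl r v => exact Reach.refl s v
  | step r v d h ih =>
    obtain ⟨k, rfl⟩ := Nat.exists_eq_add_of_le hs
    have := Reach.step (r + k) v d (ih (Nat.le_add_right _ _))
    rwa [show r + wt K Y d + k = r + k + wt K Y d by ring]

theorem Reach.trans {K : PC (Let p n)} {Y r s : ℕ} {u v w : K.V} (h : Reach K Y r u v)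
    (h' : Reach K Y s v w) : Reach K Y (r + s) u w := by
  induction h' with
  | refl s v => exact h.mono (Nat.le_add_right _ _)
  | step s v d h' ih =>
    rw [← Nat.add_assoc]
    exact Reach.step (r + s) u d (ih h)

theorem Reach.one {K : PC (Let p n)} {Y : ℕ} (d : K.E × Bool) :
    Reach K Y (wt K Y d) (K.org d) (K.org (rv d)) := by
  have := Reach.step (Y := Y) 0 (K.org d) d (Reach.refl 0 _)
  rwa [Nat.zero_add] at this

theorem Reach.one' {K : PC (Let p n)} {Y : ℕ} (d : K.E × Bool) :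
    Reach K Y (wt K Y d) (K.org (rv d)) (K.org d) := by
  have := Reach.one (K := K) (Y := Y) (rv d)
  rw [rv_rv'] at this
  exact this

theorem Reach.symm {K : PC (Let p n)} {Y r : ℕ} {v w : K.V} (h : Reach K Y r v w) :
    Reach K Y r w v := by
  induction h with
  | refl r v => exact Reach.refl r v
  | step r v d h ih =>
    rw [Nat.add_comm]
    exact (Reach.one' d).trans ih

/-- list form of `Reach` -/
theorem Reach.list {K : PC (Let p n)} {Y r : ℕ} {v w : K.V} (h : Reach K Y r v w) :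
    ∃ l : List (K.E × Bool), l.IsChain (fun a b => K.org b = K.org (rv a)) ∧
      (l.map (wt K Y)).sum ≤ r ∧ (l = [] → v = w) ∧ (∀ a ∈ l.head?, K.org a = v) ∧
      (∀ a ∈ l.getLast?, K.org (rv a) = w) := by
  induction h with
  | refl r v => exact ⟨[], by simp, by simp, by simp, by simp, by simp⟩
  | step r v d h ih =>
    obtain ⟨l, h1, h2, h3, h4, h5⟩ := ih
    refine ⟨l ++ [d], ?_, ?_, ?_, ?_, ?_⟩
    · rw [List.isChain_append]
      refine ⟨h1, by simp, ?_⟩
      intro a ha b hb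
      have : b = d := by simpa using hb.symm
      subst this
      exact (h5 a ha).symm
    · simp only [List.map_append, List.sum_append, List.map_cons, List.map_nil, List.sum_cons,
        List.sum_nil]
      omega
    · intro h; simp at h
    · intro a ha
      cases l with
      | nil =>
        have : a = d := by simpa using ha.symm
        subst this
        exact (h3 rfl).symm
      | cons b l => exact h4 a (by simpa using ha)
    · intro a ha
      have : a = d := by simpa using ha.symm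
      subst this
      rfl

theorem reach_chain {K : PC (Let p n)} {Y : ℕ} : ∀ (l : List (K.E × Bool)) (a b : K.E × Bool),
    (a :: (l ++ [b])).IsChain (fun a b => K.org b = K.org (rv a)) →
    Reach K Y (wt K Y a + (l.map (wt K Y)).sum) (K.org a) (K.org b)
  | [], a, b, h => by
    simp only [List.nil_append, List.isChain_cons_cons] at h
    rw [h.1]
    simpa using Reach.one (K := K) (Y := Y) a
  | c :: l, a, b, h => by
    simp only [List.cons_append, List.isChain_cons_cons] at h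
    have h1 := reach_chain (Y := Y) l c b (by simpa using h.2)
    have h2 := (Reach.one (K := K) (Y := Y) a)
    rw [← h.1] at h2
    simpa using h2.trans h1

/-! ### corners of squares -/

namespace Sqs

variable {σ : Equiv.Perm (Cel p n)} {K : PC (Let p n)} (W : Sqs σ K)

/-- the decomposition of the boundary of a square -/
structure Cor (s : W.S) where
  sx : K.E × Bool
  sy : K.E × Bool
  ey : K.E × Bool
  ex : K.E × Bool
  T1 : List (K.E × Bool)
  T2 : List (K.E × Bool)
  eq : K.bd (W.φ s) = sx :: (T1 ++ sy :: ey :: (T2 ++ [ex]))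
  lsx : (K.lab sx.1, sx.2) = (Let.x (row (W.ε s).1) (W.ε s).2, true)
  lsy : (K.lab sy.1, sy.2) = (Let.y (blk (W.ε s).1), true)
  ley : (K.lab ey.1, ey.2) = (Let.y (blk (mt σ (W.ε s)).1), false)
  lex : (K.lab ex.1, ex.2) = (Let.x (row (mt σ (W.ε s)).1) (mt σ (W.ε s)).2, false)
  lT1 : T1.map (fun d => (K.lab d.1, d.2)) = tw p n (ht (W.ε s).1)
  lT2 : T2.map (fun d => (K.lab d.1, d.2)) = winv (tw p n (ht (mt σ (W.ε s)).1))

theorem nonempty_cor (s : W.S) : Nonempty (W.Cor s) := by
  have h := W.sq s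
  have hr : relw σ (W.ε s) = (Let.x (row (W.ε s).1) (W.ε s).2, true) ::
      (tw p n (ht (W.ε s).1) ++ (Let.y (blk (W.ε s).1), true) ::
      (Let.y (blk (mt σ (W.ε s)).1), false) :: (winv (tw p n (ht (mt σ (W.ε s)).1)) ++
        [(Let.x (row (mt σ (W.ε s)).1) (mt σ (W.ε s)).2, false)])) := by
    simp [relw, half, winv]
  rw [hr, List.map_eq_cons_iff] at h
  obtain ⟨a, l, hl, ha, h⟩ := h
  rw [List.map_eq_append_iff] at h
  obtain ⟨T1, l2, hl2, hT1, h⟩ := h
  rw [List.map_eq_cons_iff] at h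
  obtain ⟨b, l3, hl3, hb, h⟩ := h
  rw [List.map_eq_cons_iff] at h
  obtain ⟨c, l4, hl4, hc, h⟩ := h
  rw [List.map_eq_append_iff] at h
  obtain ⟨T2, l5, hl5, hT2, h⟩ := h
  rw [List.map_eq_singleton_iff] at h
  obtain ⟨d, hd, hd2⟩ := h
  refine ⟨⟨a, b, c, d, T1, T2, ?_, ha, hb, hc, hd2, hT1, hT2⟩⟩
  rw [hl, hl2, hl3, hl4, hl5, hd]

noncomputable def cor (s : W.S) : W.Cor s := Classical.choice (W.nonempty_cor s)

noncomputable def sx (s : W.S) : K.E × Bool := (W.cor s).sx
noncomputable def sy (s : W.S) : K.E × Bool := (W.cor s).sy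
noncomputable def ey (s : W.S) : K.E × Bool := (W.cor s).ey
noncomputable def ex (s : W.S) : K.E × Bool := (W.cor s).ex
noncomputable def T1 (s : W.S) : List (K.E × Bool) := (W.cor s).T1
noncomputable def T2 (s : W.S) : List (K.E × Bool) := (W.cor s).T2

/-- the e-vertex of a square -/
noncomputable def ev (s : W.S) : K.V := K.org (W.ey s)

theorem bd_eq (s : W.S) :
    K.bd (W.φ s) = W.sx s :: (W.T1 s ++ W.sy s :: W.ey s :: (W.T2 s ++ [W.ex s])) := (W.cor s).eq

theorem lab_sx (s : W.S) : K.lab (W.sx s).1 = Let.x (row (W.ε s).1) (W.ε s).2 :=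
  congrArg Prod.fst (W.cor s).lsx
theorem sx_snd (s : W.S) : (W.sx s).2 = true := congrArg Prod.snd (W.cor s).lsx
theorem lab_sy (s : W.S) : K.lab (W.sy s).1 = Let.y (blk (W.ε s).1) :=
  congrArg Prod.fst (W.cor s).lsy
theorem sy_snd (s : W.S) : (W.sy s).2 = true := congrArg Prod.snd (W.cor s).lsy
theorem lab_ey (s : W.S) : K.lab (W.ey s).1 = Let.y (blk (mt σ (W.ε s)).1) :=
  congrArg Prod.fst (W.cor s).ley
theorem ey_snd (s : W.S) : (W.ey s).2 = false := congrArg Prod.snd (W.cor s).ley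
theorem lab_ex (s : W.S) : K.lab (W.ex s).1 = Let.x (row (mt σ (W.ε s)).1) (mt σ (W.ε s)).2 :=
  congrArg Prod.fst (W.cor s).lex
theorem ex_snd (s : W.S) : (W.ex s).2 = false := congrArg Prod.snd (W.cor s).lex

theorem lab_T1 (s : W.S) {d : K.E × Bool} (h : d ∈ W.T1 s) : K.lab d.1 = Let.t := by
  have h1 : (K.lab d.1, d.2) ∈ tw p n (ht (W.ε s).1) := by
    rw [← (W.cor s).lT1]; exact List.mem_map.2 ⟨d, h, rfl⟩
  have := List.eq_of_mem_replicate h1
  exact congrArg Prod.fst this

theorem lab_T2 (s : W.S) {d : K.E × Bool} (h : d ∈ W.T2 s) : K.lab d.1 = Let.t := by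
  have h1 : (K.lab d.1, d.2) ∈ winv (tw p n (ht (mt σ (W.ε s)).1)) := by
    rw [← (W.cor s).lT2]; exact List.mem_map.2 ⟨d, h, rfl⟩
  simp only [winv, List.mem_reverse, List.mem_map] at h1
  obtain ⟨a, ha, ha2⟩ := h1
  have := List.eq_of_mem_replicate ha
  rw [this] at ha2
  exact (congrArg Prod.fst ha2).symm

theorem sx_mem (s : W.S) : W.sx s ∈ K.bd (W.φ s) := by rw [W.bd_eq]; simp
theorem sy_mem (s : W.S) : W.sy s ∈ K.bd (W.φ s) := by rw [W.bd_eq]; simp
theorem ey_mem (s : W.S) : W.ey s ∈ K.bd (W.φ s) := by rw [W.bd_eq]; simp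
theorem ex_mem (s : W.S) : W.ex s ∈ K.bd (W.φ s) := by rw [W.bd_eq]; simp

theorem mem_bd (s : W.S) {d : K.E × Bool} (h : d ∈ K.bd (W.φ s)) :
    d = W.sx s ∨ d ∈ W.T1 s ∨ d = W.sy s ∨ d = W.ey s ∨ d ∈ W.T2 s ∨ d = W.ex s := by
  rw [W.bd_eq] at h
  simpa using h

theorem eq_sx_or_ex (s : W.S) {d : K.E × Bool} (h : d ∈ K.bd (W.φ s)) {i : p.I}
    {c : Bool} (hl : K.lab d.1 = Let.x i c) : d = W.sx s ∨ d = W.ex s := by
  rcases W.mem_bd s h with rfl | h | rfl | rfl | h | rfl
  · exact Or.inl rfl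
  · rw [W.lab_T1 s h] at hl; cases hl
  · rw [W.lab_sy] at hl; cases hl
  · rw [W.lab_ey] at hl; cases hl
  · rw [W.lab_T2 s h] at hl; cases hl
  · exact Or.inr rfl

theorem eq_sy (s : W.S) {d : K.E × Bool} (h : d ∈ K.bd (W.φ s)) (hd : d.2 = true) {j : Blk p n}
    (hl : K.lab d.1 = Let.y j) : d = W.sy s := by
  rcases W.mem_bd s h with rfl | h | rfl | rfl | h | rfl
  · rw [W.lab_sx] at hl; cases hl
  · rw [W.lab_T1 s h] at hl; cases hl
  · rfl
  · rw [W.ey_snd] at hd; cases hd
  · rw [W.lab_T2 s h] at hl; cases hl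
  · rw [W.lab_ex] at hl; cases hl

theorem eq_ey (s : W.S) {d : K.E × Bool} (h : d ∈ K.bd (W.φ s)) (hd : d.2 = false) {j : Blk p n}
    (hl : K.lab d.1 = Let.y j) : d = W.ey s := by
  rcases W.mem_bd s h with rfl | h | rfl | rfl | h | rfl
  · rw [W.lab_sx] at hl; cases hl
  · rw [W.lab_T1 s h] at hl; cases hl
  · rw [W.sy_snd] at hd; cases hd
  · rfl
  · rw [W.lab_T2 s h] at hl; cases hl
  · rw [W.lab_ex] at hl; cases hl

theorem eq_of_mem {s s' : W.S} {d : K.E × Bool} (h : d ∈ K.bd (W.φ s)) (h' : d ∈ K.bd (W.φ s')) :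
    s = s' := W.inj (unF K h h')

/-! ### weights -/

theorem wt_sx (Y : ℕ) (s : W.S) : wt K Y (W.sx s) = 1 := by
  rw [wt, W.lab_sx]; rfl
theorem wt_ex (Y : ℕ) (s : W.S) : wt K Y (W.ex s) = 1 := by
  rw [wt, W.lab_ex]; rfl
theorem wt_sy (Y : ℕ) (s : W.S) : wt K Y (W.sy s) = Y := by
  rw [wt, W.lab_sy]; rfl
theorem wt_ey (Y : ℕ) (s : W.S) : wt K Y (W.ey s) = Y := by
  rw [wt, W.lab_ey]; rfl
theorem sum_T {l : List (K.E × Bool)} (h : ∀ d ∈ l, K.lab d.1 = Let.t) (Y : ℕ) :
    (l.map (wt K Y)).sum = 0 := by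
  apply List.sum_eq_zero
  intro x hx
  obtain ⟨d, hd, rfl⟩ := List.mem_map.1 hx
  rw [wt, h d hd]; rfl

theorem chain_bd (s : W.S) : List.IsChain (fun a b => K.org b = K.org (rv a))
    (W.sx s :: (W.T1 s ++ W.sy s :: W.ey s :: (W.T2 s ++ [W.ex s]))) := by
  rw [← W.bd_eq]; exact K.chain _

theorem chain1 (s : W.S) : List.IsChain (fun a b => K.org b = K.org (rv a))
    (W.sx s :: (W.T1 s ++ [W.sy s])) := by
  have h := W.chain_bd s
  have e : W.sx s :: (W.T1 s ++ W.sy s :: W.ey s :: (W.T2 s ++ [W.ex s])) =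
      (W.sx s :: (W.T1 s ++ [W.sy s])) ++ W.ey s :: (W.T2 s ++ [W.ex s]) := by simp
  rw [e, List.isChain_append] at h
  exact h.1

theorem chain2 (s : W.S) : List.IsChain (fun a b => K.org b = K.org (rv a))
    (W.ey s :: (W.T2 s ++ [W.ex s])) := by
  have h := W.chain_bd s
  have e : W.sx s :: (W.T1 s ++ W.sy s :: W.ey s :: (W.T2 s ++ [W.ex s])) =
      (W.sx s :: (W.T1 s ++ [W.sy s])) ++ W.ey s :: (W.T2 s ++ [W.ex s]) := by simp
  rw [e, List.isChain_append] at h
  exact h.2.1

theorem ev_eq (s : W.S) : K.org (rv (W.sy s)) = W.ev s := by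
  have h := W.chain_bd s
  have e : W.sx s :: (W.T1 s ++ W.sy s :: W.ey s :: (W.T2 s ++ [W.ex s])) =
      (W.sx s :: W.T1 s) ++ W.sy s :: W.ey s :: (W.T2 s ++ [W.ex s]) := by simp
  rw [e, List.isChain_append] at h
  exact ((List.isChain_cons_cons.1 h.2.1).1).symm

/-- start M-vertex -/
theorem reach_m1 (Y : ℕ) (s : W.S) : Reach K Y 0 (K.org (rv (W.sx s))) (K.org (W.sy s)) := by
  have h := W.chain1 s
  cases hT : W.T1 s with
  | nil =>
    rw [hT] at h
    simp only [List.nil_append, List.isChain_cons_cons] at h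
    rw [h.1]
    exact Reach.refl _ _
  | cons a l =>
    rw [hT] at h
    simp only [List.cons_append, List.isChain_cons_cons] at h
    have h1 := reach_chain (Y := Y) l a (W.sy s) (by simpa using h.2)
    rw [← h.1]
    have h0 : wt K Y a + (l.map (wt K Y)).sum = 0 := by
      have := sum_T (l := W.T1 s) (fun d hd => W.lab_T1 s hd) Y
      rw [hT] at this
      simpa using this
    rw [h0] at h1
    exact h1

theorem reach_m1' (Y : ℕ) (s : W.S) {d : K.E × Bool} (hd : d ∈ W.T1 s) :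
    Reach K Y 0 (K.org d) (K.org (W.sy s)) := by
  have h := W.chain1 s
  obtain ⟨l1, l2, hl⟩ := List.append_of_mem hd
  rw [hl] at h
  have e : W.sx s :: (l1 ++ d :: l2 ++ [W.sy s]) = (W.sx s :: l1) ++ d :: (l2 ++ [W.sy s]) := by simp
  rw [e, List.isChain_append] at h
  have h1 := reach_chain (Y := Y) l2 d (W.sy s) h.2.1
  have h0 : wt K Y d + (l2.map (wt K Y)).sum = 0 := by
    have := sum_T (l := d :: l2) (fun d' hd' => W.lab_T1 s (by
      rw [hl]; exact List.mem_append_right _ hd')) Y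
    simpa using this
  rw [h0] at h1
  exact h1

/-- end M-vertex -/
theorem reach_m2 (Y : ℕ) (s : W.S) : Reach K Y Y (W.ev s) (K.org (W.ex s)) := by
  have h1 := reach_chain (Y := Y) (W.T2 s) (W.ey s) (W.ex s) (W.chain2 s)
  rw [sum_T (fun d hd => W.lab_T2 s hd) Y, W.wt_ey] at h1
  exact h1

theorem reach_m2' (Y : ℕ) (s : W.S) {d : K.E × Bool} (hd : d ∈ W.T2 s) :
    Reach K Y Y (W.ev s) (K.org d) := by
  have h := W.chain2 s
  obtain ⟨l1, l2, hl⟩ := List.append_of_mem hd
  rw [hl] at h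
  have e : W.ey s :: (l1 ++ d :: l2 ++ [W.ex s]) = (W.ey s :: (l1 ++ [d])) ++ (l2 ++ [W.ex s]) := by
    simp
  rw [e, List.isChain_append] at h
  have h1 := reach_chain (Y := Y) l1 (W.ey s) d h.1
  have h0 : (l1.map (wt K Y)).sum = 0 := sum_T (fun d' hd' => W.lab_T2 s (by
      rw [hl]; exact List.mem_append_left _ hd')) Y
  rw [h0, W.wt_ey] at h1
  exact h1

/-- the head of the start x-side is within `Y` of the e-vertex -/
theorem reach_sx (Y : ℕ) (s : W.S) : Reach K Y Y (W.ev s) (K.org (rv (W.sx s))) := by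
  have h1 := W.reach_m1 Y s
  have h2 := Reach.one (K := K) (Y := Y) (W.sy s)
  rw [W.wt_sy, W.ev_eq] at h2
  have := (h1.trans h2).symm
  rwa [Nat.zero_add] at this

/-- the head of the end x-side is within `Y` of the e-vertex -/
theorem reach_ex (Y : ℕ) (s : W.S) : Reach K Y Y (W.ev s) (K.org (W.ex s)) := W.reach_m2 Y s

/-- every vertex of a square is within `Y + 1` of its e-vertex -/
theorem reach_all (Y : ℕ) (s : W.S) {d : K.E × Bool} (hd : d ∈ K.bd (W.φ s)) :
    Reach K Y (Y + 1) (W.ev s) (K.org d) := by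
  rcases W.mem_bd s hd with rfl | h | rfl | rfl | h | rfl
  · have h1 := (W.reach_sx Y s).trans (Reach.one' (K := K) (Y := Y) (W.sx s))
    rwa [W.wt_sx] at h1
  · have h1 := W.reach_m1' Y s h
    have h2 := Reach.one (K := K) (Y := Y) (W.sy s)
    rw [W.wt_sy, W.ev_eq] at h2
    exact (h1.trans h2).symm.mono (by omega)
  · have h2 := Reach.one' (K := K) (Y := Y) (W.sy s)
    rw [W.wt_sy, W.ev_eq] at h2
    exact h2.mono (by omega)
  · exact Reach.refl _ _
  · exact (W.reach_m2' Y s h).mono (by omega)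
  · exact (W.reach_ex Y s).mono (by omega)

/-! ### outer vertices, the star of an e-vertex -/

/-- origin of a dart of a face that is not a square -/
def Out (u : K.V) : Prop := ∃ f, (∀ s, W.φ s ≠ f) ∧ ∃ d ∈ K.bd f, K.org d = u

theorem face_of_not_out {d : K.E × Bool} (h : ¬ W.Out (K.org d)) : ∃ s, d ∈ K.bd (W.φ s) := by
  obtain ⟨f, hf⟩ := exF K d
  by_cases hs : ∃ s, W.φ s = f
  · obtain ⟨s, rfl⟩ := hs
    exact ⟨s, hf⟩
  · push Not at hs
    exact absurd ⟨f, hs, d, hf, rfl⟩ h

theorem out_rv {d : K.E × Bool} (h : ∀ s, d ∉ K.bd (W.φ s)) : W.Out (K.org d) ∧ W.Out (K.org (rv d)) := by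
  obtain ⟨f, hf⟩ := exF K d
  have hs : ∀ s, W.φ s ≠ f := by
    rintro s rfl
    exact h s hf
  obtain ⟨b, hb, hb2⟩ := exNext K hf
  exact ⟨⟨f, hs, d, hf, rfl⟩, ⟨f, hs, b, hb, hb2⟩⟩

/-- reducedness along y-sides -/
def RedY : Prop := ∀ s s', rv (W.ey s) = W.sy s' → W.ε s' ≠ mt σ (W.ε s)

theorem nextY {s : W.S} (h : ¬ W.Out (W.ev s)) : ∃ s', rv (W.ey s) = W.sy s' := by
  by_cases hs : ∃ s', rv (W.ey s) ∈ K.bd (W.φ s')
  · obtain ⟨s', hs'⟩ := hs
    exact ⟨s', W.eq_sy s' hs' (by simp [rv, W.ey_snd]) (W.lab_ey s)⟩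
  · push Not at hs
    have := (W.out_rv hs).2
    rw [rv_rv'] at this
    exact absurd this h

theorem ev_next {s s' : W.S} (h : rv (W.ey s) = W.sy s') : W.ev s' = W.ev s := by
  rw [← W.ev_eq s', ← h, rv_rv']
  rfl

theorem blk_next {s s' : W.S} (h : rv (W.ey s) = W.sy s') :
    blk (mt σ (W.ε s)).1 = blk (W.ε s').1 := by
  have h1 := W.lab_ey s
  have h2 := W.lab_sy s'
  rw [← h] at h2
  have h3 : K.lab (rv (W.ey s)).1 = K.lab (W.ey s).1 := rfl
  rw [h3, h1] at h2
  injection h2

theorem star_card {g : ℕ} (hg : Girth σ g) (hr : W.RedY) {s : W.S} (h : ¬ W.Out (W.ev s)) :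
    g ≤ (univ.filter (fun s' => W.ev s' = W.ev s)).card := by
  classical
  set u := W.ev s with hu
  let A : Type := {s' : W.S // W.ev s' = u}
  have hex : ∀ a : A, ∃ b : A, rv (W.ey a.1) = W.sy b.1 := by
    intro a
    obtain ⟨s', hs'⟩ := W.nextY (s := a.1) (by rw [a.2]; exact h)
    exact ⟨⟨s', (W.ev_next hs').trans a.2⟩, hs'⟩
  choose f hf using hex
  have finj : Function.Injective f := by
    intro a b hab
    have h1 := hf a
    have h2 := hf b
    rw [hab, ← h2] at h1
    have h3 : W.ey a.1 = W.ey b.1 := by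
      rw [← rv_rv' (W.ey a.1), h1, rv_rv']
    exact Subtype.ext (W.eq_of_mem (W.ey_mem a.1) (h3 ▸ W.ey_mem b.1))
  have hbij : Function.Bijective f := Finite.injective_iff_bijective.1 finj
  let e : Equiv.Perm A := Equiv.ofBijective f hbij
  let a0 : A := ⟨s, rfl⟩
  have hper : a0 ∈ Function.periodicPts f := by
    have : (e ^ orderOf e) = 1 := pow_orderOf_eq_one e
    refine Function.mem_periodicPts.2 ⟨orderOf e, orderOf_pos e, ?_⟩
    show f^[orderOf e] a0 = a0
    have h2 : (⇑(e ^ orderOf e)) = f^[orderOf e] := by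
      rw [← Equiv.Perm.iterate_eq_pow]; rfl
    rw [← h2, this]; rfl
  set k := Function.minimalPeriod f a0 with hk
  have hk0 : 0 < k := Function.minimalPeriod_pos_of_mem_periodicPts hper
  have hkA : k ≤ Fintype.card A := by
    have hinj : Function.Injective (fun i : Fin k => f^[i.1] a0) := by
      intro i j hij
      have := Function.iterate_injOn_Iio_minimalPeriod (f := f) (x := a0) (Set.mem_Iio.2 i.2)
        (Set.mem_Iio.2 j.2) hij
      exact Fin.ext this
    simpa using Fintype.card_le_of_injective _ hinj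
  have hcard : Fintype.card A = (univ.filter (fun s' => W.ev s' = u)).card :=
    Fintype.card_subtype _
  rw [← hcard]
  refine le_trans ?_ hkA
  have hrel : ∀ i, blk (mt σ (W.ε (f^[i] a0).1)).1 = blk (W.ε (f^[i+1] a0).1).1 ∧
      W.ε (f^[i+1] a0).1 ≠ mt σ (W.ε (f^[i] a0).1) := by
    intro i
    rw [Function.iterate_succ_apply']
    exact ⟨W.blk_next (hf _), hr _ _ (hf _)⟩
  have hlen := hg ((List.range k).map (fun i => W.ε (f^[i] a0).1)) ?_ ⟨?_, ?_⟩
  · simpa using hlen
  · intro h0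
    have := congrArg List.length h0
    simp at this
    omega
  · unfold IsWalk
    rw [List.isChain_iff_getElem]
    intro i hi
    simp only [List.getElem_map, List.getElem_range]
    exact hrel i
  · intro a ha b hb
    obtain ⟨k', hk'⟩ : ∃ k', k = k' + 1 := ⟨k - 1, by omega⟩
    have ha2 : a = W.ε (f^[k'] a0).1 := by
      rw [hk', List.range_succ, List.map_append] at ha
      simpa using ha.symm
    have hb2 : b = W.ε (f^[k] a0).1 := by
      have hp : f^[k] a0 = a0 := Function.iterate_minimalPeriod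
      rw [hp]
      rw [hk', List.range_succ_eq_map] at hb
      simpa using hb.symm
    rw [ha2, hb2, hk']
    exact hrel k'

end Sqs

end Vale.Agent.P201.Z.Gro
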