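import Vale.Agent.P201.Z.F.F3
import Vale.Agent.P201.Z.F.F4
import Vale.Agent.P201.Z.F.F5a
import Vale.Agent.P201.Z.F.Cut
import Vale.Agent.P201.Z.F.F7a
import Vale.Agent.P201.Z.F.Psi
import Vale.Agent.P201.Z.F.Star
import Vale.Agent.P201.Z.F.FL
import Vale.Agent.P201.Z.D.BrRed

/-!
P201, part F: assembly of `StmtGlob` (helper232), minimal area route of `PROOF_F.md`.
-/

namespace Vale.Agent.P201.Z.Glob

open Finset

variable {p : Pat} {n : ℕ} {σ : Equiv.Perm (Cel p n)}

/-! ## Stars -/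

theorem ev_sqs {K : PC (Let p n)} (W : Gro.Sqs σ K) (s : W.S) : K.ev (W.φ s) = W.ev s := by
  have h := Classical.epsilon_spec (p := fun v => ∃ d ∈ K.bd (W.φ s),
    (∃ b, K.lab d.1 = Let.y b) ∧ d.2 = false ∧ K.org d = v)
    ⟨W.ev s, W.ey s, W.ey_mem s, ⟨_, W.lab_ey s⟩, W.ey_snd s, rfl⟩
  obtain ⟨d, hd, ⟨b, hb⟩, hs, hv⟩ := h
  have h2 := W.eq_ey s hd hs hb
  rw [h2] at hv
  exact hv.symm

theorem len_T1 {K : PC (Let p n)} (W : Gro.Sqs σ K) (s : W.S) :
    (W.T1 s).length = (ht (W.ε s).1).natAbs := by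
  have h := congrArg List.length (W.cor s).lT1
  rw [List.length_map] at h
  exact h.trans (by simp [tw])

theorem len_T2 {K : PC (Let p n)} (W : Gro.Sqs σ K) (s : W.S) :
    (W.T2 s).length = (ht (mt σ (W.ε s)).1).natAbs := by
  have h := congrArg List.length (W.cor s).lT2
  rw [List.length_map] at h
  exact h.trans (by simp [tw, winv])

theorem cut_y {K : PC (Let p n)} (W : Gro.Sqs σ K) {s s' : W.S} (he : W.ε s' = mt σ (W.ε s))
    (h : rv (W.ey s) = W.sy s') :
    ∃ (l1 l2 m1 m2 : List (K.E × Bool)) (d : K.E × Bool), K.bd (W.φ s) = l1 ++ d :: l2 ∧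
      K.bd (W.φ s') = m1 ++ rv d :: m2 ∧ m1.length = l2.length := by
  refine ⟨W.sx s :: (W.T1 s ++ [W.sy s]), W.T2 s ++ [W.ex s],
    W.sx s' :: W.T1 s', W.ey s' :: (W.T2 s' ++ [W.ex s']), W.ey s, ?_, ?_, ?_⟩
  · rw [W.bd_eq s]; simp
  · rw [W.bd_eq s', h]; simp
  · have h2 := len_T2 W s
    have h3 := len_T1 W s'
    have e1 : (ht (W.ε s').1).natAbs = (ht (mt σ (W.ε s)).1).natAbs := by rw [he]
    simp only [List.length_cons, List.length_append, List.length_nil]
    omega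

/-- squares of a disc -/
def discW (K : SqK σ) : Gro.Sqs σ K.toPC where
  S := K.F
  φ := some
  inj := Option.some_injective _
  ε := K.q
  sq := K.sq

theorem wd_none {K : SqK σ} {q0 : Port p n} (h : K.outw = relw σ q0) :
    K.toPC.wd none = relw σ (mt σ q0) := by
  rw [BrRed.relw_mt, ← h]
  unfold SqK.outw
  rw [BrRed.winv_winv]

/-- squares of a sphere -/
noncomputable def sphW (K : SqK σ) (q0 : Port p n) (h : K.outw = relw σ q0) : Gro.Sqs σ K.toPC where
  S := Option K.F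
  φ := id
  inj := Function.injective_id
  ε := fun s => s.elim (mt σ q0) K.q
  sq := by
    intro s
    cases s with
    | none => exact wd_none h
    | some f => exact K.sq f

theorem star_disc (hT2 : BrRed.HypT2) (hRec : StmtRec) (hRepl : StmtRepl) (K : SqK σ) (P : K.GPot)
    (hno : NoRed σ (val K.outw) (Fintype.card K.F) (K.chn P univ)) {g : ℕ} (hg : Girth σ g)
    (f : K.F) (hf : ∀ d ∈ K.bd none, K.org d ≠ K.toPC.ev (some f)) :
    (g : ℝ) ≤
      ((univ.filter (fun f' : K.F => K.toPC.ev (some f') = K.toPC.ev (some f))).card : ℝ) := by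
  have hr : (discW K).RedY := by
    intro s s' h he
    obtain ⟨l1, l2, m1, m2, d, h1, h2, h3⟩ := cut_y (discW K) (s := s) (s' := s') he h
    exact BrRed.mirror K P hT2 hRec hRepl hno (f := s) (f' := s') he h1 h2 h3
  have hev : ∀ s : K.F, (discW K).ev s = K.toPC.ev (some s) := fun s => (ev_sqs (discW K) s).symm
  have hout : ¬ (discW K).Out ((discW K).ev f) := by
    rintro ⟨f', hf', d, hd, hd'⟩
    cases f' with
    | some x => exact hf' x rfl
    | none => exact hf d hd (hd'.trans (hev f))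
  have h := (discW K).star_card hg hr (s := f) hout
  refine Nat.cast_le.2 (h.trans ?_)
  refine Finset.card_le_card_of_injOn (fun x => (x : K.F)) ?_ (fun x _ y _ hxy => hxy)
  intro x hx
  have hx2 : (discW K).ev x = (discW K).ev f := (mem_filter.1 hx).2
  exact mem_filter.2 ⟨mem_univ _, ((hev x).symm.trans hx2).trans (hev f)⟩

theorem star_sph (hT2 : BrRed.HypT2) (hRec : StmtRec) (hRepl : StmtRepl) (S : Sph σ) {g : ℕ}
    (hg : Girth σ g) (φ : Option S.K.F) :
    (g : ℝ) ≤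
      ((univ.filter (fun φ' : Option S.K.F => S.K.toPC.ev φ' = S.K.toPC.ev φ)).card : ℝ) := by
  set W := sphW S.K S.q0 S.out with hW
  have hr : W.RedY := by
    intro s s' h he
    obtain ⟨l1, l2, m1, m2, d, h1, h2, h3⟩ := cut_y W (s := s) (s' := s') he h
    have hlen : (S.K.bd s).length = (S.K.bd s').length := by
      have e1 := congrArg List.length (W.sq s)
      have e2 := congrArg List.length (W.sq s')
      rw [List.length_map] at e1 e2
      have e3 : (S.K.bd s).length = (relw σ (W.ε s)).length := e1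
      have e4 : (S.K.bd s').length = (relw σ (W.ε s')).length := e2
      rw [e3, e4, he, BrRed.relw_mt, BrRed.length_winv]
    have h1' : S.K.bd s = l1 ++ d :: l2 := h1
    have h2' : S.K.bd s' = m1 ++ rv d :: m2 := h2
    rw [h1', h2'] at hlen
    simp only [List.length_append, List.length_cons] at hlen
    rcases s with _ | f
    · rcases s' with _ | f'
      · exact BrRed.mt_ne σ _ he.symm
      · have e : S.K.q f' = S.q0 := by
          have : S.K.q f' = mt σ (mt σ S.q0) := he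
          rw [this, BrRed.mt_mt]
        have hex := BrRed.mirror_out S.K S.P hT2 hRec (f := f') e S.out h2'
          (d := rv d) (by rw [BrRed.rv_rv]; exact h1') (by omega)
        exact S.chn (S.min _ _ (by omega) hex)
    · rcases s' with _ | f'
      · have e : S.K.q f = S.q0 := by
          have : mt σ S.q0 = mt σ (S.K.q f) := he
          rw [← BrRed.mt_mt σ (S.K.q f), ← this, BrRed.mt_mt]
        have hex := BrRed.mirror_out S.K S.P hT2 hRec (f := f) e S.out h1' h2' h3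
        exact S.chn (S.min _ _ (by omega) hex)
      · obtain ⟨hk, hex⟩ := BrRed.mirror_expr S.K S.P hT2 hRec hRepl (f := f) (f' := f') he
          h1' h2' h3
        have hex2 := Expr.cons _ _ _ 1 (mt σ S.q0) hex
        have e1 : (1 : FreeGroup (Let p n)) * val (relw σ (mt σ S.q0)) * 1⁻¹ * val S.K.outw
            = 1 := by
          rw [BrRed.relw_mt, S.out, val, val, BrRed.mk_winv]; group
        have e2 : pch σ (PresentedGroup.mk (rels σ) 1) (mt σ S.q0) + S.K.chn S.P univ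
            = S.K.chn S.P univ - pch σ 1 S.q0 := by
          rw [BrRed.pch_mt, map_one, neg_add_eq_sub]
        rw [e1, e2] at hex2
        exact S.chn (S.min _ _ (by omega) hex2)
  have hev : ∀ s : Option S.K.F, W.ev s = S.K.toPC.ev s := fun s => (ev_sqs W s).symm
  have hout : ¬ W.Out (W.ev φ) := by
    rintro ⟨f', hf', -⟩
    exact hf' f' rfl
  have h := W.star_card hg hr (s := φ) hout
  refine Nat.cast_le.2 (h.trans ?_)
  refine Finset.card_le_card_of_injOn (fun x => (x : Option S.K.F)) ?_ (fun x _ y _ hxy => hxy)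
  intro x hx
  have hx2 : W.ev x = W.ev φ := (mem_filter.1 hx).2
  exact mem_filter.2 ⟨mem_univ _, ((hev x).symm.trans hx2).trans (hev φ)⟩

/-! ## Auxiliary bounds -/

/-- bound for the heights of the pattern -/
noncomputable def Hp (p : Pat) : ℕ :=
  univ.sup (fun i : p.I => univ.sup (fun k : p.K => (p.N i k).sup Int.natAbs))

theorem ht_le (c : Cel p n) : (ht c).natAbs ≤ Hp p := by
  have h1 : (ht c).natAbs ≤ (p.N c.1.1 c.1.2.1).sup Int.natAbs :=
    Finset.le_sup (f := Int.natAbs) c.2.2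
  have h2 := Finset.le_sup (f := fun k => (p.N c.1.1 k).sup Int.natAbs) (mem_univ c.1.2.1)
  have h3 := Finset.le_sup (f := fun i : p.I => univ.sup (fun k : p.K => (p.N i k).sup Int.natAbs))
    (mem_univ c.1.1)
  exact h1.trans (h2.trans h3)

/-- bound for the length of the relators -/
noncomputable def Dl (p : Pat) : ℕ := 4 + 2 * Hp p

theorem len_relw (q : Port p n) : (relw σ q).length ≤ Dl p := by
  have h1 := ht_le q.1
  have h2 := ht_le (mt σ q).1
  simp only [relw, half, winv, tw, Dl, List.length_append, List.length_cons, List.length_nil,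
    List.length_reverse, List.length_map, List.length_replicate]
  omega

theorem wtl_le {Y : ℕ} (hY : 1 ≤ Y) (a : Let p n) : wtl Y a ≤ Y := by
  cases a with
  | t => exact Nat.zero_le _
  | x i c => exact hY
  | y b => exact le_rfl

theorem exists_adj {A : Type} (K : PC A) (f : K.F) :
    ∃ g : K.F, ∃ d, d ∈ K.bd none ∧ rv d ∈ K.bd (some g) := by
  by_contra hcon
  push Not at hcon
  have key : ∀ x : Option K.F,
      Relation.ReflTransGen (fun a b => ∃ d, d ∈ K.bd a ∧ rv d ∈ K.bd b) none x → x = none := by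
    intro x hx
    induction hx with
    | refl => rfl
    | tail _ h ih =>
      obtain ⟨d, h1, h2⟩ := h
      rw [ih] at h1
      rename_i c _
      cases c with
      | none => rfl
      | some g => exact absurd h2 (hcon g d h1)
  exact absurd (key (some f) (K.dconn none (some f))) (by simp)

theorem sum_toFinset_le {E : Type} [DecidableEq E] (l : List E) (w : E → ℕ) :
    ∑ e ∈ l.toFinset, w e ≤ (l.map w).sum := by
  induction l with
  | nil => simp
  | cons a l ih =>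
    rw [List.toFinset_cons, List.map_cons, List.sum_cons]
    by_cases h : a ∈ l.toFinset
    · rw [insert_eq_of_mem h]; omega
    · rw [sum_insert h]; omega

theorem sum_outE_le (K : SqK σ) (Y : ℕ) :
    ∑ e ∈ K.toPC.outE, (K.toPC.wE Y e : ℝ) ≤ (wtw Y K.outw : ℝ) := by
  have h1 : ∑ e ∈ K.toPC.outE, K.toPC.wE Y e ≤ wtw Y K.outw := by
    refine (sum_toFinset_le _ _).trans (le_of_eq ?_)
    simp only [wtw, SqK.outw, winv, PC.wd, List.map_map, List.map_reverse, List.sum_reverse]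
    rfl
  exact_mod_cast h1

theorem lt_pow {F g b : ℝ} (hF : 0 < F) (hg : 0 < g) (hb : 1 < b) {j : ℕ}
    (hj : Real.log (F / g) / Real.log b < j) : F < g * b ^ j := by
  have hl : 0 < Real.log b := Real.log_pos hb
  rw [div_lt_iff₀ hl, ← Real.log_pow] at hj
  have h1 : F / g < b ^ j := (Real.log_lt_log_iff (by positivity) (by positivity)).1 hj
  rw [div_lt_iff₀ hg] at h1
  linarith

theorem log_nonneg {F g b : ℝ} (hg : 0 < g) (hgF : g ≤ F) (hb : 1 < b) :
    0 ≤ Real.log (F / g) / Real.log b := by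
  have hl : 0 < Real.log b := Real.log_pos hb
  refine div_nonneg (Real.log_nonneg ?_) hl.le
  rw [le_div_iff₀ hg]
  linarith

/-! ## The isoperimetric inequality (F5) -/

/-- the induction step -/
theorem iso_step (hVK : StmtVK) (hT1 : StmtT1) (hT2 : BrRed.HypT2) (hRec : StmtRec)
    (hRepl : StmtRepl) (hBond : StmtBond) {Y g : ℕ} {e A : ℝ} (he : 0 < e) (hA : 0 ≤ A)
    (hY : 1 ≤ Y) (hg : Girth σ g) (hg0 : 0 < g) {u : FreeGroup (Let p n)} {k : ℕ}
    (hu : MinA σ u k) (hk2 : 2 ≤ k) (hgk : (g : ℝ) ≤ k)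
    (hiso : ∀ (u' : FreeGroup (Let p n)) (k' : ℕ), k' < k → MinA σ u' k' →
      psi e A k' ≤ (wtw Y u'.toWord : ℝ))
    (hnum : ∀ s : ℝ, 1 / (4 * (Dl p : ℝ)) * k ≤ s → s ≤ k / 2 →
        psi e A k + 2 * (2 * (2 * Y * (Real.log (k / g) / Real.log (1 + e / 4) + 4)) + Y) <
          psi e A s + psi e A (k - s) ∧
        2 * (2 * Y * (Real.log (k / g) / Real.log (1 + e / 4) + 4)) + Y < psi e A s) :
    psi e A k ≤ (wtw Y u.toWord : ℝ) := by
  classical
  by_contra hlt
  rw [not_le] at hlt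
  obtain ⟨z, hz⟩ := hu.1
  obtain ⟨K, P, hc, ho, hch⟩ := hVK p n σ u k z hz (FL.noRed_of_minA hu)
  have hval : val K.outw = u := by rw [ho, FL.val_toWord]
  have hmin : MinA σ (val K.outw) (Fintype.card K.F) := by rw [hval, hc]; exact hu
  have hno : NoRed σ (val K.outw) (Fintype.card K.F) (K.chn P univ) := FL.noRed_of_minA hmin
  have hneF : Nonempty K.F := Fintype.card_pos_iff.1 (by omega)
  obtain ⟨f0⟩ := hneF
  have : Nonempty K.F := ⟨f0⟩
  set ψ : ℕ → ℝ := fun j => psi e A (j : ℝ) with hψ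
  set w : K.E → ℝ := fun x => (K.toPC.wE Y x : ℝ) with hw
  have hw0 : ∀ x, 0 ≤ w x := fun x => Nat.cast_nonneg _
  have hb : ∀ C, K.toPC.Bond C → C ≠ univ → ψ C.card ≤ ∑ x ∈ K.toPC.bdry C, w x := by
    intro C hC hne
    exact bond_iso hRec hRepl hBond K P hmin Y ψ
      (fun u' k' hk' hu' => hiso u' k' (by rwa [hc] at hk') hu') C hC hne
  obtain ⟨g1, d1, hd1, hd1'⟩ := exists_adj K.toPC f0
  -- radius
  have hb4 : (1 : ℝ) < 1 + e / 4 := by linarith
  have hkpos : (0 : ℝ) < k := by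
    have : 0 < k := by omega
    exact_mod_cast this
  have hgpos : (0 : ℝ) < g := by exact_mod_cast hg0
  set L : ℝ := Real.log (k / g) / Real.log (1 + e / 4) with hL
  have hL0 : 0 ≤ L := log_nonneg hgpos hgk hb4
  set j0 : ℕ := ⌊L⌋₊ + 1 with hj0
  have hj1 : L < j0 := by rw [hj0]; push_cast; exact Nat.lt_floor_add_one L
  have hj2 : (j0 : ℝ) ≤ L + 1 := by
    rw [hj0]; push_cast
    linarith [Nat.floor_le hL0]
  have hrad : ∀ v : K.V, ∃ d ∈ K.bd none,
      K.toPC.Reach (K.toPC.wE Y) (2 * Y * j0 + Y + 3) v (K.org d) := by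
    refine PC.radius_disc K.toPC (σ := σ) (fun f => ⟨K.q f, K.sq f⟩) Y j0 (e / 2) g (by linarith)
      hgpos ?_ ?_ ?_
    · have e1 : 1 + e / 2 / 2 = 1 + e / 4 := by ring
      rw [e1, hc]
      exact lt_pow hkpos hgpos hb4 hj1
    · intro D hD
      refine set_iso K.toPC w hw0 ψ (e / 2) (by linarith) ?_ hb D g1 ?_ ⟨d1, hd1, hd1'⟩
      · intro j
        exact Psi.le_psi he.le (Nat.cast_nonneg j)
      · exact hD g1 ⟨d1, hd1, hd1'⟩
    · intro f hf
      exact star_disc hT2 hRec hRepl K P hno hg f hf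
  -- spanning tree
  obtain ⟨d0, l0, hdl⟩ := List.exists_cons_of_ne_nil (List.ne_nil_of_mem hd1)
  obtain ⟨T, hT, hP1, hP2⟩ := PC.exists_stree_out (K := K.toPC) (K.toPC.wE Y) (K.org d0)
    (by intro d hd; rw [hdl] at hd; simp only [List.head?_cons, Option.mem_def,
          Option.some.injEq] at hd; rw [hd]) (2 * Y * j0 + Y + 3)
    (by intro v
        obtain ⟨d, hd, hr⟩ := hrad v
        exact ⟨K.org d, Or.inr ⟨d, hd, rfl⟩, hr⟩)
  obtain ⟨C, hC1, hC2, hC3⟩ := hT1 _ K.toPC T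
  obtain ⟨s, hs1, hs2, hs3⟩ := F5.disc_cut T C hC3 w hw0 (Y : ℝ) ((2 * Y * j0 + Y + 3 : ℕ) : ℝ)
    (fun x => Nat.cast_le.2 (wtl_le hY (K.lab x))) (Dl p)
    (fun f => by
      have h1 := congrArg List.length (K.sq f)
      rw [List.length_map] at h1
      rw [h1]
      exact len_relw _)
    (fun d hd x hx => hP1 (K.org d) ⟨d, hd, rfl⟩ x hx)
    (fun v B hB => by
      have h1 : ∑ x ∈ B, K.toPC.wE Y x ≤ 2 * Y * j0 + Y + 3 := by
        refine le_trans (Finset.sum_le_sum_of_subset ?_) (hP2 v)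
        intro x hx
        exact mem_filter.2 ⟨mem_univ _, hB x hx⟩
      simp only [hw]
      exact_mod_cast h1)
    ψ (by simp [hψ, Psi.psi_zero])
    (fun a b => by
      simp only [hψ]
      push_cast
      exact Psi.psi_add he.le hA (Nat.cast_nonneg _) (Nat.cast_nonneg _))
    hb (by omega)
    (by
      refine lt_of_le_of_lt (sum_outE_le K Y) ?_
      simp only [hψ]
      rw [hc, ho]
      exact hlt)
  rw [hc] at hs1 hs2 hs3
  have hDl : (0 : ℝ) < Dl p := by
    have : 0 < Dl p := by unfold Dl; omega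
    exact_mod_cast this
  have hY1 : (1 : ℝ) ≤ Y := by exact_mod_cast hY
  have hs1' : (k : ℝ) ≤ 4 * Dl p * s := by exact_mod_cast hs1
  have hs2' : 2 * (s : ℝ) ≤ k := by exact_mod_cast hs2
  have hn := hnum s (by
    rw [one_div, inv_mul_le_iff₀ (by positivity)]
    exact hs1') (by linarith)
  have hR : ((2 * Y * j0 + Y + 3 : ℕ) : ℝ) ≤ 2 * Y * (L + 4) := by
    push_cast
    nlinarith
  have hsk : s ≤ k := by omega
  rcases hs3 with h | h
  · have h1 : psi e A s ≤ 2 * ((2 * Y * j0 + Y + 3 : ℕ) : ℝ) + Y := h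
    linarith [hn.2]
  · have h1 : psi e A s + psi e A ((k - s : ℕ) : ℝ) ≤
        ∑ x ∈ K.toPC.outE, w x + 2 * (2 * ((2 * Y * j0 + Y + 3 : ℕ) : ℝ) + Y) := h
    rw [Nat.cast_sub hsk] at h1
    have h2 := sum_outE_le K Y
    rw [ho] at h2
    linarith [hn.1]

/-- (F5) the isoperimetric inequality -/
theorem iso (hVK : StmtVK) (hT1 : StmtT1) (hT2 : BrRed.HypT2) (hRec : StmtRec)
    (hRepl : StmtRepl) (hBond : StmtBond) (hBr : StmtBridge) {Y g M : ℕ} {e A : ℝ} (he : 0 < e)
    (hA : 0 ≤ A) (hY : 1 ≤ Y) (hg : Girth σ g) (hg0 : 0 < g) (hM : 1 ≤ M) (hgM : g ≤ M)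
    (hL : LocIso σ M Y e)
    (hnum : ∀ F : ℝ, (M : ℝ) ≤ F → ∀ s : ℝ, 1 / (4 * (Dl p : ℝ)) * F ≤ s → s ≤ F / 2 →
        psi e A F + 2 * (2 * (2 * Y * (Real.log (F / g) / Real.log (1 + e / 4) + 4)) + Y) <
          psi e A s + psi e A (F - s) ∧
        2 * (2 * Y * (Real.log (F / g) / Real.log (1 + e / 4) + 4)) + Y < psi e A s) :
    ∀ (k : ℕ) (u : FreeGroup (Let p n)), MinA σ u k → psi e A k ≤ (wtw Y u.toWord : ℝ) := by
  intro k
  induction k using Nat.strong_induction_on with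
  | _ k ih =>
    intro u hu
    rcases le_or_gt k M with hk | hk
    · exact (Psi.psi_le he.le).trans (FL.f1b hVK hBr he hL hu hk)
    · refine iso_step hVK hT1 hT2 hRec hRepl hBond he hA hY hg hg0 hu (by omega)
        (by exact_mod_cast (hgM.trans hk.le)) (fun u' k' hk' hu' => ih k' hk' u' hu') ?_
      intro s h1 h2
      exact hnum k (by exact_mod_cast hk.le) s h1 h2

/-! ## Spheres (F7) -/

theorem no_sph (hT1 : StmtT1) (hT2 : BrRed.HypT2) (hRec : StmtRec)
    (hRepl : StmtRepl) (hBond : StmtBond) (hBrS : StmtBridgeS) {Y g M : ℕ} {e : ℝ}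
    (he : 0 < e) (hY : 1 ≤ Y) (hg : Girth σ g) (hg0 : 0 < g) (hM : 1 ≤ M) (hgM : g ≤ M)
    (hL : LocIso σ M Y e)
    (hiso : ∀ (u : FreeGroup (Let p n)) (k : ℕ), MinA σ u k → e / 2 * k ≤ (wtw Y u.toWord : ℝ))
    (hnum : ∀ F : ℝ, (M : ℝ) ≤ F →
      2 * (4 * Y * (Real.log (F / g) / Real.log (1 + e / 4) + 5)) + Y <
        e / 2 * (1 / (4 * (Dl p : ℝ)) * F)) (S : Sph σ) : False := by
  classical
  have htp := FL.f6a (σ := σ) (Y := Y) (a := e / 2) (by linarith) hiso
  have hbig := F7.Sph.large hBrS he hL htp S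
  set F : ℕ := Fintype.card S.K.F with hF
  have : Nonempty S.K.F := Fintype.card_pos_iff.1 (by omega)
  set w : S.K.E → ℝ := fun x => (S.K.toPC.wE Y x : ℝ) with hw
  have hw0 : ∀ x, 0 ≤ w x := fun x => Nat.cast_nonneg _
  have hb : ∀ C, S.K.toPC.Bond C →
      e / 2 * min (C.card : ℝ) ((F : ℝ) + 1 - C.card) ≤ ∑ x ∈ S.K.toPC.bdry C, w x := by
    intro C hC
    have h1 := F7.bond_iso hRec hRepl hBond Y (fun j => e / 2 * (j : ℝ))
      (fun a b hab => mul_le_mul_of_nonneg_left (by exact_mod_cast hab) (by linarith))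
      (fun u k hu => hiso u k hu) S C hC
    have hle : C.card ≤ F + 1 := (card_le_univ C).trans (by omega)
    have h2 : (((Min.min C.card (F + 1 - C.card) : ℕ)) : ℝ) =
        min (C.card : ℝ) ((F : ℝ) + 1 - C.card) := by
      rw [Nat.cast_min, Nat.cast_sub hle]
      push_cast
      rfl
    rw [← h2]
    refine h1.trans (le_of_eq ?_)
    rw [Nat.cast_sum]
    rfl
  -- diameter
  have hb4 : (1 : ℝ) < 1 + e / 4 := by linarith
  have hMF : (M : ℝ) ≤ (F : ℝ) + 1 := by
    have : M ≤ F + 1 := hbig.le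
    exact_mod_cast this
  have hgpos : (0 : ℝ) < g := by exact_mod_cast hg0
  have hgF : (g : ℝ) ≤ (F : ℝ) + 1 := le_trans (by exact_mod_cast hgM) hMF
  have hFpos : (0 : ℝ) < (F : ℝ) + 1 := by positivity
  set L : ℝ := Real.log (((F : ℝ) + 1) / g) / Real.log (1 + e / 4) with hLd
  have hL0 : 0 ≤ L := log_nonneg hgpos hgF hb4
  set j0 : ℕ := ⌊L⌋₊ + 1 with hj0
  have hj1 : L < j0 := by rw [hj0]; push_cast; exact Nat.lt_floor_add_one L
  have hj2 : (j0 : ℝ) ≤ L + 1 := by
    rw [hj0]; push_cast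
    linarith [Nat.floor_le hL0]
  have hsq : ∀ φ : Option S.K.F, ∃ q, S.K.toPC.IsSq σ φ q := by
    intro φ
    cases φ with
    | none => exact ⟨_, wd_none S.out⟩
    | some f => exact ⟨S.K.q f, S.K.sq f⟩
  have hdiam : ∀ v1 v2 : S.K.V, S.K.toPC.Reach (S.K.toPC.wE Y) (4 * Y * j0 + 2) v1 v2 := by
    refine PC.diam_sphere S.K.toPC (σ := σ) hsq Y j0 (e / 2) g (by linarith) hgpos ?_ ?_ ?_
    · have e1 : 1 + e / 2 / 2 = 1 + e / 4 := by ring
      rw [e1]
      exact lt_pow hFpos hgpos hb4 hj1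
    · intro D
      have h1 := S.K.toPC.sphere_iso w hw0 (e / 2) (by linarith) hb D
      have h2 : S.K.toPC.bdryO D = DG.bS S.K.toPC.fc D := by
        ext x
        rw [PC.mem_bdryO, DG.mem_bS]
      rw [h2]
      exact h1
    · exact star_sph hT2 hRec hRepl S hg
  -- the cut
  obtain ⟨f0⟩ := this
  obtain ⟨g1, d1, hd1, hd1'⟩ := exists_adj S.K.toPC f0
  obtain ⟨T, hT, hP2⟩ := PC.exists_stree_root (K := S.K.toPC) (S.K.toPC.wE Y) (S.K.org d1)
    (4 * Y * j0 + 2) (fun v => hdiam v _)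
  obtain ⟨C, hC1, hC2, hC3⟩ := hT1 _ S.K.toPC T
  obtain ⟨s, hs1, hs2, hs3, hs4⟩ := F5.sphere_cut T C hC3 w hw0 (Y : ℝ)
    ((4 * Y * j0 + 2 : ℕ) : ℝ)
    (fun x => Nat.cast_le.2 (wtl_le hY (S.K.lab x))) (Dl p)
    (fun φ => by
      obtain ⟨q, hq⟩ := hsq φ
      have h1 := congrArg List.length hq
      rw [PC.wd, List.length_map] at h1
      rw [h1]
      exact len_relw _)
    (fun v B hB => by
      have h1 : ∑ x ∈ B, S.K.toPC.wE Y x ≤ 4 * Y * j0 + 2 := by
        refine le_trans (Finset.sum_le_sum_of_subset ?_) (hP2 v)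
        intro x hx
        exact mem_filter.2 ⟨mem_univ _, hB x hx⟩
      simp only [hw]
      exact_mod_cast h1)
    (by omega)
  have hn := hnum ((F : ℝ) + 1) hMF
  have h1 := hb _ hs3
  have hDl : (0 : ℝ) < Dl p := by
    have : 0 < Dl p := by unfold Dl; omega
    exact_mod_cast this
  have hs1' : (F : ℝ) + 1 ≤ 4 * Dl p * (C.sub s).card := by exact_mod_cast hs1
  have hs2' : 2 * ((C.sub s).card : ℝ) ≤ (F : ℝ) + 1 := by exact_mod_cast hs2
  rw [min_eq_left (by linarith)] at h1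
  have h2 : 1 / (4 * (Dl p : ℝ)) * ((F : ℝ) + 1) ≤ (C.sub s).card := by
    rw [one_div, inv_mul_le_iff₀ (by positivity)]
    exact hs1'
  have h3 : e / 2 * (1 / (4 * (Dl p : ℝ)) * ((F : ℝ) + 1)) ≤ e / 2 * (C.sub s).card :=
    mul_le_mul_of_nonneg_left h2 (by linarith)
  have hY1 : (1 : ℝ) ≤ Y := by exact_mod_cast hY
  have hR : ((4 * Y * j0 + 2 : ℕ) : ℝ) ≤ 4 * Y * (L + 5) := by
    push_cast
    nlinarith
  linarith

/-! ## The statement -/

theorem girth_mono {g g' : ℕ} (h : g' ≤ g) (hg : Girth σ g) : Girth σ g' :=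
  fun l h1 h2 => h.trans (hg l h1 h2)

/-- PARTS D + F. -/
theorem stmtGlob_of (hVK : StmtVK) (hT1 : StmtT1) (hT2 : BrRed.HypT2) (hRec : StmtRec)
    (hRepl : StmtRepl) (hBond : StmtBond) (hBr : StmtBridge) (hBrS : StmtBridgeS) : StmtGlob := by
  intro p _ c e hc he
  have hDl : (0 : ℝ) < Dl p := by
    have : 0 < Dl p := by unfold Dl; omega
    exact_mod_cast this
  obtain ⟨K1, hK1, hnum⟩ := Psi.numerics c e (1 / (4 * (Dl p : ℝ))) hc he (by positivity)
  set K : ℕ := max K1 (⌈c⌉₊ + 1) with hK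
  have hKc : c + 1 ≤ K := by
    have h1 : ⌈c⌉₊ + 1 ≤ K := le_max_right _ _
    have h2 : ((⌈c⌉₊ + 1 : ℕ) : ℝ) ≤ K := by exact_mod_cast h1
    push_cast at h2
    linarith [Nat.le_ceil c]
  refine ⟨K, ⌈2 / c⌉₊ + ⌈4 / (e * c)⌉₊ + 1, ?_⟩
  intro Y n hY0 σ g0 hcg hg0 hloc
  -- shrink the girth
  have hY1 : 1 ≤ Y := by omega
  have hY1' : (1 : ℝ) ≤ Y := by exact_mod_cast hY1
  have hYr : 2 / c + 4 / (e * c) + 1 ≤ Y := by
    have h1 : ((⌈2 / c⌉₊ + ⌈4 / (e * c)⌉₊ + 1 : ℕ) : ℝ) ≤ Y := by exact_mod_cast hY0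
    push_cast at h1
    linarith [Nat.le_ceil (2 / c), Nat.le_ceil (4 / (e * c))]
  set g : ℕ := ⌈c * Y⌉₊ with hgd
  have hgg : g ≤ g0 := Nat.ceil_le.2 hcg
  have hg : Girth σ g := girth_mono hgg hg0
  have hcY : c * Y ≤ g := Nat.le_ceil _
  have hcY0 : 0 < c * Y := by positivity
  have hglt : (g : ℝ) < c * Y + 1 := Nat.ceil_lt_add_one hcY0.le
  have hgM : g ≤ K * Y := by
    have h1 : (g : ℝ) < ((K * Y : ℕ) : ℝ) := by
      push_cast
      nlinarith
    exact_mod_cast h1.le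
  have h2c : 2 ≤ c * Y := by
    have h3 : 2 / c ≤ Y := by
      have : 0 < 4 / (e * c) := by positivity
      linarith
    rw [div_le_iff₀ hc] at h3
    linarith
  have h4c : 4 < e * (c * Y) := by
    have h3 : 4 / (e * c) < Y := by
      have : 0 < 2 / c := by positivity
      linarith
    rw [div_lt_iff₀ (by positivity)] at h3
    linarith
  have hg2 : 2 ≤ g := by
    have h3 : (2 : ℝ) ≤ g := h2c.trans hcY
    exact_mod_cast h3
  have hM1 : 1 ≤ K * Y := by omega
  have hn := hnum K (le_max_left _ _) Y hY1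
  set A : ℝ := 1 / (4 * (Dl p : ℝ)) * K * Y with hA
  have hA0 : 0 ≤ A := by positivity
  have hiso := iso hVK hT1 hT2 hRec hRepl hBond hBr (A := A) he hA0 hY1 hg (by omega) hM1 hgM hloc
    (by
      intro F hF s h1 h2
      exact (hn F g hcY (by push_cast at hF; exact hF)).1 s h1 h2)
  have hlin : ∀ (u : FreeGroup (Let p n)) (k : ℕ), MinA σ u k →
      e / 2 * k ≤ (wtw Y u.toWord : ℝ) := fun u k hu =>
    (Psi.le_psi he.le (Nat.cast_nonneg k)).trans (hiso k u hu)
  refine ⟨?_, ?_⟩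
  · intro k z h
    by_contra hz
    obtain ⟨S⟩ := F7.exists_sph hVK hg hg2 h hz
    refine no_sph hT1 hT2 hRec hRepl hBond hBrS he hY1 hg (by omega) hM1 hgM hloc hlin ?_ S
    intro F hF
    exact (hn F g hcY (by push_cast at hF; exact hF)).2
  · intro l hl hw h1
    refine FL.f6b hVK hBr (a := e / 2) (by linarith) hlin hg ?_ l hl hw h1
    nlinarith

end Vale.Agent.P201.Z.Glob
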