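import Vale.Agent.P201.Z.D.BrDefs

/-!
P201, part F, blocks F4 and F7(c): growth of balls around a vertex (helper904).
-/

namespace Vale.Agent.P201.Z

open Finset

variable {p : Pat} {n : ℕ}

namespace PC

variable {A : Type} (K : PC A)

/-- there is a walk of weight at most `r` from `u` to `v` -/
inductive Reach (w : K.E → ℕ) : ℕ → K.V → K.V → Prop
  | refl (r : ℕ) (v : K.V) : Reach w r v v
  | tail (r : ℕ) (u : K.V) (d : K.E × Bool) : Reach w r u (K.org d) →
      Reach w (r + w d.1) u (K.org (rv d))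

variable {K}

lemma Reach.mono {w : K.E → ℕ} {r : ℕ} {u v : K.V} (h : K.Reach w r u v) :
    ∀ {r' : ℕ}, r ≤ r' → K.Reach w r' u v := by
  induction h with
  | refl r v => intro r' _; exact Reach.refl _ _
  | tail r u d _ ih =>
    intro r' hr
    have h1 : r' = (r' - w d.1) + w d.1 := by omega
    rw [h1]
    exact Reach.tail _ _ _ (ih (by omega))

lemma Reach.trans {w : K.E → ℕ} {r s : ℕ} {u v x : K.V} (h1 : K.Reach w r u v)
    (h2 : K.Reach w s v x) : K.Reach w (r + s) u x := by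
  induction h2 with
  | refl s v => exact h1.mono (by omega)
  | tail s v d _ ih =>
    have := Reach.tail _ _ d (ih h1)
    rwa [add_assoc] at this

lemma Reach.single (w : K.E → ℕ) (d : K.E × Bool) : K.Reach w (w d.1) (K.org d) (K.org (rv d)) := by
  have := Reach.tail 0 (K.org d) d (Reach.refl (w := w) 0 (K.org d))
  rwa [zero_add] at this

lemma Reach.symm {w : K.E → ℕ} {r : ℕ} {u v : K.V} (h : K.Reach w r u v) :
    K.Reach w r v u := by
  induction h with
  | refl r v => exact Reach.refl _ _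
  | tail r u d _ ih =>
    have h1 := Reach.single w (rv d)
    rw [rv_rv, rv_fst] at h1
    have := h1.trans ih
    rwa [add_comm] at this

lemma exists_head {B : Type} (l : List B) (b : B) : ∃ c, c ∈ (l ++ [b]).head? := by
  cases l with
  | nil => exact ⟨b, by simp⟩
  | cons x l => exact ⟨x, by simp⟩

/-- walks along a list of darts -/
lemma reach_list (w : K.E → ℕ) : ∀ (l : List (K.E × Bool)) (b : K.E × Bool),
    (l ++ [b]).IsChain (fun a b => K.org b = K.org (rv a)) →
    (∀ c ∈ (l ++ [b]).head?, K.Reach w ((l.map (fun d => w d.1)).sum) (K.org c) (K.org b)) ∧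
    ∀ d ∈ l, K.Reach w ((l.map (fun d => w d.1)).sum) (K.org d) (K.org b) ∧
      K.Reach w ((l.map (fun d => w d.1)).sum) (K.org (rv d)) (K.org b)
  | [], b, _ => by
    refine ⟨fun c hc => ?_, fun d hd => by simp at hd⟩
    simp at hc
    subst hc
    exact Reach.refl _ _
  | a :: l, b, h => by
    rw [List.cons_append, List.isChain_cons] at h
    obtain ⟨ih1, ih2⟩ := reach_list w l b h.2
    obtain ⟨c, hc⟩ := exists_head l b
    have h1 : K.org c = K.org (rv a) := h.1 c hc
    have h2 : K.Reach w ((l.map (fun d => w d.1)).sum) (K.org (rv a)) (K.org b) := by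
      rw [← h1]; exact ih1 c hc
    have h3 : K.Reach w (((a :: l).map (fun d => w d.1)).sum) (K.org a) (K.org b) := by
      rw [List.map_cons, List.sum_cons]
      exact (Reach.single w a).trans h2
    refine ⟨fun c' hc' => ?_, fun d hd => ?_⟩
    · simp at hc'
      subst hc'
      exact h3
    · rcases List.mem_cons.1 hd with rfl | hd
      · exact ⟨h3, h2.mono (by simp)⟩
      · exact ⟨(ih2 d hd).1.mono (by simp), (ih2 d hd).2.mono (by simp)⟩

end PC

/-- weight of an edge -/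
def wE (K : PC (Let p n)) (Y : ℕ) (e : K.E) : ℕ := wtl Y (K.lab e)

namespace Br

variable {σ : Equiv.Perm (Cel p n)} {K : PC (Let p n)} (B : Br σ K)

/-- e-corner of a square -/
noncomputable def ev (s : B.S) : K.V := K.org (B.ye s)

lemma wsum_T1 (Y : ℕ) (s : B.S) : ((B.sd s).T1.map (fun d => wE K Y d.1)).sum = 0 := by
  apply List.sum_eq_zero
  intro x hx
  obtain ⟨d, hd, rfl⟩ := List.mem_map.1 hx
  show wtl Y (K.lab d.1) = 0
  rw [B.lab_T1 s hd]
  rfl

lemma wsum_T2 (Y : ℕ) (s : B.S) : ((B.sd s).T2.map (fun d => wE K Y d.1)).sum = 0 := by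
  apply List.sum_eq_zero
  intro x hx
  obtain ⟨d, hd, rfl⟩ := List.mem_map.1 hx
  show wtl Y (K.lab d.1) = 0
  rw [B.lab_T2 s hd]
  rfl

lemma wE_xs (Y : ℕ) (s : B.S) : wE K Y (B.xs s).1 = 1 := by
  show wtl Y (K.lab _) = 1
  rw [B.lab_xs]; rfl

lemma wE_xe (Y : ℕ) (s : B.S) : wE K Y (B.xe s).1 = 1 := by
  show wtl Y (K.lab _) = 1
  rw [B.lab_xe]; rfl

lemma wE_ys (Y : ℕ) (s : B.S) : wE K Y (B.ys s).1 = Y := by
  show wtl Y (K.lab _) = Y
  rw [B.lab_ys]; rfl

lemma wE_ye (Y : ℕ) (s : B.S) : wE K Y (B.ye s).1 = Y := by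
  show wtl Y (K.lab _) = Y
  rw [B.lab_ye]; rfl

/-- start half of the boundary -/
lemma chain1 (s : B.S) : (B.xs s :: (((B.sd s).T1 ++ [B.ys s]) ++ [B.ye s])).IsChain
    (fun a b => K.org b = K.org (rv a)) := by
  have h := B.chain_s s
  have h1 : B.xs s :: ((B.sd s).T1 ++ B.ys s :: B.ye s :: ((B.sd s).T2 ++ [B.xe s])) =
      (B.xs s :: (((B.sd s).T1 ++ [B.ys s]) ++ [B.ye s])) ++ ((B.sd s).T2 ++ [B.xe s]) := by simp
  rw [h1] at h
  exact (List.isChain_append.1 h).1

/-- end half of the boundary -/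
lemma chain2 (s : B.S) : ((B.ye s :: (B.sd s).T2) ++ [B.xe s]).IsChain
    (fun a b => K.org b = K.org (rv a)) := by
  have h := B.chain_s s
  have h1 : B.xs s :: ((B.sd s).T1 ++ B.ys s :: B.ye s :: ((B.sd s).T2 ++ [B.xe s])) =
      (B.xs s :: ((B.sd s).T1 ++ [B.ys s])) ++ ((B.ye s :: (B.sd s).T2) ++ [B.xe s]) := by simp
  rw [h1] at h
  exact (List.isChain_append.1 h).2.1

/-- M-corner at the start -/
lemma reach_Ms (Y : ℕ) (s : B.S) : K.Reach (wE K Y) Y (K.org (rv (B.xs s))) (B.ev s) := by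
  have h := List.isChain_cons.1 (B.chain1 s)
  obtain ⟨c, hc⟩ := PC.exists_head ((B.sd s).T1 ++ [B.ys s]) (B.ye s)
  have h1 := h.1 c hc
  have h2 := (PC.reach_list (wE K Y) _ _ h.2).1 c hc
  rw [h1] at h2
  refine h2.mono ?_
  rw [List.map_append, List.sum_append, B.wsum_T1]
  simp [B.wE_ys]

lemma reach_T1 (Y : ℕ) (s : B.S) {d : K.E × Bool} (hd : d ∈ (B.sd s).T1) :
    K.Reach (wE K Y) Y (K.org d) (B.ev s) ∧ K.Reach (wE K Y) Y (K.org (rv d)) (B.ev s) := by
  have h := List.isChain_cons.1 (B.chain1 s)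
  have h2 := (PC.reach_list (wE K Y) _ _ h.2).2 d (by simp [hd])
  have h3 : (List.map (fun d => wE K Y d.1) ((B.sd s).T1 ++ [B.ys s])).sum ≤ Y := by
    rw [List.map_append, List.sum_append, B.wsum_T1]
    simp [B.wE_ys]
  exact ⟨h2.1.mono h3, h2.2.mono h3⟩

/-- M-corner at the end -/
lemma reach_Me (Y : ℕ) (s : B.S) : K.Reach (wE K Y) Y (K.org (B.xe s)) (B.ev s) := by
  have h2 := (PC.reach_list (wE K Y) _ _ (B.chain2 s)).1 (B.ye s) (by simp)
  refine (h2.mono ?_).symm
  rw [List.map_cons, List.sum_cons, B.wsum_T2, B.wE_ye]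
  omega

lemma reach_T2 (Y : ℕ) (s : B.S) {d : K.E × Bool} (hd : d ∈ (B.sd s).T2) :
    K.Reach (wE K Y) Y (K.org d) (B.ev s) ∧ K.Reach (wE K Y) Y (K.org (rv d)) (B.ev s) := by
  have h := B.chain2 s
  rw [List.cons_append] at h
  have h := (List.isChain_cons.1 h).2
  have h2 := (PC.reach_list (wE K Y) _ _ h).2 d hd
  rw [B.wsum_T2] at h2
  have h3 := B.reach_Me Y s
  have h4 := h2.1.trans h3
  have h5 := h2.2.trans h3
  rw [zero_add] at h4 h5
  exact ⟨h4, h5⟩

lemma reach_org (Y : ℕ) (s : B.S) {d : K.E × Bool} (hd : d ∈ K.bd (B.j s)) :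
    K.Reach (wE K Y) (Y + 1) (K.org d) (B.ev s) ∧
      K.Reach (wE K Y) (Y + 1) (K.org (rv d)) (B.ev s) := by
  rcases B.mem_cases hd with h | h | h | h | h | h
  · subst h
    have h1 := PC.Reach.single (wE K Y) (B.xs s)
    rw [B.wE_xs] at h1
    have h2 := h1.trans (B.reach_Ms Y s)
    exact ⟨h2.mono (by omega), (B.reach_Ms Y s).mono (by omega)⟩
  · exact ⟨(B.reach_T1 Y s h).1.mono (by omega), (B.reach_T1 Y s h).2.mono (by omega)⟩
  · subst h
    have h1 := PC.Reach.single (wE K Y) (B.ys s)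
    rw [B.wE_ys, ← B.org_ye] at h1
    refine ⟨h1.mono (by omega), ?_⟩
    rw [← B.org_ye]
    exact PC.Reach.refl _ _
  · subst h
    refine ⟨PC.Reach.refl _ _, ?_⟩
    have h1 := PC.Reach.single (wE K Y) (B.ye s)
    rw [B.wE_ye] at h1
    exact h1.symm.mono (by omega)
  · exact ⟨(B.reach_T2 Y s h).1.mono (by omega), (B.reach_T2 Y s h).2.mono (by omega)⟩
  · subst h
    refine ⟨(B.reach_Me Y s).mono (by omega), ?_⟩
    have h1 := PC.Reach.single (wE K Y) (B.xe s)
    rw [B.wE_xe] at h1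
    exact (h1.symm.trans (B.reach_Me Y s)).mono (by omega)

/-- y-darts touch the e-corner -/
lemma ev_y {s : B.S} {d : K.E × Bool} (hd : d ∈ K.bd (B.j s)) {b : Blk p n}
    (hl : K.lab d.1 = .y b) : B.ev s = K.org (d.1, false) := by
  rcases hd2 : d.2 with _ | _
  · have h1 := B.eq_ye hd hl hd2
    have h2 : (d.1, false) = d := by rw [← hd2]
    rw [h2, h1]; rfl
  · have h1 := B.eq_ys hd hl hd2
    have h2 : (d.1, false) = rv d := by rw [rv, hd2]; rfl
    rw [h2, h1]
    exact B.org_ye s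

/-- the M-end of an x-dart -/
lemma reach_x (Y : ℕ) {s : B.S} {d : K.E × Bool} (hd : d ∈ K.bd (B.j s)) {i : p.I} {a : Bool}
    (hl : K.lab d.1 = .x i a) :
    K.Reach (wE K Y) Y (K.org (d.1, false)) (B.ev s) ∧ (d.1 = (B.xs s).1 ∨ d.1 = (B.xe s).1) := by
  rcases hd2 : d.2 with _ | _
  · have h1 := B.eq_xe hd hl hd2
    have h2 : (d.1, false) = d := by rw [← hd2]
    rw [h2, h1]
    exact ⟨B.reach_Me Y s, Or.inr rfl⟩
  · have h1 := B.eq_xs hd hl hd2
    have h2 : (d.1, false) = rv d := by rw [rv, hd2]; rfl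
    rw [h2, h1]
    exact ⟨B.reach_Ms Y s, Or.inl rfl⟩

open Classical in
/-- squares whose e-corner is within distance `r` of `v` -/
noncomputable def ball (Y r : ℕ) (v : K.V) : Finset B.S :=
  univ.filter (fun s => K.Reach (wE K Y) r v (B.ev s))

lemma mem_ball {Y r : ℕ} {v : K.V} {s : B.S} :
    s ∈ B.ball Y r v ↔ K.Reach (wE K Y) r v (B.ev s) := by
  simp [ball]

lemma ball_mono {Y r r' : ℕ} (h : r ≤ r') (v : K.V) : B.ball Y r v ⊆ B.ball Y r' v := by
  intro s hs
  rw [mem_ball] at hs ⊢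
  exact hs.mono h

open Classical in
/-- edges with exactly one side in `C` -/
noncomputable def bdB (C : Finset B.S) : Finset K.E :=
  univ.filter (fun e => ¬ ((∃ s ∈ C, (e, true) ∈ K.bd (B.j s)) ↔ (∃ s ∈ C, (e, false) ∈ K.bd (B.j s))))

lemma bdB_cases {C : Finset B.S} {e : K.E} (h : e ∈ B.bdB C) :
    ∃ (d : K.E × Bool) (s : B.S), d.1 = e ∧ s ∈ C ∧ d ∈ K.bd (B.j s) ∧
      ∀ s' ∈ C, rv d ∉ K.bd (B.j s') := by
  rw [bdB, mem_filter] at h
  have h := h.2
  by_cases h1 : ∃ s ∈ C, (e, true) ∈ K.bd (B.j s)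
  · obtain ⟨s, hs, h2⟩ := h1
    exact ⟨(e, true), s, rfl, hs, h2, fun s' hs' h3 => h ⟨fun _ => ⟨s', hs', h3⟩, fun _ => ⟨s, hs, h2⟩⟩⟩
  · by_cases h2 : ∃ s ∈ C, (e, false) ∈ K.bd (B.j s)
    · obtain ⟨s, hs, h2⟩ := h2
      exact ⟨(e, false), s, rfl, hs, h2, fun s' hs' h3 => h1 ⟨s', hs', h3⟩⟩
    · exact absurd ⟨fun h3 => absurd h3 h1, fun h3 => absurd h3 h2⟩ h

/-- the boundary of a ball away from the outer faces -/
theorem bd_ball_le (Y r : ℕ) (v : K.V)
    (hout : ∀ d, (∀ s, d ∉ K.bd (B.j s)) → ¬ K.Reach (wE K Y) (r + Y + 1) v (K.org d)) :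
    ∑ e ∈ B.bdB (B.ball Y r v), wE K Y e ≤ 2 * (B.ball Y (r + 2 * Y) v \ B.ball Y r v).card := by
  classical
  set S := B.ball Y r v with hS
  set S' := B.ball Y (r + 2 * Y) v \ S with hS'
  set U : Finset K.E := S'.biUnion (fun s => {(B.xs s).1, (B.xe s).1}) with hU
  have key : ∀ e ∈ B.bdB S, wE K Y e ≠ 0 → e ∈ U ∧ wE K Y e = 1 := by
    intro e he hw
    obtain ⟨d, s, rfl, hs, hd, hr⟩ := B.bdB_cases he
    rw [mem_ball] at hs
    rcases hl : K.lab d.1 with _ | ⟨i, a⟩ | b
    · exact absurd (by show wtl Y (K.lab d.1) = 0; rw [hl]; rfl) hw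
    · have h1 := (B.reach_x Y hd hl).1
      have h2 : K.Reach (wE K Y) (r + Y) v (K.org (d.1, false)) := hs.trans h1.symm
      have hw1 : wE K Y d.1 = 1 := by show wtl Y (K.lab d.1) = 1; rw [hl]; rfl
      refine ⟨?_, hw1⟩
      by_cases h3 : ∀ s, rv d ∉ K.bd (B.j s)
      · exfalso
        refine hout (rv d) h3 ?_
        rcases hd2 : d.2 with _ | _
        · have h4 : (d.1, false) = d := by rw [← hd2]
          rw [h4] at h2
          have h5 := h2.trans (PC.Reach.single (wE K Y) d)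
          rw [hw1] at h5
          exact h5
        · have h4 : (d.1, false) = rv d := by rw [rv, hd2]; rfl
          rw [h4] at h2
          exact h2.mono (by omega)
      · push Not at h3
        obtain ⟨s', hs'⟩ := h3
        have h4 := B.reach_x Y (d := rv d) hs' (by rw [rv_fst]; exact hl)
        rw [rv_fst] at h4
        rw [hU, mem_biUnion]
        refine ⟨s', ?_, by simpa using h4.2⟩
        rw [hS', mem_sdiff, mem_ball]
        refine ⟨(h2.trans h4.1).mono (by omega), fun h5 => hr s' h5 hs'⟩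
    · exfalso
      have h1 := B.ev_y hd hl
      by_cases h3 : ∀ s, rv d ∉ K.bd (B.j s)
      · refine hout (rv d) h3 ?_
        rw [h1] at hs
        rcases hd2 : d.2 with _ | _
        · have h4 : (d.1, false) = d := by rw [← hd2]
          rw [h4] at hs
          have h5 := hs.trans (PC.Reach.single (wE K Y) d)
          have hw1 : wE K Y d.1 = Y := by show wtl Y (K.lab d.1) = Y; rw [hl]; rfl
          rw [hw1] at h5
          exact h5.mono (by omega)
        · have h4 : (d.1, false) = rv d := by rw [rv, hd2]; rfl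
          rw [h4] at hs
          exact hs.mono (by omega)
      · push Not at h3
        obtain ⟨s', hs'⟩ := h3
        have h4 := B.ev_y (d := rv d) hs' (by rw [rv_fst]; exact hl)
        rw [rv_fst, ← h1] at h4
        refine hr s' ?_ hs'
        rw [hS, mem_ball, h4]
        exact hs
  calc ∑ e ∈ B.bdB S, wE K Y e = ∑ e ∈ (B.bdB S).filter (fun e => wE K Y e ≠ 0), wE K Y e := by
        rw [sum_filter_ne_zero]
    _ ≤ ∑ e ∈ (B.bdB S).filter (fun e => wE K Y e ≠ 0), 1 := by
        apply sum_le_sum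
        intro e he
        rw [mem_filter] at he
        exact (key e he.1 he.2).2.le
    _ = ((B.bdB S).filter (fun e => wE K Y e ≠ 0)).card := by simp
    _ ≤ U.card := by
        apply card_le_card
        intro e he
        rw [mem_filter] at he
        exact (key e he.1 he.2).1
    _ ≤ ∑ s ∈ S', ({(B.xs s).1, (B.xe s).1} : Finset K.E).card := card_biUnion_le
    _ ≤ ∑ s ∈ S', 2 := sum_le_sum (fun s _ => card_le_two)
    _ = 2 * S'.card := by rw [sum_const, smul_eq_mul, mul_comm]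

/-- one growth step -/
theorem ball_step (Y r : ℕ) (v : K.V) (e1 x : ℝ)
    (hout : ∀ d, (∀ s, d ∉ K.bd (B.j s)) → ¬ K.Reach (wE K Y) (r + Y + 1) v (K.org d))
    (hiso : (e1 / 2) * x ≤ ∑ e ∈ B.bdB (B.ball Y r v), (wE K Y e : ℝ)) :
    ((B.ball Y r v).card : ℝ) + (e1 / 4) * x ≤ (B.ball Y (r + 2 * Y) v).card := by
  have h1 := B.bd_ball_le Y r v hout
  have h2 : ((∑ e ∈ B.bdB (B.ball Y r v), wE K Y e : ℕ) : ℝ) ≤
      ((2 * (B.ball Y (r + 2 * Y) v \ B.ball Y r v).card : ℕ) : ℝ) := by exact_mod_cast h1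
  push_cast at h2
  have h3 : (B.ball Y (r + 2 * Y) v \ B.ball Y r v).card + (B.ball Y r v).card =
      (B.ball Y (r + 2 * Y) v).card := by
    classical
    exact card_sdiff_add_card_eq_card (B.ball_mono (by omega) v)
  have h4 : ((B.ball Y (r + 2 * Y) v \ B.ball Y r v).card : ℝ) + (B.ball Y r v).card =
      (B.ball Y (r + 2 * Y) v).card := by exact_mod_cast h3
  linarith

end Br

/-- exponential growth against the total number -/
lemma growth_real (q F γ : ℝ) (hq : 1 < q) (hγ : 0 < γ) (hF : γ ≤ F) :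
    F < γ * q ^ (⌊Real.log (F / γ) / Real.log q⌋₊ + 1) := by
  have hF0 : 0 < F := hγ.trans_le hF
  have hlq : 0 < Real.log q := Real.log_pos hq
  set L := Real.log (F / γ) / Real.log q with hL
  have h1 : L < (⌊L⌋₊ : ℝ) + 1 := Nat.lt_floor_add_one L
  have h2 : Real.log (F / γ) < Real.log (q ^ (⌊L⌋₊ + 1)) := by
    rw [Real.log_pow]
    have h3 : L * Real.log q = Real.log (F / γ) := by
      rw [hL]; field_simp
    rw [← h3]
    push_cast
    exact mul_lt_mul_of_pos_right h1 hlq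
  have h4 : F / γ < q ^ (⌊L⌋₊ + 1) :=
    (Real.log_lt_log_iff (by positivity) (by positivity)).1 h2
  rw [div_lt_iff₀ hγ] at h4
  linarith

namespace SqK

variable {σ : Equiv.Perm (Cel p n)} (K : SqK σ)

lemma exists_outer_face [Nonempty K.F] :
    ∃ f : K.F, ∃ d ∈ K.bd (some f), rv d ∈ K.bd none := by
  obtain ⟨f0⟩ := ‹Nonempty K.F›
  have h := K.dconn none (some f0)
  have key : ∀ x : Option K.F, Relation.ReflTransGen
      (fun a b => ∃ d, d ∈ K.bd a ∧ rv d ∈ K.bd b) none x → x ≠ none →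
      ∃ f : K.F, ∃ d ∈ K.bd (some f), rv d ∈ K.bd none := by
    intro x hx
    induction hx with
    | refl => intro h; exact absurd rfl h
    | @tail b c _ hbc ih =>
      intro hc
      by_cases hb : b = none
      · subst hb
        obtain ⟨d, hd1, hd2⟩ := hbc
        obtain ⟨f, rfl⟩ := Option.ne_none_iff_exists'.1 hc
        exact ⟨f, rv d, hd2, by rwa [rv_rv]⟩
      · exact ih hb
  exact key _ h (by simp)

lemma exists_org [Nonempty K.F] (v : K.V) : ∃ d, K.org d = v := by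
  obtain ⟨f0⟩ := ‹Nonempty K.F›
  obtain ⟨a, ha⟩ := List.exists_mem_of_ne_nil _ (K.ne f0)
  rcases Relation.ReflTransGen.cases_head (K.conn v (K.org a)) with h | ⟨c, ⟨d, hd, _⟩, _⟩
  · exact ⟨a, h.symm⟩
  · exact ⟨d, hd⟩

/-- F4: every vertex is close to the outer boundary -/
theorem radius (Y : ℕ) (hY : 1 ≤ Y) (γ e1 : ℝ) (hγ : 0 < γ) (hγF : γ ≤ Fintype.card K.F)
    (he : 0 < e1)
    (hiso : ∀ S : Finset K.F, (∃ f, f ∉ S ∧ ∃ d ∈ K.bd (some f), rv d ∈ K.bd none) →
      (e1 / 2) * (S.card : ℝ) ≤ ∑ e ∈ K.toPC.bdry S, (wE K.toPC Y e : ℝ))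
    (hstar : ∀ f : K.F, (∀ d ∈ K.bd none, K.org d ≠ (brD K).ev f) →
      ∃ T : Finset K.F, (∀ f' ∈ T, (brD K).ev f' = (brD K).ev f) ∧ γ ≤ (T.card : ℝ))
    (v : K.V) :
    ∃ d ∈ K.bd none, ∃ r : ℕ,
      (r : ℝ) ≤ 2 * Y * (Real.log (Fintype.card K.F / γ) / Real.log (1 + e1 / 4) + 4) ∧
      K.toPC.Reach (wE K.toPC Y) r v (K.org d) := by
  classical
  by_contra hno
  push Not at hno
  set R : ℝ := 2 * Y * (Real.log (Fintype.card K.F / γ) / Real.log (1 + e1 / 4) + 4) with hR
  set q : ℝ := 1 + e1 / 4 with hq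
  have hq1 : 1 < q := by rw [hq]; linarith
  set L : ℝ := Real.log (Fintype.card K.F / γ) / Real.log q with hL
  have hL0 : 0 ≤ L := by
    apply div_nonneg
    · apply Real.log_nonneg
      rw [le_div_iff₀ hγ]; linarith
    · exact (Real.log_pos hq1).le
  set k := ⌊L⌋₊ with hk
  have hkL : (k : ℝ) ≤ L := Nat.floor_le hL0
  have hY' : (1 : ℝ) ≤ Y := by exact_mod_cast hY
  have hne : Nonempty K.F := by
    rw [← Fintype.card_pos_iff]
    have : (0 : ℝ) < Fintype.card K.F := hγ.trans_le hγF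
    exact_mod_cast this
  have hbd : ∀ i : ℕ, i ≤ k → (((Y + 1 + 2 * Y * i) + Y + 1 : ℕ) : ℝ) ≤ R := by
    intro i hi
    have hi' : (i : ℝ) ≤ L := le_trans (by exact_mod_cast hi) hkL
    push_cast
    rw [hR]
    nlinarith
  have grow : ∀ i : ℕ, i ≤ k + 1 → γ * q ^ i ≤ ((brD K).ball Y (Y + 1 + 2 * Y * i) v).card := by
    intro i
    induction i with
    | zero =>
      intro _
      have h0 := hbd 0 (Nat.zero_le _)
      obtain ⟨d, hd⟩ := K.exists_org v
      obtain ⟨f, hf⟩ := K.toPC.exists_face d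
      rcases f with _ | f
      · exfalso
        refine hno d hf 0 ?_ (by rw [hd]; exact PC.Reach.refl _ _)
        refine le_trans ?_ h0
        exact_mod_cast Nat.zero_le _
      · have h1 := ((brD K).reach_org Y f hf).1
        rw [hd] at h1
        obtain ⟨T, hT1, hT2⟩ := hstar f (by
          intro d' hd' h2
          refine hno d' hd' (Y + 1) ?_ (by rw [h2]; exact h1)
          refine le_trans ?_ h0
          exact_mod_cast (by omega))
        rw [pow_zero, mul_one]
        refine hT2.trans ?_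
        have h3 : T ⊆ (brD K).ball Y (Y + 1 + 2 * Y * 0) v := by
          intro f' hf'
          refine (Br.mem_ball _).2 ?_
          rw [hT1 f' hf']
          exact h1.mono (by omega)
        exact_mod_cast card_le_card h3
    | succ i ih =>
      intro hi
      have ih := ih (by omega)
      have h0 := hbd i (by omega)
      have hstep := (brD K).ball_step Y (Y + 1 + 2 * Y * i) v e1
        (((brD K).ball Y (Y + 1 + 2 * Y * i) v).card : ℝ) ?_ ?_
      · have e2 : Y + 1 + 2 * Y * i + 2 * Y = Y + 1 + 2 * Y * (i + 1) := by ring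
        rw [e2] at hstep
        refine le_trans ?_ hstep
        rw [pow_succ, hq]
        have : γ * (1 + e1 / 4) ^ i * (1 + e1 / 4) ≤
            ((brD K).ball Y (Y + 1 + 2 * Y * i) v).card * (1 + e1 / 4) :=
          mul_le_mul_of_nonneg_right ih (by linarith)
        linarith
      · intro d hd h1
        obtain ⟨f, hf⟩ := K.toPC.exists_face d
        rcases f with _ | f
        · exact hno d hf _ h0 h1
        · exact hd f hf
      · refine hiso _ ?_
        obtain ⟨f, d, hd, hd2⟩ := K.exists_outer_face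
        refine ⟨f, fun h1 => ?_, d, hd, hd2⟩
        have h1 := (Br.mem_ball _).1 h1
        have h2 := h1.trans ((brD K).reach_org Y f hd).2.symm
        refine hno (rv d) hd2 _ h0 (h2.mono (by omega))
  have h1 := grow (k + 1) le_rfl
  have h2 := growth_real q (Fintype.card K.F) γ hq1 hγ hγF
  have h3 : (((brD K).ball Y (Y + 1 + 2 * Y * (k + 1)) v).card : ℝ) ≤ Fintype.card K.F := by
    exact_mod_cast card_le_univ ((brD K).ball Y (Y + 1 + 2 * Y * (k + 1)) v)
  linarith

/-- F7(c): any two vertices of a sphere are close -/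
theorem diam (q0 : Port p n) (h : K.outw = relw σ q0) (Y : ℕ) (hY : 1 ≤ Y) (γ e1 : ℝ)
    (hγ : 0 < γ) (hγF : γ ≤ (Fintype.card K.F : ℝ) + 1) (he : 0 < e1) [Nonempty K.F]
    (hiso : ∀ S : Finset (Option K.F),
      (e1 / 2) * min (S.card : ℝ) ((Fintype.card K.F : ℝ) + 1 - S.card) ≤
        ∑ e ∈ (brS K q0 h).bdB S, (wE K.toPC Y e : ℝ))
    (hstar : ∀ f : Option K.F,
      ∃ T : Finset (Option K.F), (∀ f' ∈ T, (brS K q0 h).ev f' = (brS K q0 h).ev f) ∧
        γ ≤ (T.card : ℝ))
    (v1 v2 : K.V) :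
    ∃ r : ℕ,
      (r : ℝ) ≤ 4 * Y * (Real.log (((Fintype.card K.F : ℝ) + 1) / γ) / Real.log (1 + e1 / 4) + 5) ∧
      K.toPC.Reach (wE K.toPC Y) r v1 v2 := by
  classical
  by_contra hno
  push Not at hno
  set N : ℝ := (Fintype.card K.F : ℝ) + 1 with hN
  set R : ℝ := 4 * Y * (Real.log (N / γ) / Real.log (1 + e1 / 4) + 5) with hR
  set q : ℝ := 1 + e1 / 4 with hq
  have hq1 : 1 < q := by rw [hq]; linarith
  set L : ℝ := Real.log (N / γ) / Real.log q with hL
  have hL0 : 0 ≤ L := by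
    apply div_nonneg
    · apply Real.log_nonneg
      rw [le_div_iff₀ hγ]; linarith
    · exact (Real.log_pos hq1).le
  set k := ⌊L⌋₊ with hk
  have hkL : (k : ℝ) ≤ L := Nat.floor_le hL0
  have hY' : (1 : ℝ) ≤ Y := by exact_mod_cast hY
  set B := brS K q0 h with hB
  have hcard : ∀ T : Finset B.S, (T.card : ℝ) ≤ N := by
    intro T
    have h1 : T.card ≤ Fintype.card (Option K.F) := card_le_univ (α := Option K.F) T
    rw [Fintype.card_option] at h1
    rw [hN]
    exact_mod_cast h1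
  have hbd : ∀ i : ℕ, i ≤ k → (((Y + 1 + 2 * Y * i) + (Y + 1 + 2 * Y * i) : ℕ) : ℝ) ≤ R := by
    intro i hi
    have hi' : (i : ℝ) ≤ L := le_trans (by exact_mod_cast hi) hkL
    push_cast
    rw [hR]
    nlinarith
  have start : ∀ v, γ ≤ ((B.ball Y (Y + 1) v).card : ℝ) := by
    intro v
    obtain ⟨d, hd⟩ := K.exists_org v
    obtain ⟨f, hf⟩ := K.toPC.exists_face d
    have h1 := (B.reach_org Y (s := f) hf).1
    rw [hd] at h1
    obtain ⟨T, hT1, hT2⟩ := hstar f
    refine hT2.trans ?_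
    have h3 : T ⊆ B.ball Y (Y + 1) v := by
      intro f' hf'
      refine (Br.mem_ball _).2 ?_
      rw [hT1 f' hf']
      exact h1
    exact_mod_cast card_le_card h3
  have hout : ∀ (r : ℕ) (v : K.V) (d : K.E × Bool), (∀ s, d ∉ K.bd (B.j s)) →
      ¬ K.toPC.Reach (wE K.toPC Y) r v (K.org d) := by
    intro r v d hd _
    obtain ⟨f, hf⟩ := K.toPC.exists_face d
    exact hd f hf
  have grow : ∀ i : ℕ, i ≤ k + 1 → γ * q ^ i ≤ (B.ball Y (Y + 1 + 2 * Y * i) v1).card ∧
      γ * q ^ i ≤ (B.ball Y (Y + 1 + 2 * Y * i) v2).card := by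
    intro i
    induction i with
    | zero =>
      intro _
      rw [pow_zero, mul_one]
      exact ⟨start v1, start v2⟩
    | succ i ih =>
      intro hi
      obtain ⟨ih1, ih2⟩ := ih (by omega)
      have h0 := hbd i (by omega)
      have hdis : Disjoint (B.ball Y (Y + 1 + 2 * Y * i) v1) (B.ball Y (Y + 1 + 2 * Y * i) v2) := by
        rw [Finset.disjoint_left]
        intro s h1 h2
        rw [Br.mem_ball] at h1 h2
        exact hno _ h0 (h1.trans h2.symm)
      have hsum : ((B.ball Y (Y + 1 + 2 * Y * i) v1).card : ℝ) +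
          (B.ball Y (Y + 1 + 2 * Y * i) v2).card ≤ N := by
        have := hcard (B.ball Y (Y + 1 + 2 * Y * i) v1 ∪ B.ball Y (Y + 1 + 2 * Y * i) v2)
        rw [card_union_of_disjoint hdis] at this
        exact_mod_cast this
      have e2 : Y + 1 + 2 * Y * i + 2 * Y = Y + 1 + 2 * Y * (i + 1) := by ring
      have fin : ∀ v : K.V, γ * q ^ i ≤ (B.ball Y (Y + 1 + 2 * Y * i) v).card →
          ((B.ball Y (Y + 1 + 2 * Y * i) v).card : ℝ) + γ * q ^ i ≤ N →
          γ * q ^ (i + 1) ≤ (B.ball Y (Y + 1 + 2 * Y * (i + 1)) v).card := by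
        intro v h1 h2
        have hstep := B.ball_step Y (Y + 1 + 2 * Y * i) v e1 (γ * q ^ i) (hout _ v) ?_
        · rw [e2] at hstep
          refine le_trans ?_ hstep
          rw [pow_succ]
          have : γ * (q ^ i * q) = γ * q ^ i + (e1 / 4) * (γ * q ^ i) := by
            rw [hq]; ring
          rw [this]
          linarith
        · refine le_trans ?_ (hiso _)
          refine mul_le_mul_of_nonneg_left ?_ (by linarith)
          exact le_min h1 (le_sub_iff_add_le'.2 h2)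
      exact ⟨fin v1 ih1 (by linarith), fin v2 ih2 (by linarith)⟩
  have h1 := (grow (k + 1) le_rfl).1
  have h2 := growth_real q N γ hq1 hγ hγF
  have h3 := hcard (B.ball Y (Y + 1 + 2 * Y * (k + 1)) v1)
  linarith

end SqK

end Vale.Agent.P201.Z
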