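import Vale.Agent.P201.Z.F.F4
import Vale.Agent.P201.Z.F.F5a
import Vale.Agent.P201.Z.F.F5b
import Vale.Agent.P201.Z.F.Star
import Vale.Agent.P201.Z.F.Psi
import Vale.Agent.P201.Z.F.Good

/-!
P201, part F: the linear isoperimetric inequality for all good complexes (helper643).
-/

set_option linter.all false

namespace Vale.Agent.P201.Z

open Finset

variable {p : Pat} {n : ℕ} {σ : Equiv.Perm (Cel p n)}

namespace FIso

/-- bound of the heights of a pattern -/
noncomputable def hb (p : Pat) : ℕ := ∑ i, ∑ k, ∑ h ∈ p.N i k, h.natAbs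

theorem ht_le (c : Cel p n) : (ht c).natAbs ≤ hb p := by
  obtain ⟨⟨i, b⟩, h, hh⟩ := c
  have h1 : h.natAbs ≤ ∑ h ∈ p.N i b.1, h.natAbs :=
    Finset.single_le_sum (f := fun h : ℤ => h.natAbs) (fun _ _ => Nat.zero_le _) hh
  have h2 : ∑ h ∈ p.N i b.1, h.natAbs ≤ ∑ k, ∑ h ∈ p.N i k, h.natAbs :=
    Finset.single_le_sum (f := fun k => ∑ h ∈ p.N i k, h.natAbs) (fun _ _ => Nat.zero_le _)
      (Finset.mem_univ b.1)
  have h3 : ∑ k, ∑ h ∈ p.N i k, h.natAbs ≤ hb p :=
    Finset.single_le_sum (f := fun i => ∑ k, ∑ h ∈ p.N i k, h.natAbs) (fun _ _ => Nat.zero_le _)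
      (Finset.mem_univ i)
  exact h1.trans (h2.trans h3)

theorem relw_length (q : Port p n) : (relw σ q).length ≤ 4 + 2 * hb p := by
  have h1 := ht_le q.1
  have h2 := ht_le (mt σ q).1
  simp [relw, half, winv, tw]
  omega

theorem bd_length (K : SqK σ) (f : K.F) : (K.bd (some f)).length ≤ 4 + 2 * hb p := by
  have h := congrArg List.length (K.sq f)
  rw [List.length_map] at h
  rw [h]
  exact relw_length _

theorem exists_adj (K : PC (Let p n)) (f0 : K.F) : ∃ h, K.DAdj none (some h) := by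
  by_contra hcon
  push Not at hcon
  have h := K.dconn none (some f0)
  have key : ∀ x, Relation.ReflTransGen (fun a b => ∃ d, d ∈ K.bd a ∧ rv d ∈ K.bd b) none x →
      x = none := by
    intro x hx
    induction hx with
    | refl => rfl
    | tail _ h2 ih =>
      rename_i b c _
      subst ih
      cases c with
      | none => rfl
      | some h => exact absurd h2 (hcon h)
  exact absurd (key _ h) (by simp)

theorem domc_le {S : Type} [Fintype S] (f : S ≃. S) : domc f ≤ Fintype.card S := by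
  unfold domc
  exact Finset.card_le_univ _

/-- the squares of a complex -/
noncomputable def sqs (K : SqK σ) : Gro.Sqs σ K.toPC where
  S := K.F
  φ := some
  inj := Option.some_injective _
  ε := K.q
  sq := K.sq

theorem sqs_ev (K : SqK σ) (f : K.F) : (sqs K).ev f = K.toPC.ev (some f) := by
  obtain ⟨G⟩ := (K.isSq f).geo
  have h1 := G.ev_y ((sqs K).ey_mem f) ⟨_, (sqs K).lab_ey f⟩
  rw [← h1]
  show K.org ((sqs K).ey f) = _
  congr 1
  exact Prod.ext rfl ((sqs K).ey_snd f)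

theorem star (K : SqK σ) (hK : K.RedK) {g : ℕ} (hg : Girth σ g) (f : K.F)
    (h : ∀ d ∈ K.bd none, K.org d ≠ K.toPC.ev (some f)) :
    g ≤ (univ.filter (fun f' : K.F => K.toPC.ev (some f') = K.toPC.ev (some f))).card := by
  have h1 : ¬ (sqs K).Out ((sqs K).ev f) := by
    rintro ⟨f', hf', d, hd, hd2⟩
    cases f' with
    | none =>
      rw [sqs_ev] at hd2
      exact h d hd hd2
    | some x => exact hf' x rfl
  have h2 : (sqs K).RedY := by
    intro s s' hss
    refine hK s s' ((sqs K).ey s) ((sqs K).ey_mem s) (hss ▸ (sqs K).sy_mem s') ?_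
    rw [(sqs K).lab_ey]
    simp
  have h3 := (sqs K).star_card hg h2 h1
  refine h3.trans (Finset.card_le_card_of_injOn (fun s : (sqs K).S => (s : K.F)) ?_ ?_)
  · intro s' hs'
    have h4 : (sqs K).ev s' = (sqs K).ev f := (Finset.mem_filter.mp (Finset.mem_coe.mp hs')).2
    exact Finset.mem_coe.mpr (Finset.mem_filter.mpr ⟨Finset.mem_univ _,
      (sqs_ev K s').symm.trans (h4.trans (sqs_ev K f))⟩)
  · intro a _ b _ hab
    exact hab

/-- the small case -/
theorem small (hL : StmtLocK) (K : SqK σ) (hK : K.Gd) {M Y : ℕ} {e1 : ℝ} (he : 0 < e1)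
    (hloc : LocIso σ M Y e1) (hM : Fintype.card K.F ≤ M) :
    e1 * Fintype.card K.F ≤ K.W Y := by
  obtain ⟨G, h1, h2, h3, h4, h5⟩ := hL p n σ K hK
  have h6 := hloc G h1 h2 h3 (by omega)
  have h7 := h5 Y
  have hx := domc_le G.X
  have hy := domc_le G.Y
  rw [h4] at h6 h7 hx hy
  have h8 : (2 * ((Fintype.card K.F : ℝ) - domc G.X) + Y * (2 * ((Fintype.card K.F : ℝ) - domc G.Y)))
      ≤ K.W Y := by
    rw [← Nat.cast_sub hx, ← Nat.cast_sub hy]
    exact_mod_cast h7
  have h9 : (0 : ℝ) ≤ e1 * Fintype.card K.F := by positivity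
  linarith

/-- induction step -/
theorem step (hM : StmtMerge) (hT1 : StmtT1) (K : SqK σ) (hK : K.Gd) {Kc Y g : ℕ} {c e1 dl : ℝ}
    (hc : 0 < c) (he : 0 < e1) (hdl : dl = 1 / (4 * (4 + 2 * hb p : ℕ))) (hY : 1 ≤ Y) (hKc : 1 ≤ Kc)
    (hKcc : c ≤ Kc)
    (hnum : ∀ F g : ℝ, c * Y ≤ g → (Kc * Y : ℝ) ≤ F →
      (∀ s : ℝ, dl * F ≤ s → s ≤ F / 2 →
        psi e1 (dl * Kc * Y) F + 2 * (2 * (2 * Y * (Real.log (F / g) / Real.log (1 + e1 / 4) + 4)) + Y) <
          psi e1 (dl * Kc * Y) s + psi e1 (dl * Kc * Y) (F - s) ∧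
        2 * (2 * Y * (Real.log (F / g) / Real.log (1 + e1 / 4) + 4)) + Y < psi e1 (dl * Kc * Y) s))
    (hgY : c * Y ≤ g) (hg : Girth σ g) (hbig : Kc * Y < Fintype.card K.F)
    (ih : ∀ K' : SqK σ, K'.Gd → Fintype.card K'.F < Fintype.card K.F →
      psi e1 (dl * Kc * Y) (Fintype.card K'.F) ≤ K'.W Y) :
    psi e1 (dl * Kc * Y) (Fintype.card K.F) ≤ K.W Y := by
  classical
  have hdl0 : 0 < dl := by rw [hdl]; positivity
  have hA : (0 : ℝ) ≤ dl * Kc * Y := by positivity
  have hKY : 1 ≤ Kc * Y := Nat.one_le_iff_ne_zero.mpr (by positivity)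
  have hF2 : 2 ≤ Fintype.card K.F := by omega
  haveI hne : Nonempty K.toPC.F := Fintype.card_pos_iff.mp (by omega)
  -- bonds
  have hiso : ∀ D : Finset K.F, K.toPC.Bond D → D ≠ univ →
      psi e1 (dl * Kc * Y) (D.card : ℝ) ≤ ∑ e ∈ K.toPC.bdry D, (K.toPC.wE Y e : ℝ) := by
    intro D hD hDne
    obtain ⟨K', h1, h2, h3⟩ := hM p n σ K D hD
    have h4 : D.card < Fintype.card K.F := by
      rw [← Finset.card_univ]
      exact Finset.card_lt_card (Finset.ssubset_univ_iff.mpr hDne)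
    have h5 := ih K' (h3 hK) (by omega)
    rw [h1, h2] at h5
    refine h5.trans (le_of_eq ?_)
    simp only [SqK.wS, PC.wE]
    push_cast
    rfl
  -- radius
  set L : ℝ := Real.log ((Fintype.card K.F : ℝ) / (c * Y)) / Real.log (1 + e1 / 4) with hLdef
  have hcY : 0 < c * Y := by positivity
  have hFr : (Kc * Y : ℝ) ≤ Fintype.card K.F := by exact_mod_cast hbig.le
  have hratio : 1 ≤ (Fintype.card K.F : ℝ) / (c * Y) := by
    rw [le_div_iff₀ hcY, one_mul]
    refine le_trans ?_ hFr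
    exact mul_le_mul_of_nonneg_right hKcc (by positivity)
  have hlog : 0 < Real.log (1 + e1 / 4) := Real.log_pos (by linarith)
  have hL0 : 0 ≤ L := div_nonneg (Real.log_nonneg hratio) hlog.le
  set j0 : ℕ := ⌊L⌋₊ + 1 with hj0
  have hj : (Fintype.card K.F : ℝ) < (c * Y) * (1 + (e1 / 2) / 2) ^ j0 := by
    have h1 : L < j0 := by
      rw [hj0]
      push_cast
      exact Nat.lt_floor_add_one L
    have h2 : Real.log ((Fintype.card K.F : ℝ) / (c * Y)) < j0 * Real.log (1 + e1 / 4) := by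
      rw [hLdef, div_lt_iff₀ hlog] at h1
      exact h1
    rw [← Real.log_pow] at h2
    have h3 := (Real.log_lt_log_iff (by linarith) (by positivity)).mp h2
    rw [div_lt_iff₀ hcY] at h3
    have h4 : (1 + e1 / 2 / 2) = (1 + e1 / 4) := by ring
    rw [h4]
    linarith
  have hrad := PC.radius_disc (σ := σ) K.toPC (fun f => ⟨_, K.isSq f⟩) Y j0 (e1 / 2) (c * Y)
    (by positivity) hcY hj
    (fun D hD => by
      apply PC.card_le_of_bonds K.toPC D _ (fun e => by positivity) _ (by positivity)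
      intro C hC _ hCD
      have hCne : C ≠ univ := by
        rintro rfl
        obtain ⟨h, hh⟩ := exists_adj K.toPC hne.some
        exact hCD h (hD h hh) hh (Finset.mem_univ _)
      exact (Psi.le_psi (A := dl * Kc * Y) he.le (by positivity)).trans (hiso C hC hCne))
    (fun f hf => by
      have := star K hK.1 hg f hf
      refine hgY.trans ?_
      exact_mod_cast this)
  -- tree
  have hR2 : ((2 * Y * j0 + Y + 3 : ℕ) : ℝ) ≤ 2 * Y * (L + 4) := by
    have h1 : (⌊L⌋₊ : ℝ) ≤ L := Nat.floor_le hL0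
    have h2 : (1 : ℝ) ≤ Y := by exact_mod_cast hY
    rw [hj0]
    push_cast
    nlinarith
  obtain ⟨d0, hd0⟩ : ∃ d0 : K.E × Bool, d0 ∈ (K.bd none).head? := by
    obtain ⟨v⟩ : Nonempty K.V := inferInstance
    obtain ⟨d, hd, _⟩ := hrad v
    cases hh : (K.bd none) with
    | nil => rw [hh] at hd; simp at hd
    | cons a l => exact ⟨a, by simp⟩
  obtain ⟨T, hT0, hT2, hT3⟩ := PC.exists_stree_out (K := K.toPC) (K.toPC.wE Y) (K.org d0)
    (by
      intro d hd
      have : d = d0 := Option.some.inj ((Option.mem_def.mp hd).symm.trans (Option.mem_def.mp hd0))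
      rw [this])
    (2 * Y * j0 + Y + 3)
    (fun v => by
      obtain ⟨d, hd, hr⟩ := hrad v
      exact ⟨K.org d, Or.inr ⟨d, hd, rfl⟩, hr⟩)
  have hcut := F5b.cut_tree (K := K.toPC) hT1 T (fun e => (K.toPC.wE Y e : ℝ)) (fun e => by positivity)
    (fun k : ℕ => psi e1 (dl * Kc * Y) (k : ℝ)) (by simp [Psi.psi_zero])
    (fun a b => by
      push_cast
      exact Psi.psi_add he.le hA (by positivity) (by positivity))
    hiso (4 + 2 * hb p) (fun f => bd_length K f) Y ((2 * Y * j0 + Y + 3 : ℕ) : ℝ)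
    (fun e => by
      have : K.toPC.wE Y e ≤ Y := by
        unfold PC.wE
        cases K.lab e <;> simp [wtl] <;> omega
      exact_mod_cast this)
    (fun v hv e he' => hT2 v hv e he')
    (fun v S hS => by
      refine le_trans ?_ (by exact_mod_cast hT3 v :
        ((∑ e ∈ univ.filter (fun e => T.Anc v e ∧ e ∉ K.toPC.outE), K.toPC.wE Y e : ℕ) : ℝ) ≤ _)
      push_cast
      apply Finset.sum_le_sum_of_subset_of_nonneg
      · intro e he'
        exact Finset.mem_filter.mpr ⟨Finset.mem_univ _, hS e he'⟩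
      · intro e _ _
        positivity)
    hF2
  have hW : (K.W Y : ℝ) = ∑ e ∈ K.toPC.bdry univ, (K.toPC.wE Y e : ℝ) := by
    simp only [SqK.W, SqK.wS, PC.wE]
    push_cast
    rfl
  rw [hW]
  rcases hcut with h | ⟨s, hs1, hs2, h⟩
  · exact h
  · have hs1' : dl * (Fintype.card K.F : ℝ) ≤ s := by
      rw [hdl, div_mul_eq_mul_div, one_mul, div_le_iff₀ (by positivity)]
      have : ((Fintype.card K.F : ℕ) : ℝ) ≤ ((4 * (4 + 2 * hb p) * s : ℕ) : ℝ) := by exact_mod_cast hs1
      push_cast at this ⊢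
      linarith
    have hs2' : (s : ℝ) ≤ (Fintype.card K.F : ℝ) / 2 := by
      have : ((2 * s : ℕ) : ℝ) ≤ ((Fintype.card K.F : ℕ) : ℝ) := by exact_mod_cast hs2
      push_cast at this
      linarith
    obtain ⟨h1, h2⟩ := hnum (Fintype.card K.F) (c * Y) le_rfl hFr s hs1' hs2'
    rw [← hLdef] at h1 h2
    rcases h with h | h
    · linarith
    · rw [Nat.cast_sub (by omega)] at h
      linarith

end FIso

theorem stmtIso_of (hM : StmtMerge) (hL : StmtLocK) (hT1 : StmtT1) : StmtIso := by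
  intro p c e1 hc he
  obtain ⟨K1, hK1, hnum⟩ := Psi.numerics c e1 (1 / (4 * (4 + 2 * FIso.hb p : ℕ))) hc he (by positivity)
  refine ⟨max K1 (max 1 ⌈c⌉₊), 1, ?_⟩
  intro Y n hY σ g hgY hg hloc
  set Kc : ℕ := max K1 (max 1 ⌈c⌉₊) with hKc
  have hKc1 : 1 ≤ Kc := (le_max_left 1 ⌈c⌉₊).trans (le_max_right _ _)
  have hKc2 : c ≤ Kc := (Nat.le_ceil c).trans (by exact_mod_cast (le_max_right 1 ⌈c⌉₊).trans (le_max_right _ _))
  set dl : ℝ := 1 / (4 * (4 + 2 * FIso.hb p : ℕ)) with hdl
  have main : ∀ k : ℕ, ∀ K' : SqK σ, K'.Gd → Fintype.card K'.F = k →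
      psi e1 (dl * Kc * Y) (Fintype.card K'.F) ≤ K'.W Y := by
    intro k
    induction k using Nat.strong_induction_on with
    | _ k ih =>
      intro K' hK' hk
      by_cases hs : Fintype.card K'.F ≤ Kc * Y
      · exact (Psi.psi_le he.le).trans (FIso.small hL K' hK' he hloc hs)
      · push Not at hs
        refine FIso.step hM hT1 K' hK' hc he hdl hY hKc1 hKc2
          (fun F g' h1 h2 => (hnum Kc (le_max_left _ _) Y hY F g' h1 h2).1) hgY hg hs ?_
        intro K2 hK2 hlt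
        exact ih _ (by omega) K2 hK2 rfl
  intro K' hK'
  exact (Psi.le_psi (A := dl * Kc * Y) he.le (by positivity)).trans (main _ K' hK' rfl)

end Vale.Agent.P201.Z
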