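import Vale.Agent.P201.Z.PC
import Vale.Agent.P201.Z.G.ExprLem

/-!
P201, part F: blocks F1 and F6 (helper743).
-/

namespace Vale.Agent.P201.Z

open Finset

namespace FL1

variable {p : Pat} {n : ℕ} {σ : Equiv.Perm (Cel p n)}

theorem noRed_of_minA {u : FreeGroup (Let p n)} {k : ℕ} (z : Chn σ) (h : MinA σ u k) :
    NoRed σ u k z := by
  intro k1 z1 h1 h2 _ h3
  have := h.2 _ _ h3
  omega

theorem expr_zero {u : FreeGroup (Let p n)} {z : Chn σ} (h : Expr σ 0 u z) : u = 1 := by
  cases h
  rfl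

theorem exists_minA {u : FreeGroup (Let p n)} {k : ℕ} {z : Chn σ} (h : Expr σ k u z) :
    ∃ k0, MinA σ u k0 ∧ k0 ≤ k := by
  classical
  have hex : ∃ k, ∃ z, Expr σ k u z := ⟨k, z, h⟩
  refine ⟨Nat.find hex, ⟨Nat.find_spec hex, fun k' z' h' => ?_⟩, ?_⟩
  · exact Nat.find_min' hex ⟨z', h'⟩
  · exact Nat.find_min' hex ⟨z, h⟩

theorem toWord_sub (l : List (Let p n × Bool)) : ((val l).toWord).Sublist l := by
  have h : (val l).toWord = FreeGroup.reduce l := FreeGroup.toWord_mk
  rw [h]
  exact FreeGroup.Red.sublist FreeGroup.reduce.red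

theorem wtw_sub {Y : ℕ} {l m : List (Let p n × Bool)} (h : l.Sublist m) : wtw Y l ≤ wtw Y m := by
  unfold wtw
  exact (h.map _).sum_le_sum (by simp)

theorem wtw_t {Y : ℕ} {l : List (Let p n × Bool)} (h : ∀ a ∈ l, a.1 = Let.t) : wtw Y l = 0 := by
  unfold wtw
  apply List.sum_eq_zero
  intro x hx
  obtain ⟨a, ha, rfl⟩ := List.mem_map.1 hx
  rw [h a ha]
  rfl

theorem wtw_noy {Y Y' : ℕ} {l : List (Let p n × Bool)} (h : ∀ a ∈ l, ∀ j, a.1 ≠ Let.y j) :
    wtw Y l = wtw Y' l := by
  unfold wtw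
  congr 1
  apply List.map_congr_left
  intro a ha
  have h1 := h a ha
  rcases hx : a.1 with _ | ⟨i, b⟩ | j
  · rfl
  · rfl
  · exact absurd hx (h1 j)

theorem tw_t (m : ℤ) : ∀ a ∈ tw p n m, a.1 = Let.t := by
  intro a ha
  unfold tw at ha
  rw [List.eq_of_mem_replicate ha]

theorem val_tw_ne {m : ℤ} (hm : m ≠ 0) : val (tw p n m) ≠ 1 := by
  intro h
  have h1 : FreeGroup.lift (fun _ : Let p n => (Multiplicative.ofAdd (1 : ℤ))) (val (tw p n m)) =
      Multiplicative.ofAdd m := by
    unfold val tw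
    rw [FreeGroup.lift_mk, List.map_replicate, List.prod_replicate]
    rcases le_or_gt 0 m with h0 | h0
    · rw [decide_eq_true h0]
      apply Multiplicative.toAdd.injective
      simp
      omega
    · rw [decide_eq_false (not_le.2 h0)]
      apply Multiplicative.toAdd.injective
      have h5 : |m| = -m := abs_of_neg h0
      simp
      omega
  rw [h, map_one] at h1
  apply hm
  have h2 := congrArg Multiplicative.toAdd h1
  simpa using h2.symm

theorem domc_le {S : Type} [Fintype S] (f : S ≃. S) : domc f ≤ Fintype.card S := by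
  unfold domc
  exact Finset.card_le_univ _

/-- (F1 a) no power of `t` has a short expression -/
theorem f1a (hVK : StmtVK) (hBr : StmtBridge) {M Y : ℕ} {e1 : ℝ} (he : 0 < e1)
    (hloc : LocIso σ M Y e1) {m : ℤ} (hm : m ≠ 0) {k : ℕ} (hk : k ≤ M) (z : Chn σ) :
    ¬ Expr σ k (val (tw p n m)) z := by
  classical
  intro h
  have hex : ∃ k, ∃ m : ℤ, m ≠ 0 ∧ ∃ z, Expr σ k (val (tw p n m)) z := ⟨k, m, hm, z, h⟩
  set k0 := Nat.find hex with hk0
  obtain ⟨m0, hm0, z0, h0⟩ := Nat.find_spec hex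
  rw [← hk0] at h0
  have hmin : ∀ (m' : ℤ) (k' : ℕ) (z' : Chn σ), m' ≠ 0 → Expr σ k' (val (tw p n m')) z' → k0 ≤ k' :=
    fun m' k' z' hm' h' => Nat.find_min' hex ⟨m', hm', z', h'⟩
  have hkM : k0 ≤ M := (hmin m k z hm h).trans hk
  have hpos : 0 < k0 := by
    rcases Nat.eq_zero_or_pos k0 with h1 | h1
    · rw [h1] at h0
      exact absurd (expr_zero h0) (val_tw_ne hm0)
    · exact h1
  have hMin : MinA σ (val (tw p n m0)) k0 := ⟨⟨z0, h0⟩, fun k' z' h' => hmin m0 k' z' hm0 h'⟩
  obtain ⟨K, P, hcard, hout, hch⟩ := hVK p n σ _ k0 z0 h0 (noRed_of_minA z0 hMin)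
  have hall : ∀ a ∈ K.outw, a.1 = Let.t := by
    intro a ha
    rw [hout] at ha
    exact tw_t m0 a ((toWord_sub _).subset ha)
  have hval : val K.outw = val (tw p n m0) := by
    rw [hout]
    exact FreeGroup.mk_toWord
  obtain ⟨G, hR, hL, hE, hGc, hW⟩ := hBr p n σ K P
    (by
      rw [hval, hcard, hch]
      exact noRed_of_minA z0 hMin)
    (by
      intro m' k' z' hm' h'
      right
      rw [hcard]
      exact ⟨hmin m' k' z' hm' h', hall⟩)
  have h1 := hW 1
  rw [wtw_t hall] at h1
  have hX := domc_le G.X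
  have hY := domc_le G.Y
  have hX2 : Fintype.card G.S = domc G.X := by omega
  have hY2 : Fintype.card G.S = domc G.Y := by omega
  have h2 := hloc G hR hL hE (by rw [hGc, hcard]; exact hkM)
  rw [← hX2, ← hY2, sub_self, mul_zero, add_zero, hGc, hcard] at h2
  have h3 : (0 : ℝ) < k0 := by exact_mod_cast hpos
  have h4 := mul_pos he h3
  linarith

/-- (F1 b) the local isoperimetric inequality for minimal areas -/
theorem f1b (hVK : StmtVK) (hBr : StmtBridge) {M Y : ℕ} {e1 : ℝ} (he : 0 < e1)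
    (hloc : LocIso σ M Y e1) {u : FreeGroup (Let p n)} {k : ℕ} (hu : MinA σ u k) (hk : k ≤ M) :
    2 * (e1 * k) ≤ (wtw Y u.toWord : ℝ) := by
  obtain ⟨z, hz⟩ := hu.1
  obtain ⟨K, P, hcard, hout, hch⟩ := hVK p n σ _ k z hz (noRed_of_minA z hu)
  have hval : val K.outw = u := by
    rw [hout]
    exact FreeGroup.mk_toWord
  obtain ⟨G, hR, hL, hE, hGc, hW⟩ := hBr p n σ K P
    (by
      rw [hval, hcard, hch]
      exact noRed_of_minA z hu)
    (by
      intro m' k' z' hm' h'
      left
      rw [hcard]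
      by_contra hlt
      exact f1a hVK hBr he hloc hm' ((not_lt.1 hlt).trans hk) z' h')
  have h1 := hW Y
  rw [hout] at h1
  have hX := domc_le G.X
  have hY := domc_le G.Y
  have h2 := hloc G hR hL hE (by rw [hGc, hcard]; exact hk)
  have h3 : (2 * ((Fintype.card G.S : ℝ) - domc G.X) +
      Y * (2 * ((Fintype.card G.S : ℝ) - domc G.Y)) : ℝ) ≤ (wtw Y u.toWord : ℝ) := by
    rw [← Nat.cast_sub hX, ← Nat.cast_sub hY]
    exact_mod_cast h1
  rw [hGc, hcard] at h2 h3
  linarith

/-- (F6 a) no power of `t` is trivial -/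
theorem f6a {Y : ℕ} {e2 : ℝ} (he : 0 < e2)
    (hiso : ∀ (u : FreeGroup (Let p n)) (k : ℕ), MinA σ u k → e2 * k ≤ (wtw Y u.toWord : ℝ))
    {m : ℤ} (hm : m ≠ 0) {k : ℕ} (z : Chn σ) : ¬ Expr σ k (val (tw p n m)) z := by
  intro h
  obtain ⟨k0, hk0, -⟩ := exists_minA h
  have h1 := hiso _ _ hk0
  rw [wtw_t (fun a ha => tw_t m a ((toWord_sub _).subset ha))] at h1
  have h2 : k0 = 0 := by
    by_contra hne
    have h3 : (0 : ℝ) < k0 := by exact_mod_cast Nat.pos_of_ne_zero hne
    have h4 := mul_pos he h3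
    push_cast at h1
    linarith
  obtain ⟨z0, hz0⟩ := hk0.1
  rw [h2] at hz0
  exact val_tw_ne hm (expr_zero hz0)

/-- a total partial injection on a nonempty set gives a closed reduced walk -/
theorem girth_le_card {g : ℕ} (hg : Girth σ g) (G : Glue σ) (hR : G.Red)
    (htot : ∀ s, ∃ s', G.Y s = some s') (s0 : G.S) : g ≤ Fintype.card G.S := by
  classical
  choose f hf using htot
  obtain ⟨i, hi, j, hj, hij, heq⟩ := Finset.exists_ne_map_eq_of_card_lt_of_maps_to
    (s := Finset.range (Fintype.card G.S + 1)) (t := (Finset.univ : Finset G.S))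
    (by simp) (f := fun i => f^[i] s0) (fun _ _ => Finset.mem_coe.2 (Finset.mem_univ _))
  wlog hlt : i < j generalizing i j
  · exact this j hj i hi hij.symm heq.symm (by omega)
  have hj' := Finset.mem_range.1 hj
  have key := hg ((List.range (j - i)).map (fun r => G.ε (f^[i + r] s0))) (by
      intro h
      have := congrArg List.length h
      simp at this
      omega) (by
    constructor
    · unfold IsWalk
      rw [List.isChain_iff_getElem]
      intro r hr
      simp only [List.getElem_map, List.getElem_range]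
      have h1 := hR.y _ _ (hf (f^[i + r] s0))
      rw [← Function.iterate_succ_apply' f] at h1
      exact h1
    · intro a ha b hb
      obtain ⟨d, hd⟩ : ∃ d, j - i = d + 1 := ⟨j - i - 1, by omega⟩
      rw [hd] at ha hb
      rw [List.range_succ, List.map_append, List.map_singleton] at ha
      rw [List.getLast?_append] at ha
      simp only [List.getLast?_singleton, Option.some_or, Option.mem_def, Option.some.injEq] at ha
      rw [List.range_succ_eq_map, List.map_cons, List.head?_cons] at hb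
      simp only [Option.mem_def, Option.some.injEq, Nat.add_zero] at hb
      subst ha hb
      have h1 := hR.y _ _ (hf (f^[i + d] s0))
      rw [← Function.iterate_succ_apply' f, show (i + d).succ = j by omega] at h1
      have heq' : f^[i] s0 = f^[j] s0 := heq
      rw [heq']
      exact h1)
  rw [List.length_map, List.length_range] at key
  omega

/-- (F6 b) short words without `y` letters -/
theorem f6b (hVK : StmtVK) (hBr : StmtBridge) {Y g : ℕ} {e2 : ℝ} (he : 0 < e2)
    (hiso : ∀ (u : FreeGroup (Let p n)) (k : ℕ), MinA σ u k → e2 * k ≤ (wtw Y u.toWord : ℝ))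
    (hgi : Girth σ g) (hg : 2 < e2 * g) (l : List (Let p n × Bool))
    (hl : ∀ a ∈ l, ∀ j, a.1 ≠ Let.y j) (hw : wtw Y l ≤ 2)
    (h1 : PresentedGroup.mk (rels σ) (val l) = 1) : val l = 1 := by
  obtain ⟨k, z, h⟩ := Expr.of_ker σ h1
  obtain ⟨k0, hk0, -⟩ := exists_minA h
  obtain ⟨z0, hz0⟩ := hk0.1
  rcases Nat.eq_zero_or_pos k0 with h0 | hpos
  · rw [h0] at hz0
    exact expr_zero hz0
  exfalso
  obtain ⟨K, P, hcard, hout, hch⟩ := hVK p n σ _ k0 z0 hz0 (noRed_of_minA z0 hk0)
  have hval : val K.outw = val l := by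
    rw [hout]
    exact FreeGroup.mk_toWord
  have hsub : K.outw.Sublist l := by
    rw [hout]
    exact toWord_sub l
  obtain ⟨G, hR, hL, hE, hGc, hW⟩ := hBr p n σ K P
    (by
      rw [hval, hcard, hch]
      exact noRed_of_minA z0 hk0)
    (by
      intro m' k' z' hm' h'
      exact absurd h' (f6a he hiso hm' z'))
  have hX := domc_le G.X
  have hY := domc_le G.Y
  have h3 := hW 3
  have h4 : wtw 3 K.outw ≤ 2 := by
    rw [wtw_noy (Y' := Y) (fun a ha => hl a (hsub.subset ha))]
    exact (wtw_sub hsub).trans hw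
  have hY2 : domc G.Y = Fintype.card G.S := by omega
  have htot : ∀ s, ∃ s', G.Y s = some s' := by
    intro s
    have h5 : (univ.filter (fun s => (G.Y s).isSome)) = univ := by
      apply Finset.eq_univ_of_card
      rw [← hY2]
      unfold domc
      congr 1
    have h6 : s ∈ (univ.filter (fun s => (G.Y s).isSome)) := by
      rw [h5]
      exact Finset.mem_univ _
    exact Option.isSome_iff_exists.1 (Finset.mem_filter.1 h6).2
  have hne : Nonempty G.S := by
    rw [← Fintype.card_pos_iff, hGc, hcard]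
    exact hpos
  obtain ⟨s0⟩ := hne
  have h7 := girth_le_card hgi G hR htot s0
  rw [hGc, hcard] at h7
  have h8 := hiso _ _ hk0
  have h9 : (wtw Y (val l).toWord : ℝ) ≤ 2 := by
    exact_mod_cast (wtw_sub (toWord_sub l)).trans hw
  have h10 : (g : ℝ) ≤ k0 := by exact_mod_cast h7
  have h11 := mul_le_mul_of_nonneg_left h10 he.le
  linarith

end FL1

end Vale.Agent.P201.Z
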