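import Vale.Agent.P201.Z.F.LocKW
import Vale.Agent.P201.Z.D.BrEul
import Vale.Agent.P201.Z.D.BrSPos

/-!
P201 part F, route 2: `Lab` from a height function with at most one exceptional outer edge, and
`StmtLocK`.
-/

namespace Vale.Agent.P201.Z

open Finset

variable {p : Pat} {n : ℕ} {σ : Equiv.Perm (Cel p n)}

namespace LocK

/-- every element of a periodic orbit has an image, which lies in the orbit -/
theorem exists_next {T : Type} [Fintype T] (f : T ≃. T) {s t : T} (hs : Per f s)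
    (ht : t ∈ orb f s) : ∃ u, f t = some u ∧ u ∈ orb f s := by
  have h1 := (hs.of_mem ht).dom
  obtain ⟨u, hu⟩ := Option.isSome_iff_exists.1 h1
  exact ⟨u, hu, step_mem_orb ht hu⟩

/-- a function which is a difference along `f` on the orbit has sum zero over the orbit -/
theorem telescope {T : Type} [Fintype T] (f : T ≃. T) {s : T} (hs : Per f s) (P g : T → ℤ)
    (h : ∀ t ∈ orb f s, ∀ u, f t = some u → g t = P u - P t) :
    ∑ t ∈ orb f s, g t = 0 := by
  classical
  have hex : ∀ t, ∃ u, t ∈ orb f s → f t = some u := by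
    intro t
    by_cases ht : t ∈ orb f s
    · obtain ⟨u, h1, -⟩ := exists_next f hs ht
      exact ⟨u, fun _ => h1⟩
    · exact ⟨t, fun h' => absurd h' ht⟩
  choose N hN using hex
  have hmaps : ∀ t ∈ orb f s, N t ∈ orb f s := fun t ht => step_mem_orb ht (hN t ht)
  have hinj : Set.InjOn N (orb f s : Set T) := by
    intro a ha b hb hab
    have h1 := hN a ha
    have h2 := hN b hb
    rw [hab] at h1
    exact f.inj h1 h2
  have himg : (orb f s).image N = orb f s := by
    refine Finset.eq_of_subset_of_card_le ?_ ?_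
    · intro x hx
      obtain ⟨a, ha, rfl⟩ := Finset.mem_image.1 hx
      exact hmaps a ha
    · rw [Finset.card_image_of_injOn hinj]
  have h1 : ∑ t ∈ orb f s, g t = ∑ t ∈ orb f s, (P (N t) - P t) :=
    Finset.sum_congr rfl (fun t ht => h t ht (N t) (hN t ht))
  have h2 : ∑ t ∈ orb f s, P (N t) = ∑ t ∈ orb f s, P t := by
    conv_rhs => rw [← himg]
    rw [Finset.sum_image hinj]
  rw [h1, Finset.sum_sub_distrib, h2, sub_self]

variable {K : PC (Let p n)}

theorem chain_pos (τ : K.V → ℤ) :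
    ∀ (T : List (K.E × Bool)) (a b : K.E × Bool),
    (∀ d ∈ T, τ (K.org (rv d)) = τ (K.org d) + BrS.sgn d.2) →
    List.IsChain (fun a b => K.org b = K.org (rv a)) (a :: (T ++ [b])) →
    τ (K.org b) = τ (K.org (rv a)) + (T.map (fun d => BrS.sgn d.2)).sum
  | [], a, b, _, h => by
    simp only [List.nil_append, List.isChain_cons_cons] at h
    rw [h.1]
    simp
  | c :: T, a, b, hT, h => by
    simp only [List.cons_append, List.isChain_cons_cons] at h
    have h1 := chain_pos τ T c b (fun d hd => hT d (List.mem_cons_of_mem _ hd))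
      (by simpa using h.2)
    rw [h1, hT c (by simp), h.1]
    simp
    ring

variable (B : Br σ K)

theorem pos_T1 (τ : K.V → ℤ) (s : B.S)
    (hτ : ∀ d ∈ (B.sd s).T1, τ (K.org (rv d)) = τ (K.org d) + BrS.sgn d.2) :
    τ (K.org (B.ys s)) = τ (K.org (rv (B.xs s))) + ht (B.ε s).1 := by
  have h := B.chain_s s
  have h2 : (B.xs s :: ((B.sd s).T1 ++ B.ys s :: B.ye s :: ((B.sd s).T2 ++ [B.xe s]))) =
      (B.xs s :: ((B.sd s).T1 ++ [B.ys s])) ++ (B.ye s :: ((B.sd s).T2 ++ [B.xe s])) := by simp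
  rw [h2, List.isChain_append] at h
  rw [chain_pos τ _ _ _ hτ h.1]
  congr 1
  have h3 := congrArg (fun l => (List.map (fun a : Let p n × Bool => BrS.sgn a.2) l).sum)
    (B.sd s).lT1
  simp only [List.map_map] at h3
  rw [BrS.sum_tw] at h3
  exact h3

theorem pos_T2 (τ : K.V → ℤ) (s : B.S)
    (hτ : ∀ d ∈ (B.sd s).T2, τ (K.org (rv d)) = τ (K.org d) + BrS.sgn d.2) :
    τ (K.org (B.xe s)) = τ (K.org (rv (B.ye s))) - ht (mt σ (B.ε s)).1 := by
  have h := B.chain_s s
  have h2 : (B.xs s :: ((B.sd s).T1 ++ B.ys s :: B.ye s :: ((B.sd s).T2 ++ [B.xe s]))) =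
      (B.xs s :: ((B.sd s).T1 ++ [B.ys s])) ++ (B.ye s :: ((B.sd s).T2 ++ [B.xe s])) := by simp
  rw [h2, List.isChain_append] at h
  rw [chain_pos τ _ _ _ hτ h.2.1, sub_eq_add_neg]
  congr 1
  have h3 := congrArg (fun l => (List.map (fun a : Let p n × Bool => BrS.sgn a.2) l).sum)
    (B.sd s).lT2
  simp only [List.map_map] at h3
  rw [BrS.sum_winv, BrS.sum_tw] at h3
  exact h3

/-- exceptional steps: the corner of the step contains an exceptional edge -/
def Bad (O : K.E → Prop) (s : B.S) : Prop :=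
  ∃ u v, B.glue.X s = some u ∧ B.glue.Y u = some v ∧
    ((∃ d ∈ (B.sd u).T2, O d.1) ∨ ∃ d ∈ (B.sd v).T1, O d.1)

theorem T1_mem (s : B.S) {d : K.E × Bool} (h : d ∈ (B.sd s).T1) : d ∈ K.bd (B.j s) := by
  rw [B.bd_eq]
  simp [h]

theorem T2_mem (s : B.S) {d : K.E × Bool} (h : d ∈ (B.sd s).T2) : d ∈ K.bd (B.j s) := by
  rw [B.bd_eq]
  simp [h]

theorem T1_T2 (s : B.S) {d : K.E × Bool} (h : d ∈ (B.sd s).T1) (h' : d ∈ (B.sd s).T2) : False := by
  have h1 := K.bd_nodup (B.j s)
  rw [B.bd_eq] at h1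
  have h2 := (List.nodup_append.1 (List.nodup_cons.1 h1).2).2.2 d h d (by simp [h'])
  exact h2 rfl

theorem bad_unique {O : K.E → Prop} (h1 : ∀ e e2, O e → O e2 → e = e2)
    (h2 : ∀ e, O e → ∃ b, ∀ s : B.S, (e, b) ∉ K.bd (B.j s)) {s s' : B.S} (h : Bad B O s)
    (h' : Bad B O s') : s = s' := by
  have key : ∀ (a a' : B.S) (d d' : K.E × Bool), d ∈ K.bd (B.j a) → d' ∈ K.bd (B.j a') → O d.1 →
      O d'.1 → a = a' ∧ d = d' := by
    intro a a' d d' ha ha' hO hO'
    have h3 := h1 _ _ hO hO'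
    obtain ⟨b, hb⟩ := h2 _ hO
    have h4 : d = d' := by
      obtain ⟨e, c⟩ := d
      obtain ⟨e', c'⟩ := d'
      have h3 : e = e' := h3
      subst h3
      have h5 : c ≠ b := fun h => hb a (h ▸ ha)
      have h6 : c' ≠ b := fun h => hb a' (h ▸ ha')
      have : c = c' := by
        cases c <;> cases c' <;> cases b <;> simp_all
      rw [this]
    subst h4
    exact ⟨B.inj (K.face_unique ha ha'), rfl⟩
  obtain ⟨u, v, hX, hY, hb⟩ := h
  obtain ⟨u', v', hX', hY', hb'⟩ := h'
  have hu : u = u' := by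
    rcases hb with ⟨d, hd, hO⟩ | ⟨d, hd, hO⟩
    · rcases hb' with ⟨d', hd', hO'⟩ | ⟨d', hd', hO'⟩
      · exact (key _ _ _ _ (T2_mem B u hd) (T2_mem B u' hd') hO hO').1
      · obtain ⟨h3, h4⟩ := key _ _ _ _ (T2_mem B u hd) (T1_mem B v' hd') hO hO'
        subst h3
        subst h4
        exact (T1_T2 B _ hd' hd).elim
    · rcases hb' with ⟨d', hd', hO'⟩ | ⟨d', hd', hO'⟩
      · obtain ⟨h3, h4⟩ := key _ _ _ _ (T1_mem B v hd) (T2_mem B u' hd') hO hO'
        subst h3
        subst h4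
        exact (T1_T2 B _ hd hd').elim
      · obtain ⟨h3, -⟩ := key _ _ _ _ (T1_mem B v hd) (T1_mem B v' hd') hO hO'
        subst h3
        exact B.glue.Y.inj hY hY'
  subst hu
  exact B.glue.X.inj hX hX'

/-- a height function with at most one exceptional edge, which has a side outside of the squares,
gives `Lab` -/
theorem lab_of_pos (τ : K.V → ℤ) (O : K.E → Prop) (h1 : ∀ e e2, O e → O e2 → e = e2)
    (h2 : ∀ e, O e → ∃ b, ∀ s : B.S, (e, b) ∉ K.bd (B.j s))
    (h3 : ∀ e, K.lab e = Let.t → ¬ O e → τ (K.org (e, false)) = τ (K.org (e, true)) + 1) :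
    B.glue.Lab := by
  classical
  have hτ : ∀ d : K.E × Bool, K.lab d.1 = Let.t → ¬ O d.1 →
      τ (K.org (rv d)) = τ (K.org d) + BrS.sgn d.2 := by
    rintro ⟨e, b⟩ hl hO
    have := h3 e hl hO
    cases b with
    | true =>
      show τ (K.org (e, false)) = τ (K.org (e, true)) + 1
      exact this
    | false =>
      show τ (K.org (e, true)) = τ (K.org (e, false)) + (-1)
      rw [this]
      ring
  refine ⟨univ.filter (fun s => Per B.glue.XY s ∧ ∃ t ∈ orb B.glue.XY s, Bad B O t), ?_, ?_⟩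
  · intro s s' hs hs'
    obtain ⟨-, hp, t, ht, hb⟩ := Finset.mem_filter.1 hs
    obtain ⟨-, hp', t', ht', hb'⟩ := Finset.mem_filter.1 hs'
    have : t = t' := bad_unique B h1 h2 hb hb'
    subst this
    rw [← hp.orb_eq ht, ← hp'.orb_eq ht']
  · intro s hs hsE
    have hgood : ∀ t ∈ orb B.glue.XY s, ¬ Bad B O t := by
      intro t ht hb
      exact hsE (Finset.mem_filter.2 ⟨Finset.mem_univ _, hs, t, ht, hb⟩)
    refine telescope B.glue.XY hs (fun s => τ (K.org (rv (B.xs s)))) B.glue.inc ?_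
    intro t hto v hv
    have hv' : (B.glue.X t).bind B.glue.Y = some v := hv
    cases hX : B.glue.X t with
    | none => rw [hX] at hv'; cases hv'
    | some u =>
      rw [hX] at hv'
      have hY : B.glue.Y u = some v := hv'
      have hnb := hgood t hto
      have hg1 : ∀ d ∈ (B.sd v).T1, ¬ O d.1 := fun d hd hO =>
        hnb ⟨u, v, hX, hY, Or.inr ⟨d, hd, hO⟩⟩
      have hg2 : ∀ d ∈ (B.sd u).T2, ¬ O d.1 := fun d hd hO =>
        hnb ⟨u, v, hX, hY, Or.inl ⟨d, hd, hO⟩⟩
      have k1 : B.glue.inc t = ht (mt σ (B.glue.ε u)).1 - ht (B.glue.ε v).1 := by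
        unfold Glue.inc
        simp only [hX, hY]
      rw [k1]
      have k2 := pos_T1 B τ v (fun d hd => hτ d (B.lab_T1 v hd) (hg1 d hd))
      have k3 := pos_T2 B τ u (fun d hd => hτ d (B.lab_T2 u hd) (hg2 d hd))
      have k4 := B.X_eq_some.1 hX
      have k5 := B.Y_eq_some.1 hY
      have k6 : B.glue.ε u = B.ε u := rfl
      have k7 : B.glue.ε v = B.ε v := rfl
      rw [k6, k7]
      rw [← k4] at k3
      rw [← k5] at k2
      show _ = τ (K.org (rv (B.xs v))) - τ (K.org (rv (B.xs t)))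
      linarith

end LocK

/-- the gluing data of a good complex -/
theorem stmtLocK : StmtLocK := by
  intro p n σ K hG
  obtain ⟨hR, τ, O, h1, h2, h3⟩ := hG
  refine ⟨(brD K).glue, ?_, ?_, BrEul.eulD K, rfl, fun Y => LocK.weight K Y⟩
  · constructor
    · intro s s' h
      refine ⟨(brD K).blk_Y h, ?_⟩
      have h4 := (brD K).Y_eq_some.1 h
      refine hR s s' ((brD K).ye s) ((brD K).ye_mem s) ?_ ?_
      · rw [h4]
        exact (brD K).ys_mem s'
      · intro h5
        exact absurd (((brD K).lab_ye s).symm.trans h5) (by simp)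
    · intro s s' h
      refine ⟨(brD K).rc_X h, ?_⟩
      have h4 := (brD K).X_eq_some.1 h
      intro h5
      refine hR s s' ((brD K).xs s) ((brD K).xs_mem s) ?_ ?_ ?_
      · rw [h4]
        exact (brD K).xe_mem s'
      · intro h6
        exact absurd (((brD K).lab_xs s).symm.trans h6) (by simp)
      · have h6 : K.q s = mt σ (K.q s') := h5
        rw [h6, mt_mt]
  · refine LocK.lab_of_pos (brD K) τ O h1 ?_ h3
    intro e he
    obtain ⟨b, hb⟩ := h2 e he
    refine ⟨b, fun s hs => ?_⟩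
    have h4 : (none : Option K.F) = some s := K.face_unique hb hs
    exact absurd h4 (by simp)

end Vale.Agent.P201.Z
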