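import Vale.Agent.P201.Z.F.Good
import Vale.Agent.P201.Z.D.BrWeight

/-!
P201 part F, route 2: the weight inequality of the bridge with `K.W Y` (only the edges with exactly
one inner side count).
-/

namespace Vale.Agent.P201.Z

open Finset

variable {p : Pat} {n : ℕ} {σ : Equiv.Perm (Cel p n)}

namespace LocK

variable (K : SqK σ)

open Classical in
/-- outer darts with an inner reverse -/
noncomputable def od : Finset (K.E × Bool) :=
  (K.bd none).toFinset.filter (fun d => ∃ f : K.F, rv d ∈ K.bd (some f))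

theorem sum_od_le (Y : ℕ) : ∑ d ∈ od K, wtl Y (K.lab d.1) ≤ K.W Y := by
  classical
  have hinj : Set.InjOn (fun d : K.E × Bool => d.1) (od K : Set (K.E × Bool)) := by
    intro d hd d' hd' h
    have h1 := (Finset.mem_filter.1 (Finset.mem_coe.1 hd))
    have h2 := (Finset.mem_filter.1 (Finset.mem_coe.1 hd'))
    obtain ⟨e, b⟩ := d
    obtain ⟨e', b'⟩ := d'
    have h : e = e' := h
    subst h
    by_cases hb : b = b'
    · rw [hb]
    · exfalso
      have hb' : rv (e, b) = (e, b') := by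
        unfold rv
        cases b <;> cases b' <;> simp_all
      obtain ⟨f, hf⟩ := h1.2
      rw [hb'] at hf
      have h3 : (none : Option K.F) = some f := K.face_unique (List.mem_toFinset.1 h2.1) hf
      exact absurd h3 (by simp)
  have h1 : ∑ d ∈ od K, wtl Y (K.lab d.1) = ∑ e ∈ (od K).image (fun d => d.1), wtl Y (K.lab e) :=
    (Finset.sum_image (f := fun e => wtl Y (K.lab e)) hinj).symm
  rw [h1]
  refine Finset.sum_le_sum_of_subset ?_
  intro e he
  obtain ⟨d, hd, rfl⟩ := Finset.mem_image.1 he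
  obtain ⟨h2, f, hf⟩ := Finset.mem_filter.1 hd
  rw [List.mem_toFinset] at h2
  unfold PC.bdry
  rw [Finset.mem_filter]
  refine ⟨Finset.mem_univ _, fun h => ?_⟩
  have h3 : ¬ ∃ g ∈ (univ : Finset K.F), d ∈ K.bd (some g) := by
    rintro ⟨g, -, hg⟩
    have h3 : (none : Option K.F) = some g := K.face_unique h2 hg
    exact absurd h3 (by simp)
  have h4 : ∃ g ∈ (univ : Finset K.F), rv d ∈ K.bd (some g) := ⟨f, Finset.mem_univ _, hf⟩
  obtain ⟨e, b⟩ := d
  cases b with
  | true => exact h3 (h.2 h4)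
  | false => exact h3 (h.1 h4)

/-- the weight inequality -/
theorem weight (Y : ℕ) :
    2 * (Fintype.card K.F - domc (brD K).glue.X) +
      Y * (2 * (Fintype.card K.F - domc (brD K).glue.Y)) ≤ K.W Y := by
  classical
  have c1' : ∀ s : K.F, (brD K).glue.X s = none ↔ rv ((brD K).xs s) ∈ K.bd none :=
    fun s => K.brw_fsD_none
  have c2' : ∀ s : K.F, (brD K).glue.Y s = none ↔ rv ((brD K).ye s) ∈ K.bd none :=
    fun s => K.brw_fsD_none
  have c3' : ∀ s : K.F, (brD K).glue.X.symm s = none ↔ rv ((brD K).xe s) ∈ K.bd none :=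
    fun s => K.brw_fsD_none
  have c4' : ∀ s : K.F, (brD K).glue.Y.symm s = none ↔ rv ((brD K).ys s) ∈ K.bd none :=
    fun s => K.brw_fsD_none
  set A1 : Finset K.F := univ.filter (fun s : K.F => (brD K).glue.X s = none) with hA1
  set A2 : Finset K.F := univ.filter (fun s : K.F => (brD K).glue.Y s = none) with hA2
  set A3 : Finset K.F := univ.filter (fun s : K.F => (brD K).glue.X.symm s = none) with hA3
  set A4 : Finset K.F := univ.filter (fun s : K.F => (brD K).glue.Y.symm s = none) with hA4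
  have e1 : A1.card + domc (brD K).glue.X = Fintype.card K.F :=
    BrW.card_none_add_domc (S := K.F) (brD K).glue.X A1 (fun s => by rw [hA1, Finset.mem_filter]; exact ⟨fun h => h.2, fun h => ⟨Finset.mem_univ _, h⟩⟩)
  have e2 : A2.card + domc (brD K).glue.Y = Fintype.card K.F :=
    BrW.card_none_add_domc (S := K.F) (brD K).glue.Y A2 (fun s => by rw [hA2, Finset.mem_filter]; exact ⟨fun h => h.2, fun h => ⟨Finset.mem_univ _, h⟩⟩)
  have e3 : A3.card + domc (brD K).glue.X = Fintype.card K.F := by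
    rw [← BrW.domc_symm (S := (brD K).glue.S)]
    exact BrW.card_none_add_domc (S := K.F) (brD K).glue.X.symm A3 (fun s => by rw [hA3, Finset.mem_filter]; exact ⟨fun h => h.2, fun h => ⟨Finset.mem_univ _, h⟩⟩)
  have e4 : A4.card + domc (brD K).glue.Y = Fintype.card K.F := by
    rw [← BrW.domc_symm (S := (brD K).glue.S)]
    exact BrW.card_none_add_domc (S := K.F) (brD K).glue.Y.symm A4 (fun s => by rw [hA4, Finset.mem_filter]; exact ⟨fun h => h.2, fun h => ⟨Finset.mem_univ _, h⟩⟩)
  set T1 := A1.image (fun f => rv ((brD K).xs f)) with hT1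
  set T2 := A2.image (fun f => rv ((brD K).ye f)) with hT2
  set T3 := A3.image (fun f => rv ((brD K).xe f)) with hT3
  set T4 := A4.image (fun f => rv ((brD K).ys f)) with hT4
  have c1 : T1.card = A1.card := Finset.card_image_of_injective _
    (fun _ _ h => (brD K).brw_xs_inj (rv_inj h))
  have c2 : T2.card = A2.card := Finset.card_image_of_injective _
    (fun _ _ h => (brD K).brw_ye_inj (rv_inj h))
  have c3 : T3.card = A3.card := Finset.card_image_of_injective _
    (fun _ _ h => (brD K).brw_xe_inj (rv_inj h))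
  have c4 : T4.card = A4.card := Finset.card_image_of_injective _
    (fun _ _ h => (brD K).brw_ys_inj (rv_inj h))
  have hd1 : ∀ d ∈ T1, (∃ i b, K.lab d.1 = Let.x i b) ∧ d.2 = false := by
    intro d hd
    obtain ⟨f, -, rfl⟩ := Finset.mem_image.1 hd
    exact ⟨⟨_, _, (brD K).lab_xs f⟩, by rw [rv_snd, (brD K).sg_xs]; rfl⟩
  have hd3 : ∀ d ∈ T3, (∃ i b, K.lab d.1 = Let.x i b) ∧ d.2 = true := by
    intro d hd
    obtain ⟨f, -, rfl⟩ := Finset.mem_image.1 hd
    exact ⟨⟨_, _, (brD K).lab_xe f⟩, by rw [rv_snd, (brD K).sg_xe]; rfl⟩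
  have hd2 : ∀ d ∈ T2, (∃ j, K.lab d.1 = Let.y j) ∧ d.2 = true := by
    intro d hd
    obtain ⟨f, -, rfl⟩ := Finset.mem_image.1 hd
    exact ⟨⟨_, (brD K).lab_ye f⟩, by rw [rv_snd, (brD K).sg_ye]; rfl⟩
  have hd4 : ∀ d ∈ T4, (∃ j, K.lab d.1 = Let.y j) ∧ d.2 = false := by
    intro d hd
    obtain ⟨f, -, rfl⟩ := Finset.mem_image.1 hd
    exact ⟨⟨_, (brD K).lab_ys f⟩, by rw [rv_snd, (brD K).sg_ys]; rfl⟩
  have d13 : Disjoint T1 T3 := by
    rw [Finset.disjoint_left]
    intro d h h'
    have := (hd1 d h).2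
    rw [(hd3 d h').2] at this
    exact absurd this (by simp)
  have d24 : Disjoint T2 T4 := by
    rw [Finset.disjoint_left]
    intro d h h'
    have := (hd2 d h).2
    rw [(hd4 d h').2] at this
    exact absurd this (by simp)
  have dx : Disjoint (T1 ∪ T3) (T2 ∪ T4) := by
    rw [Finset.disjoint_left]
    intro d h h'
    have h1 : ∃ i b, K.lab d.1 = Let.x i b := by
      rcases Finset.mem_union.1 h with h | h
      · exact (hd1 d h).1
      · exact (hd3 d h).1
    have h2 : ∃ j, K.lab d.1 = Let.y j := by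
      rcases Finset.mem_union.1 h' with h | h
      · exact (hd2 d h).1
      · exact (hd4 d h).1
    obtain ⟨i, b, h1⟩ := h1
    obtain ⟨j, h2⟩ := h2
    rw [h1] at h2
    exact absurd h2 (by simp)
  have hmem : ∀ (d : K.E × Bool) (f : K.F), d ∈ K.bd (some f) → rv d ∈ K.bd none → rv d ∈ od K := by
    intro d f h1 h2
    refine Finset.mem_filter.2 ⟨List.mem_toFinset.2 h2, f, ?_⟩
    rw [rv_rv]
    exact h1
  have hsub : (T1 ∪ T3) ∪ (T2 ∪ T4) ⊆ od K := by
    intro d hd
    rcases Finset.mem_union.1 hd with h | h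
    · rcases Finset.mem_union.1 h with h | h
      · obtain ⟨f, hf, rfl⟩ := Finset.mem_image.1 h
        exact hmem _ f ((brD K).xs_mem f) ((c1' f).1 (Finset.mem_filter.1 hf).2)
      · obtain ⟨f, hf, rfl⟩ := Finset.mem_image.1 h
        exact hmem _ f ((brD K).xe_mem f) ((c3' f).1 (Finset.mem_filter.1 hf).2)
    · rcases Finset.mem_union.1 h with h | h
      · obtain ⟨f, hf, rfl⟩ := Finset.mem_image.1 h
        exact hmem _ f ((brD K).ye_mem f) ((c2' f).1 (Finset.mem_filter.1 hf).2)
      · obtain ⟨f, hf, rfl⟩ := Finset.mem_image.1 h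
        exact hmem _ f ((brD K).ys_mem f) ((c4' f).1 (Finset.mem_filter.1 hf).2)
  have s1 : ∑ d ∈ T1 ∪ T3, wtl Y (K.lab d.1) = A1.card + A3.card := by
    rw [← c1, ← c3, ← Finset.card_union_of_disjoint d13, Finset.card_eq_sum_ones]
    refine Finset.sum_congr rfl fun d h => ?_
    have h1 : ∃ i b, K.lab d.1 = Let.x i b := by
      rcases Finset.mem_union.1 h with h | h
      · exact (hd1 d h).1
      · exact (hd3 d h).1
    obtain ⟨i, b, h1⟩ := h1
    rw [h1]
    rfl
  have s2 : ∑ d ∈ T2 ∪ T4, wtl Y (K.lab d.1) = Y * (A2.card + A4.card) := by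
    rw [← c2, ← c4, ← Finset.card_union_of_disjoint d24, mul_comm, Finset.card_eq_sum_ones,
      Finset.sum_mul]
    refine Finset.sum_congr rfl fun d h => ?_
    have h1 : ∃ j, K.lab d.1 = Let.y j := by
      rcases Finset.mem_union.1 h with h | h
      · exact (hd2 d h).1
      · exact (hd4 d h).1
    obtain ⟨j, h1⟩ := h1
    rw [h1, one_mul]
    rfl
  have key : ∑ d ∈ (T1 ∪ T3) ∪ (T2 ∪ T4), wtl Y (K.lab d.1) ≤ ∑ d ∈ od K, wtl Y (K.lab d.1) :=
    Finset.sum_le_sum_of_subset hsub
  rw [Finset.sum_union dx, s1, s2] at key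
  refine le_trans (le_of_eq ?_) (key.trans (sum_od_le K Y))
  have f1 : Fintype.card K.F - domc (brD K).glue.X = A1.card := by omega
  have f3 : A3.card = A1.card := by omega
  have f2 : Fintype.card K.F - domc (brD K).glue.Y = A2.card := by omega
  have f4 : A4.card = A2.card := by omega
  rw [f1, f2, f3, f4]
  ring

end LocK

end Vale.Agent.P201.Z
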