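import Vale.Agent.P201.Z.F.Good
import Vale.Agent.P201.Z.F.Del

/-!
P201, part F: merging the complement of a bond with the outer face (helper402).
-/

namespace Vale.Agent.P201.Z

open Finset

variable {p : Pat} {n : ℕ} {σ : Equiv.Perm (Cel p n)}

/-- the restriction of `K` along an embedding of complexes -/
def SqK.ofEm (K : SqK σ) (K' : PC (Let p n)) (i : Dl.Em K' K.toPC) : SqK σ where
  toPC := K'
  q := fun f => K.q (i.f f)
  sq := by
    intro f
    rw [← K.sq (i.f f), ← i.bd f, List.map_map]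
    refine List.map_congr_left fun d _ => ?_
    simp only [Function.comp_apply]
    rw [i.lab]

theorem SqK.ofEm_card (K : SqK σ) (K' : PC (Let p n)) (i : Dl.Em K' K.toPC) {C : Finset K.F}
    (hi : Dl.IsRes i C) : Fintype.card (K.ofEm K' i).F = C.card := by
  classical
  have h : C = univ.image i.f := by
    ext g
    rw [hi.rng g]
    simp
  rw [h, Finset.card_image_of_injective _ i.finj]
  rfl

theorem SqK.ofEm_W (K : SqK σ) (K' : PC (Let p n)) (i : Dl.Em K' K.toPC) {C : Finset K.F}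
    (hi : Dl.IsRes i C) (Y : ℕ) : (K.ofEm K' i).W Y = K.wS Y (K.bdry C) := by
  show ∑ e ∈ K'.bdry univ, wtl Y (K'.lab e) = ∑ e ∈ K.bdry C, wtl Y (K.lab e)
  refine Finset.sum_bij (fun e _ => i.e e) (fun e he => (hi.bdr e).1 he)
    (fun a _ b _ h => i.einj h) ?_ ?_
  · intro y hy
    obtain ⟨x, hx⟩ := hi.sur y hy
    exact ⟨x, (hi.bdr x).2 (hx ▸ hy), hx⟩
  · intro e _
    show wtl Y (K'.lab e) = wtl Y (K.lab (i.e e))
    rw [i.lab]

theorem SqK.ofEm_mem (K : SqK σ) (K' : PC (Let p n)) (i : Dl.Em K' K.toPC) {f : K'.F}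
    {d : K'.E × Bool} (h : d ∈ K'.bd (some f)) : (i.e d.1, d.2) ∈ K.bd (some (i.f f)) := by
  rw [← i.bd f]
  exact List.mem_map_of_mem (f := fun x : K'.E × Bool => (i.e x.1, x.2)) h

theorem SqK.ofEm_out (K : SqK σ) (K' : PC (Let p n)) (i : Dl.Em K' K.toPC) {d : K'.E × Bool}
    (h : (i.e d.1, d.2) ∈ K.bd none) : d ∈ K'.bd none := by
  obtain ⟨f, hf⟩ := Dl.exists_face K' d
  cases f with
  | none => exact hf
  | some f => exact absurd (Dl.face_unique h (K.ofEm_mem K' i hf)) (by simp)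

theorem SqK.ofEm_gd (K : SqK σ) (K' : PC (Let p n)) (i : Dl.Em K' K.toPC) (h : K.Gd) :
    (K.ofEm K' i).Gd := by
  obtain ⟨h1, τ, O, hO1, hO2, h2⟩ := h
  have hR : ∀ (f f' : K'.F) (d : K'.E × Bool), d ∈ K'.bd (some f) → rv d ∈ K'.bd (some f') →
      K'.lab d.1 ≠ Let.t → K.q (i.f f') ≠ mt σ (K.q (i.f f)) := by
    intro f f' d hd hr hl
    refine h1 (i.f f) (i.f f') (i.e d.1, d.2) (K.ofEm_mem K' i hd) (K.ofEm_mem K' i hr) ?_
    intro e
    apply hl
    rw [i.lab]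
    exact e
  have hP : ∀ e : K'.E, K'.lab e = Let.t → ¬ O (i.e e) →
      τ (i.v (K'.org (e, false))) = τ (i.v (K'.org (e, true))) + 1 := by
    intro e hl he
    rw [i.lab] at hl
    rw [i.org, i.org]
    exact h2 (i.e e) hl he
  have hU : ∀ e e2 : K'.E, O (i.e e) → O (i.e e2) → e = e2 :=
    fun e e2 he he2 => i.einj (hO1 _ _ he he2)
  have hN : ∀ e : K'.E, O (i.e e) → ∃ b, (e, b) ∈ K'.bd none := by
    intro e he
    obtain ⟨b, hb⟩ := hO2 _ he
    exact ⟨b, K.ofEm_out K' i hb⟩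
  exact ⟨hR, fun v => τ (i.v v), fun e => O (i.e e), hU, hN, hP⟩

/-- (M) -/
theorem stmtMerge : StmtMerge := by
  intro p n σ K C hC
  obtain ⟨K', i, hi⟩ := Dl.exists_res K.toPC C hC
  exact ⟨K.ofEm K' i, K.ofEm_card K' i hi, fun Y => K.ofEm_W K' i hi Y, K.ofEm_gd K' i⟩

end Vale.Agent.P201.Z
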