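import Mathlib

/-!
P201 part F: real analysis (the function `psi`, choice of `K` and `Y0`).  Owner: helper419.
-/

namespace Vale.Agent.P201.Z

open Real Filter

/-- the isoperimetric function -/
noncomputable def psi (e1 dl : ℝ) (K Y : ℕ) (x : ℝ) : ℝ :=
  min (e1 * x) (e1 / 2 * x + e1 / 2 * √(dl * K) * √(Y * x))

/-- radius (disc case) -/
noncomputable def Rad (e1 : ℝ) (Y : ℕ) (F g : ℝ) : ℝ :=
  2 * Y * (log (F / g) / log (1 + e1 / 4) + 4)

/-- diameter (sphere case) -/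
noncomputable def Dia (e1 : ℝ) (Y : ℕ) (F g : ℝ) : ℝ :=
  4 * Y * (log (F / g) / log (1 + e1 / 4) + 5)

section psi

variable {e1 dl : ℝ} {K Y : ℕ}

theorem psi_zero : psi e1 dl K Y 0 = 0 := by simp [psi]

theorem psi_nonneg (he : 0 ≤ e1) {x : ℝ} (hx : 0 ≤ x) : 0 ≤ psi e1 dl K Y x := by
  unfold psi
  refine le_min (by positivity) (by positivity)

theorem psi_mono (he : 0 ≤ e1) {x y : ℝ} (hxy : x ≤ y) :
    psi e1 dl K Y x ≤ psi e1 dl K Y y := by
  unfold psi
  refine min_le_min ?_ ?_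
  · exact mul_le_mul_of_nonneg_left hxy he
  · have h1 : √(Y * x) ≤ √(Y * y) :=
      Real.sqrt_le_sqrt (mul_le_mul_of_nonneg_left hxy (Nat.cast_nonneg _))
    have h2 : e1 / 2 * x ≤ e1 / 2 * y := mul_le_mul_of_nonneg_left hxy (by positivity)
    have h3 : e1 / 2 * √(dl * K) * √(Y * x) ≤ e1 / 2 * √(dl * K) * √(Y * y) :=
      mul_le_mul_of_nonneg_left h1 (by positivity)
    linarith

theorem half_le_psi (he : 0 ≤ e1) {x : ℝ} (hx : 0 ≤ x) : e1 / 2 * x ≤ psi e1 dl K Y x := by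
  unfold psi
  refine le_min ?_ ?_
  · nlinarith
  · have : 0 ≤ e1 / 2 * √(dl * K) * √(Y * x) := by positivity
    linarith

theorem psi_le {x : ℝ} : psi e1 dl K Y x ≤ e1 * x := min_le_left _ _

theorem psi_le_right {x : ℝ} :
    psi e1 dl K Y x ≤ e1 / 2 * x + e1 / 2 * √(dl * K) * √(Y * x) := min_le_right _ _

/-- value for large arguments -/
theorem psi_eq (he : 0 ≤ e1) (hd : 0 ≤ dl) {x : ℝ} (hx : dl * K * Y ≤ x) :
    psi e1 dl K Y x = e1 / 2 * x + e1 / 2 * √(dl * K) * √(Y * x) := by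
  unfold psi
  apply min_eq_right
  have hx0 : 0 ≤ x := le_trans (by positivity) hx
  have h1 : √(dl * K) * √(Y * x) ≤ x := by
    rw [← Real.sqrt_mul (by positivity)]
    apply Real.sqrt_le_iff.mpr
    refine ⟨hx0, ?_⟩
    nlinarith
  have h2 : e1 / 2 * (√(dl * K) * √(Y * x)) ≤ e1 / 2 * x :=
    mul_le_mul_of_nonneg_left h1 (by positivity)
  nlinarith

/-- star-shapedness -/
theorem psi_smul (he : 0 ≤ e1) {l x : ℝ} (hl : 0 ≤ l) (hl1 : l ≤ 1) (hx : 0 ≤ x) :
    l * psi e1 dl K Y x ≤ psi e1 dl K Y (l * x) := by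
  have hs : l * √(Y * x) ≤ √(Y * (l * x)) := by
    apply Real.le_sqrt_of_sq_le
    rw [mul_pow, Real.sq_sqrt (by positivity)]
    have : l ^ 2 ≤ l := by nlinarith
    have h0 : 0 ≤ (Y : ℝ) * x := by positivity
    nlinarith
  have hk : 0 ≤ e1 / 2 * √(dl * K) := by positivity
  unfold psi
  rw [mul_min_of_nonneg _ _ hl]
  refine min_le_min (by linarith) ?_
  have := mul_le_mul_of_nonneg_left hs hk
  nlinarith

theorem psi_add_le (he : 0 ≤ e1) {x y : ℝ} (hx : 0 ≤ x) (hy : 0 ≤ y) :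
    psi e1 dl K Y (x + y) ≤ psi e1 dl K Y x + psi e1 dl K Y y := by
  rcases (add_nonneg hx hy).eq_or_lt with h | h
  · have hx0 : x = 0 := by linarith
    have hy0 : y = 0 := by linarith
    subst hx0 hy0
    simp [psi_zero]
  · have h1 := psi_smul (dl := dl) (K := K) (Y := Y) he (l := x / (x + y)) (x := x + y)
      (by positivity) (by rw [div_le_one h]; linarith) h.le
    have h2 := psi_smul (dl := dl) (K := K) (Y := Y) he (l := y / (x + y)) (x := x + y)
      (by positivity) (by rw [div_le_one h]; linarith) h.le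
    rw [div_mul_cancel₀ _ h.ne'] at h1 h2
    have h3 : x / (x + y) * psi e1 dl K Y (x + y) + y / (x + y) * psi e1 dl K Y (x + y) =
        psi e1 dl K Y (x + y) := by
      rw [← add_mul, ← add_div, div_self h.ne', one_mul]
    linarith

theorem psi_sum_le (he : 0 ≤ e1) {ι : Type*} (s : Finset ι) (f : ι → ℝ)
    (hf : ∀ i ∈ s, 0 ≤ f i) :
    psi e1 dl K Y (∑ i ∈ s, f i) ≤ ∑ i ∈ s, psi e1 dl K Y (f i) := by
  classical
  induction s using Finset.induction_on with
  | empty => simp [psi_zero]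
  | insert a s ha ih =>
    rw [Finset.sum_insert ha, Finset.sum_insert ha]
    have h1 : 0 ≤ f a := hf a (Finset.mem_insert_self _ _)
    have h2 : 0 ≤ ∑ i ∈ s, f i :=
      Finset.sum_nonneg fun i hi => hf i (Finset.mem_insert_of_mem hi)
    have h3 := ih fun i hi => hf i (Finset.mem_insert_of_mem hi)
    have h4 := psi_add_le (dl := dl) (K := K) (Y := Y) he h1 h2
    linarith

/-- gain of the square roots -/
theorem sqrt_gain {dl s : ℝ} (hd : 0 ≤ dl) (hd1 : dl ≤ 1 / 16) (hs : dl ≤ s) (hs1 : s ≤ 1 / 2) :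
    1 + √dl / 2 ≤ √s + √(1 - s) := by
  have hs0 : 0 ≤ s := hd.trans hs
  have h1 : 1 - s ≤ √(1 - s) := by
    apply Real.le_sqrt_of_sq_le
    nlinarith
  have h2 : √dl ≤ √s := Real.sqrt_le_sqrt hs
  have h3 : √dl ≤ 1 / 4 := by
    rw [Real.sqrt_le_left (by norm_num)]
    norm_num
    linarith
  have h4 : √s * √s = s := Real.mul_self_sqrt hs0
  have h5 : 0 ≤ √s := Real.sqrt_nonneg _
  have h6 : √s ≤ 0.7072 := by
    rw [Real.sqrt_le_left (by norm_num)]
    norm_num
    linarith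
  rcases le_total (√s) (1 / 2) with h | h
  · nlinarith
  · nlinarith

/-- the cut inequality -/
theorem psi_cut (he : 0 ≤ e1) (hd : 0 ≤ dl) (hd1 : dl ≤ 1 / 16) {F a : ℝ}
    (hF : (K : ℝ) * Y ≤ F) (ha : dl * F ≤ a) (ha1 : a ≤ F / 2) :
    psi e1 dl K Y F + e1 * dl / 4 * √(K * (Y * F)) ≤ psi e1 dl K Y a + psi e1 dl K Y (F - a) := by
  have hF0 : 0 ≤ F := le_trans (by positivity) hF
  rcases hF0.eq_or_lt with h0 | h0
  · have : a = 0 := by
      rw [← h0] at ha ha1
      linarith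
    subst this
    rw [← h0]
    simp [psi_zero]
  have e2 : dl * K * Y ≤ a := by
    refine le_trans ?_ ha
    rw [mul_assoc]
    exact mul_le_mul_of_nonneg_left hF hd
  have e3 : dl * K * Y ≤ F - a := by linarith
  have e4 : dl * K * Y ≤ F := by linarith
  rw [psi_eq he hd e2, psi_eq he hd e3, psi_eq he hd e4]
  have ha0 : 0 ≤ a := le_trans (by positivity) e2
  have g := sqrt_gain (dl := dl) (s := a / F) hd hd1 (by rw [le_div_iff₀ h0]; exact ha)
    (by rw [div_le_iff₀ h0]; linarith)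
  have hYF : 0 ≤ (Y : ℝ) * F := by positivity
  have s1 : √(Y * a) = √(Y * F) * √(a / F) := by
    rw [← Real.sqrt_mul hYF]
    congr 1
    field_simp
  have s2 : √(Y * (F - a)) = √(Y * F) * √(1 - a / F) := by
    rw [← Real.sqrt_mul hYF]
    congr 1
    field_simp
  have s3 : √(K * (Y * F)) = √K * √(Y * F) := Real.sqrt_mul (by positivity) _
  have s4 : √(dl * K) = √dl * √K := Real.sqrt_mul hd _
  rw [s1, s2, s3, s4]
  have hd2 : √dl * √dl = dl := Real.mul_self_sqrt hd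
  have hc : 0 ≤ e1 / 2 * (√dl * √K) * √(Y * F) := by positivity
  have := mul_le_mul_of_nonneg_left g hc
  have e5 : e1 / 2 * (√dl * √K) * √(Y * F) * (1 + √dl / 2) =
      e1 / 2 * (√dl * √K) * √(Y * F) + e1 / 4 * (√dl * √dl) * (√K * √(Y * F)) := by ring
  rw [e5, hd2] at this
  nlinarith

end psi

/-- growth: a square root beats a logarithm -/
theorem exists_sqrt_gt_log (a A B : ℝ) (ha : 0 < a) :
    ∃ R0 : ℝ, 1 ≤ R0 ∧ ∀ x, R0 ≤ x → A * log x + B < a * √x := by
  have h1 : Tendsto (fun x : ℝ => log x / x ^ ((1 : ℝ) / 2)) atTop (nhds 0) :=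
    (isLittleO_log_rpow_atTop (by norm_num : (0 : ℝ) < 1 / 2)).tendsto_div_nhds_zero
  have h2 : Tendsto (fun x : ℝ => B / x ^ ((1 : ℝ) / 2)) atTop (nhds 0) :=
    Tendsto.div_atTop tendsto_const_nhds (tendsto_rpow_atTop (by norm_num))
  have h3 : Tendsto (fun x : ℝ => A * (log x / x ^ ((1 : ℝ) / 2)) + B / x ^ ((1 : ℝ) / 2)) atTop
      (nhds (A * 0 + 0)) := (h1.const_mul A).add h2
  have h4 : ∀ᶠ x : ℝ in atTop, A * (log x / x ^ ((1 : ℝ) / 2)) + B / x ^ ((1 : ℝ) / 2) < a := by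
    apply h3.eventually_lt_const
    simpa using ha
  obtain ⟨R0, hR⟩ := (h4.and (eventually_gt_atTop 0)).exists_forall_of_atTop
  refine ⟨max R0 1, le_max_right _ _, fun x hx => ?_⟩
  obtain ⟨h5, h6⟩ := hR x ((le_max_left _ _).trans hx)
  have h7 : 0 < √x := Real.sqrt_pos.mpr h6
  rw [← Real.sqrt_eq_rpow] at h5
  have h8 : A * (log x / √x) + B / √x = (A * log x + B) / √x := by ring
  rw [h8, div_lt_iff₀ h7] at h5
  exact h5

/-- choice of `K` (general constants) -/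
theorem exists_K_gen (c e1 dl A B : ℝ) (hc : 0 < c) (he : 0 < e1) (hd : 0 < dl) (hA : 0 ≤ A) :
    ∃ K0 : ℕ, 1 ≤ K0 ∧ ∀ K : ℕ, K0 ≤ K → ∀ (Y : ℕ) (g F : ℝ), 1 ≤ Y → c * Y ≤ g →
      (K : ℝ) * Y < F →
      Y * (A * (log (F / g) / log (1 + e1 / 4)) + B) < e1 * dl / 4 * √(K * (Y * F)) ∧
      Y * (A * (log (F / g) / log (1 + e1 / 4)) + B) < e1 / 2 * (dl * F) := by
  have hL : 0 < log (1 + e1 / 4) := Real.log_pos (by linarith)
  set L := log (1 + e1 / 4) with hLdef
  obtain ⟨R0, hR1, hR⟩ := exists_sqrt_gt_log (e1 * dl / 4) (A / L) (B - A / L * log c)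
    (by positivity)
  obtain ⟨K0, hK0⟩ := exists_nat_ge R0
  refine ⟨max K0 1, le_max_right _ _, fun K hK Y g F hY hg hF => ?_⟩
  have hK1 : (1 : ℝ) ≤ K := by exact_mod_cast (le_max_right _ _).trans hK
  have hKR : R0 ≤ K := hK0.trans (by exact_mod_cast (le_max_left _ _).trans hK)
  have hY1 : (1 : ℝ) ≤ Y := by exact_mod_cast hY
  have hY0 : (0 : ℝ) < Y := by linarith
  have hF0 : 0 < F := lt_of_le_of_lt (by positivity) hF
  have hg0 : 0 < g := lt_of_lt_of_le (by positivity) hg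
  have hx : R0 ≤ F / Y := by
    rw [le_div_iff₀ hY0]
    exact (mul_le_mul_of_nonneg_right hKR hY0.le).trans hF.le
  have hx0 : 0 < F / Y := by positivity
  have key := hR (F / Y) hx
  have hlog : log (F / g) ≤ log (F / Y) - log c := by
    rw [← Real.log_div hx0.ne' hc.ne']
    apply Real.log_le_log (by positivity)
    rw [div_div]
    apply div_le_div_of_nonneg_left hF0.le (by positivity)
    linarith
  have h1 : A * (log (F / g) / L) + B ≤ A / L * log (F / Y) + (B - A / L * log c) := by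
    have : A * (log (F / g) / L) ≤ A / L * (log (F / Y) - log c) := by
      rw [show A * (log (F / g) / L) = A / L * log (F / g) by ring]
      exact mul_le_mul_of_nonneg_left hlog (by positivity)
    linarith
  have h2 : A * (log (F / g) / L) + B < e1 * dl / 4 * √(F / Y) := lt_of_le_of_lt h1 key
  have h3 : (Y : ℝ) * √(F / Y) = √(Y * F) := by
    rw [show (Y : ℝ) * F = Y ^ 2 * (F / Y) by field_simp, Real.sqrt_mul (by positivity),
      Real.sqrt_sq hY0.le]
  have h4 : Y * (A * (log (F / g) / L) + B) < e1 * dl / 4 * √(Y * F) := by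
    rw [← h3]
    have := mul_lt_mul_of_pos_left h2 hY0
    linarith
  have hYF : 0 ≤ (Y : ℝ) * F := by positivity
  constructor
  · refine h4.trans_le ?_
    apply mul_le_mul_of_nonneg_left _ (by positivity)
    apply Real.sqrt_le_sqrt
    nlinarith
  · refine h4.trans_le ?_
    have h5 : √(Y * F) ≤ F := by
      apply Real.sqrt_le_iff.mpr
      refine ⟨hF0.le, ?_⟩
      have : (Y : ℝ) ≤ F := by nlinarith
      nlinarith
    have h6 : e1 * dl / 4 * √(Y * F) ≤ e1 * dl / 4 * F :=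
      mul_le_mul_of_nonneg_left h5 (by positivity)
    have : 0 ≤ e1 * dl * F := by positivity
    linarith

/-- choice of `K` -/
theorem exists_K (c e1 dl : ℝ) (hc : 0 < c) (he : 0 < e1) (hd : 0 < dl) (hd1 : dl ≤ 1 / 16) :
    ∃ K : ℕ, 1 ≤ K ∧ ∀ (Y : ℕ) (g F a : ℝ), 1 ≤ Y → c * Y ≤ g → (K : ℝ) * Y < F →
      dl * F ≤ a →
      (a ≤ F / 2 → psi e1 dl K Y F + 2 * (2 * Rad e1 Y F g + Y) <
        psi e1 dl K Y a + psi e1 dl K Y (F - a)) ∧
      2 * Rad e1 Y F g + Y < psi e1 dl K Y a ∧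
      2 * Dia e1 Y F g + Y < e1 / 2 * a := by
  obtain ⟨K1, hK1, h1⟩ := exists_K_gen c e1 dl 8 34 hc he hd (by norm_num)
  obtain ⟨K2, hK2, h2⟩ := exists_K_gen c e1 dl 8 41 hc he hd (by norm_num)
  obtain ⟨K3, hK3, h3⟩ := exists_K_gen c e1 dl 4 17 hc he hd (by norm_num)
  refine ⟨max K1 (max K2 K3), hK1.trans (le_max_left _ _), fun Y g F a hY hg hF ha => ?_⟩
  set K := max K1 (max K2 K3) with hK
  have h1' := (h1 K (le_max_left _ _) Y g F hY hg hF).1
  have h2' := (h2 K ((le_max_left _ _).trans (le_max_right _ _)) Y g F hY hg hF).2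
  have h3' := (h3 K ((le_max_right _ _).trans (le_max_right _ _)) Y g F hY hg hF).2
  have hF0 : 0 ≤ F := le_trans (by positivity) hF.le
  have ha0 : 0 ≤ a := le_trans (by positivity) ha
  refine ⟨fun ha1 => ?_, ?_, ?_⟩
  · have hcut := psi_cut (Y := Y) he.le hd.le hd1 hF.le ha ha1
    refine lt_of_lt_of_le ?_ hcut
    have : 2 * (2 * Rad e1 Y F g + Y) =
        Y * (8 * (log (F / g) / log (1 + e1 / 4)) + 34) := by
      unfold Rad; ring
    rw [this]
    linarith
  · have h4 := half_le_psi (dl := dl) (K := K) (Y := Y) he.le ha0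
    have : 2 * Rad e1 Y F g + Y = Y * (4 * (log (F / g) / log (1 + e1 / 4)) + 17) := by
      unfold Rad; ring
    rw [this]
    have h5 : e1 / 2 * (dl * F) ≤ e1 / 2 * a := mul_le_mul_of_nonneg_left ha (by positivity)
    linarith
  · have : 2 * Dia e1 Y F g + Y = Y * (8 * (log (F / g) / log (1 + e1 / 4)) + 41) := by
      unfold Dia; ring
    rw [this]
    have h5 : e1 / 2 * (dl * F) ≤ e1 / 2 * a := mul_le_mul_of_nonneg_left ha (by positivity)
    linarith

/-- choice of `Y0` -/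
theorem exists_Y0 (c e1 B : ℝ) (hc : 0 < c) (he : 0 < e1) :
    ∃ Y0 : ℕ, 1 ≤ Y0 ∧ ∀ Y : ℕ, Y0 ≤ Y → B < e1 / 2 * (c * Y) := by
  obtain ⟨n, hn⟩ := exists_nat_gt (B / (e1 / 2 * c))
  refine ⟨max n 1, le_max_right _ _, fun Y hY => ?_⟩
  have h1 : (n : ℝ) ≤ Y := by exact_mod_cast (le_max_left _ _).trans hY
  have h2 : 0 < e1 / 2 * c := by positivity
  rw [div_lt_iff₀ h2] at hn
  nlinarith

end Vale.Agent.P201.Z
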