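import Vale.Agent.P201.Z.F.Fill

/-!
P201, part F: geometry of square faces, weighted walks (helper643).
-/

set_option linter.all false

namespace Vale.Agent.P201.Z

open Finset

namespace PC

variable {A : Type} (K : PC A)

theorem nonempty_V : Nonempty K.V := by
  by_contra h
  rw [not_nonempty_iff] at h
  have hE : IsEmpty K.E := ⟨fun e => h.elim (K.org (e, true))⟩
  have h1 : Fintype.card K.V = 0 := Fintype.card_eq_zero_iff.2 h
  have h2 : Fintype.card K.E = 0 := Fintype.card_eq_zero_iff.2 hE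
  have h3 := K.euler
  have h4 : 0 < Fintype.card K.F := by omega
  obtain ⟨f⟩ := Fintype.card_pos_iff.1 h4
  have h5 := K.ne f
  cases hb : K.bd (some f) with
  | nil => exact h5 hb
  | cons a l => exact hE.elim a.1

instance : Nonempty K.V := K.nonempty_V

/-- walks along darts -/
inductive Wk : K.V → List (K.E × Bool) → K.V → Prop
  | nil (v : K.V) : Wk v [] v
  | cons (d : K.E × Bool) (l : List (K.E × Bool)) (w : K.V) :
      Wk (K.org (rv d)) l w → Wk (K.org d) (d :: l) w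

variable {K}

theorem Wk.append {v w z : K.V} {l l' : List (K.E × Bool)} (h : K.Wk v l w) (h' : K.Wk w l' z) :
    K.Wk v (l ++ l') z := by
  induction h with
  | nil v => simpa using h'
  | cons d l w _ ih => exact Wk.cons d _ _ (ih h')

theorem Wk.one (d : K.E × Bool) : K.Wk (K.org d) [d] (K.org (rv d)) :=
  Wk.cons d [] _ (Wk.nil _)

theorem Wk.symm {v w : K.V} {l : List (K.E × Bool)} (h : K.Wk v l w) :
    K.Wk w ((l.map rv).reverse) v := by
  induction h with
  | nil v => exact Wk.nil v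
  | cons d l w _ ih =>
    rw [List.map_cons, List.reverse_cons]
    have := Wk.one (K := K) (rv d)
    rw [rv_rv] at this
    exact ih.append this

variable (K)

/-- weight of a list of darts -/
def wtD (wt : K.E → ℕ) (l : List (K.E × Bool)) : ℕ := (l.map (fun d => wt d.1)).sum

/-- `w` can be reached from `v` by a walk of weight at most `r` -/
def Reach (wt : K.E → ℕ) (r : ℕ) (v w : K.V) : Prop := ∃ l, K.Wk v l w ∧ K.wtD wt l ≤ r

variable {K} {wt : K.E → ℕ}

theorem Reach.refl (v : K.V) : K.Reach wt 0 v v := ⟨[], Wk.nil v, by simp [wtD]⟩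

theorem Reach.mono {r s : ℕ} {v w : K.V} (h : K.Reach wt r v w) (hrs : r ≤ s) : K.Reach wt s v w := by
  obtain ⟨l, h1, h2⟩ := h
  exact ⟨l, h1, h2.trans hrs⟩

theorem Reach.trans {r s : ℕ} {v w z : K.V} (h : K.Reach wt r v w) (h' : K.Reach wt s w z) :
    K.Reach wt (r + s) v z := by
  obtain ⟨l, h1, h2⟩ := h
  obtain ⟨l', h1', h2'⟩ := h'
  refine ⟨l ++ l', h1.append h1', ?_⟩
  simp only [wtD, List.map_append, List.sum_append] at *
  omega

theorem Reach.symm {r : ℕ} {v w : K.V} (h : K.Reach wt r v w) : K.Reach wt r w v := by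
  obtain ⟨l, h1, h2⟩ := h
  refine ⟨_, h1.symm, ?_⟩
  have : K.wtD wt ((l.map rv).reverse) = K.wtD wt l := by
    simp only [wtD, List.map_reverse, List.sum_reverse, List.map_map]
    rfl
  omega

theorem Reach.edge (d : K.E × Bool) : K.Reach wt (wt d.1) (K.org d) (K.org (rv d)) :=
  ⟨[d], Wk.one d, by simp [wtD]⟩

/-- two vertices always reach each other with some weight -/
theorem exists_reach (v w : K.V) : ∃ r, K.Reach wt r v w := by
  have h := K.conn v w
  induction h with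
  | refl => exact ⟨0, Reach.refl v⟩
  | tail _ h ih =>
    obtain ⟨r, hr⟩ := ih
    obtain ⟨d, h1, h2⟩ := h
    refine ⟨r + wt d.1, hr.trans ?_⟩
    rw [← h1, ← h2]
    exact Reach.edge d

/-- walks inside a chain of darts -/
theorem wk_prefix : ∀ (l1 : List (K.E × Bool)) (z : K.E × Bool) (l2 : List (K.E × Bool)),
    (l1 ++ z :: l2).IsChain (fun a b => K.org b = K.org (rv a)) →
    ∀ a ∈ (l1 ++ z :: l2).head?, K.Wk (K.org a) l1 (K.org z)
  | [], z, l2, _, a, ha => by
    simp at ha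
    subst ha
    exact Wk.nil _
  | b :: l1, z, l2, hc, a, ha => by
    simp at ha
    subst ha
    rw [List.cons_append, List.isChain_cons] at hc
    obtain ⟨h1, h2⟩ := hc
    cases hh : (l1 ++ z :: l2).head? with
    | none => simp at hh
    | some c =>
      have h3 := wk_prefix l1 z l2 h2 c (by rw [hh]; rfl)
      have h4 := h1 c (by rw [hh]; rfl)
      rw [h4] at h3
      exact Wk.cons _ _ _ h3

end PC

/-! ## Square faces -/

section Square

variable {p : Pat} {n : ℕ} {σ : Equiv.Perm (Cel p n)}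

/-- decomposition of a list of signed letters which is a relator -/
theorem relw_split (q : Port p n) : relw σ q =
    (Let.x (row q.1) q.2, true) :: (tw p n (ht q.1) ++ (Let.y (blk q.1), true) ::
      (Let.y (blk (mt σ q).1), false) :: (winv (tw p n (ht (mt σ q).1)) ++
        [(Let.x (row (mt σ q).1) (mt σ q).2, false)])) := by
  simp [relw, half, winv]

theorem tw_t {h : ℤ} {a : Let p n × Bool} (ha : a ∈ tw p n h) : a.1 = Let.t := by
  unfold tw at ha
  rw [List.mem_replicate] at ha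
  rw [ha.2]

theorem winv_tw_t {h : ℤ} {a : Let p n × Bool} (ha : a ∈ winv (tw p n h)) : a.1 = Let.t := by
  unfold winv at ha
  simp only [List.mem_reverse, List.mem_map] at ha
  obtain ⟨b, hb, rfl⟩ := ha
  have h := tw_t hb
  simpa using h

namespace PC

variable (K : PC (Let p n))

/-- `φ` is a square face with port `q` -/
def IsSq (σ : Equiv.Perm (Cel p n)) (φ : Option K.F) (q : Port p n) : Prop := K.wd φ = relw σ q

/-- geometry of a square face -/
structure SqGeo (σ : Equiv.Perm (Cel p n)) (φ : Option K.F) (q : Port p n) where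
  dx : K.E × Bool
  lt : List (K.E × Bool)
  dy : K.E × Bool
  dy' : K.E × Bool
  lt' : List (K.E × Bool)
  dx' : K.E × Bool
  eq : K.bd φ = dx :: (lt ++ dy :: dy' :: (lt' ++ [dx']))
  lx : K.lab dx.1 = Let.x (row q.1) q.2
  sx : dx.2 = true
  lab_lt : ∀ d ∈ lt, K.lab d.1 = Let.t
  word_lt : lt.map (fun d => (K.lab d.1, d.2)) = tw p n (ht q.1)
  ly : K.lab dy.1 = Let.y (blk q.1)
  sy : dy.2 = true
  ly' : K.lab dy'.1 = Let.y (blk (mt σ q).1)
  sy' : dy'.2 = false
  lab_lt' : ∀ d ∈ lt', K.lab d.1 = Let.t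
  word_lt' : lt'.map (fun d => (K.lab d.1, d.2)) = winv (tw p n (ht (mt σ q).1))
  lx' : K.lab dx'.1 = Let.x (row (mt σ q).1) (mt σ q).2
  sx' : dx'.2 = false

theorem IsSq.geo {K : PC (Let p n)} {φ : Option K.F} {q : Port p n} (h : K.IsSq σ φ q) :
    Nonempty (K.SqGeo σ φ q) := by
  have h1 := h
  unfold IsSq wd at h1
  rw [relw_split] at h1
  obtain ⟨dx, L1, e1, f1, h2⟩ := List.map_eq_cons_iff.1 h1
  obtain ⟨lt, L2, e2, h3, h4⟩ := List.map_eq_append_iff.1 h2
  obtain ⟨dy, L3, e3, f3, h5⟩ := List.map_eq_cons_iff.1 h4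
  obtain ⟨dy', L4, e4, f4, h6⟩ := List.map_eq_cons_iff.1 h5
  obtain ⟨lt', L5, e5, h7, h8⟩ := List.map_eq_append_iff.1 h6
  obtain ⟨dx', L6, e6, f6, h9⟩ := List.map_eq_cons_iff.1 h8
  have h10 : L6 = [] := List.map_eq_nil_iff.1 h9
  simp only [Prod.mk.injEq] at f1 f3 f4 f6
  refine ⟨⟨dx, lt, dy, dy', lt', dx', ?_, f1.1, f1.2, ?_, h3, f3.1, f3.2, f4.1, f4.2, ?_, h7, f6.1, f6.2⟩⟩
  · rw [e1, e2, e3, e4, e5, e6, h10]
  · intro d hd
    have : (K.lab d.1, d.2) ∈ lt.map (fun d => (K.lab d.1, d.2)) := List.mem_map.2 ⟨d, hd, rfl⟩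
    rw [h3] at this
    exact tw_t this
  · intro d hd
    have : (K.lab d.1, d.2) ∈ lt'.map (fun d => (K.lab d.1, d.2)) := List.mem_map.2 ⟨d, hd, rfl⟩
    rw [h7] at this
    exact winv_tw_t this

/-- the end vertex (head of the y-darts) of a square face -/
noncomputable def ev (φ : Option K.F) : K.V :=
  Classical.epsilon (fun v => ∃ d ∈ K.bd φ, (∃ b, K.lab d.1 = Let.y b) ∧ d.2 = false ∧ K.org d = v)

variable {K} {φ : Option K.F} {q : Port p n}

theorem SqGeo.ev_eq (G : K.SqGeo σ φ q) : K.ev φ = K.org G.dy' := by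
  have h := Classical.epsilon_spec (p := fun v => ∃ d ∈ K.bd φ,
    (∃ b, K.lab d.1 = Let.y b) ∧ d.2 = false ∧ K.org d = v)
    ⟨K.org G.dy', G.dy', by rw [G.eq]; simp, ⟨_, G.ly'⟩, G.sy', rfl⟩
  obtain ⟨d, hd, ⟨b, hb⟩, hs, hv⟩ := h
  have : d = G.dy' := by
    rw [G.eq] at hd
    simp only [List.mem_cons, List.mem_append, List.mem_singleton, List.not_mem_nil, or_false] at hd
    rcases hd with h | h | h | h | h | h
    · rw [h, G.lx] at hb; cases hb
    · rw [G.lab_lt d h] at hb; cases hb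
    · rw [h, G.sy] at hs; cases hs
    · exact h
    · rw [G.lab_lt' d h] at hb; cases hb
    · rw [h, G.lx'] at hb; cases hb
  rw [← this]
  exact hv.symm

theorem SqGeo.org_dy' (G : K.SqGeo σ φ q) : K.org G.dy' = K.org (rv G.dy) := by
  have h := K.chain φ
  rw [G.eq] at h
  have h2 : (G.dx :: G.lt ++ G.dy :: G.dy' :: (G.lt' ++ [G.dx'])).IsChain
    (fun a b => K.org b = K.org (rv a)) := by simpa using h
  rw [List.isChain_append] at h2
  exact (List.isChain_cons_cons.1 h2.2.1).1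

theorem SqGeo.dy_eq (G : K.SqGeo σ φ q) : G.dy = (G.dy.1, true) := by
  rw [← G.sy]

theorem SqGeo.dy'_eq (G : K.SqGeo σ φ q) : G.dy' = (G.dy'.1, false) := by
  rw [← G.sy']

theorem SqGeo.dx_eq (G : K.SqGeo σ φ q) : G.dx = (G.dx.1, true) := by
  rw [← G.sx]

theorem SqGeo.dx'_eq (G : K.SqGeo σ φ q) : G.dx' = (G.dx'.1, false) := by
  rw [← G.sx']

theorem SqGeo.rv_dy (G : K.SqGeo σ φ q) : rv G.dy = (G.dy.1, false) := by
  simp [rv, G.sy]

theorem SqGeo.rv_dx (G : K.SqGeo σ φ q) : rv G.dx = (G.dx.1, false) := by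
  simp [rv, G.sx]

/-- the heads of both y-edges are at `ev` -/
theorem SqGeo.ev_y (G : K.SqGeo σ φ q) {d : K.E × Bool} (hd : d ∈ K.bd φ)
    (hy : ∃ b, K.lab d.1 = Let.y b) : K.org (d.1, false) = K.ev φ := by
  obtain ⟨b, hb⟩ := hy
  rw [G.eq] at hd
  simp only [List.mem_cons, List.mem_append, List.mem_singleton, List.not_mem_nil, or_false] at hd
  rcases hd with h | h | h | h | h | h
  · rw [h, G.lx] at hb; cases hb
  · rw [G.lab_lt d h] at hb; cases hb
  · rw [G.ev_eq, G.org_dy', G.rv_dy, h]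
  · rw [G.ev_eq, h, ← G.dy'_eq]
  · rw [G.lab_lt' d h] at hb; cases hb
  · rw [h, G.lx'] at hb; cases hb

/-- weight of edges -/
def wE (K : PC (Let p n)) (Y : ℕ) (e : K.E) : ℕ := wtl Y (K.lab e)

theorem wtD_t {Y : ℕ} {l : List (K.E × Bool)} (h : ∀ d ∈ l, K.lab d.1 = Let.t) :
    K.wtD (K.wE Y) l = 0 := by
  unfold wtD
  rw [List.sum_eq_zero]
  intro x hx
  obtain ⟨d, hd, rfl⟩ := List.mem_map.1 hx
  simp [wE, h d hd, wtl]

theorem wtD_append {wt : K.E → ℕ} (l l' : List (K.E × Bool)) :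
    K.wtD wt (l ++ l') = K.wtD wt l + K.wtD wt l' := by
  simp [wtD]

theorem wtD_cons {wt : K.E → ℕ} (d : K.E × Bool) (l : List (K.E × Bool)) :
    K.wtD wt (d :: l) = wt d.1 + K.wtD wt l := by
  simp [wtD]

theorem wtD_nil {wt : K.E → ℕ} : K.wtD wt [] = 0 := by
  simp [wtD]

theorem SqGeo.chain (G : K.SqGeo σ φ q) : (G.dx :: (G.lt ++ G.dy :: G.dy' :: (G.lt' ++ [G.dx']))).IsChain
    (fun a b => K.org b = K.org (rv a)) := by
  have h := K.chain φ
  rwa [G.eq] at h

/-- every vertex of the face before `ev` -/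
theorem SqGeo.reach_lt (Y : ℕ) (G : K.SqGeo σ φ q) {d : K.E × Bool} (hd : d ∈ G.lt) :
    K.Reach (K.wE Y) Y (K.org d) (K.ev φ) := by
  obtain ⟨l1, l2, hl⟩ := List.append_of_mem hd
  have h := G.chain
  rw [hl] at h
  have h2 : ((G.dx :: l1) ++ (d :: l2 ++ [G.dy]) ++ G.dy' :: (G.lt' ++ [G.dx'])).IsChain
    (fun a b => K.org b = K.org (rv a)) := by simpa using h
  rw [List.append_assoc, List.isChain_append] at h2
  have h3 := wk_prefix (d :: l2 ++ [G.dy]) G.dy' _ h2.2.1 d (by simp)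
  rw [G.ev_eq]
  refine ⟨_, h3, ?_⟩
  rw [wtD_append, wtD_cons, wtD_cons, wtD_nil]
  have h4 : K.wtD (K.wE Y) l2 = 0 := wtD_t (fun d hd => G.lab_lt d (by rw [hl]; simp [hd]))
  have h5 : K.lab d.1 = Let.t := G.lab_lt d hd
  simp [wE, h4, h5, wtl, G.ly]

/-- the M-end of the start x-edge -/
theorem SqGeo.reach_dx (Y : ℕ) (G : K.SqGeo σ φ q) :
    K.Reach (K.wE Y) Y (K.org (G.dx.1, false)) (K.ev φ) := by
  have h := G.chain
  have h2 : ([G.dx] ++ ((G.lt ++ [G.dy]) ++ G.dy' :: (G.lt' ++ [G.dx']))).IsChain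
    (fun a b => K.org b = K.org (rv a)) := by simpa using h
  rw [List.isChain_append] at h2
  cases hh : ((G.lt ++ [G.dy]) ++ G.dy' :: (G.lt' ++ [G.dx'])).head? with
  | none => simp at hh
  | some c =>
    have h3 := wk_prefix (G.lt ++ [G.dy]) G.dy' _ h2.2.1 c (by rw [hh]; rfl)
    have h4 := h2.2.2 G.dx (by simp) c (by rw [hh]; rfl)
    rw [G.rv_dx] at h4
    rw [← h4, G.ev_eq]
    refine ⟨_, h3, ?_⟩
    rw [wtD_append, wtD_cons, wtD_nil]
    have h5 : K.wtD (K.wE Y) G.lt = 0 := wtD_t G.lab_lt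
    simp [wE, h5, wtl, G.ly]

theorem SqGeo.reach_dx0 (Y : ℕ) (G : K.SqGeo σ φ q) :
    K.Reach (K.wE Y) (1 + Y) (K.org G.dx) (K.ev φ) := by
  have h1 := Reach.edge (K := K) (wt := K.wE Y) G.dx
  rw [G.rv_dx] at h1
  have h2 := h1.trans (G.reach_dx Y)
  refine h2.mono ?_
  simp [wE, G.lx, wtl]

theorem SqGeo.reach_dy (Y : ℕ) (G : K.SqGeo σ φ q) :
    K.Reach (K.wE Y) Y (K.org G.dy) (K.ev φ) := by
  have h1 := Reach.edge (K := K) (wt := K.wE Y) G.dy
  rw [← G.org_dy', ← G.ev_eq] at h1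
  refine h1.mono ?_
  simp [wE, G.ly, wtl]

theorem SqGeo.reach_lt' (Y : ℕ) (G : K.SqGeo σ φ q) {d : K.E × Bool} (hd : d ∈ G.lt') :
    K.Reach (K.wE Y) Y (K.ev φ) (K.org d) := by
  obtain ⟨l1, l2, hl⟩ := List.append_of_mem hd
  have h := G.chain
  rw [hl] at h
  have h2 : ((G.dx :: (G.lt ++ [G.dy])) ++ ((G.dy' :: l1) ++ d :: (l2 ++ [G.dx']))).IsChain
    (fun a b => K.org b = K.org (rv a)) := by simpa using h
  rw [List.isChain_append] at h2
  have h3 := wk_prefix (G.dy' :: l1) d _ h2.2.1 G.dy' (by simp)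
  rw [G.ev_eq]
  refine ⟨_, h3, ?_⟩
  rw [wtD_cons]
  have h4 : K.wtD (K.wE Y) l1 = 0 := wtD_t (fun d hd => G.lab_lt' d (by rw [hl]; simp [hd]))
  simp [wE, h4, wtl, G.ly']

theorem SqGeo.reach_dx' (Y : ℕ) (G : K.SqGeo σ φ q) :
    K.Reach (K.wE Y) Y (K.ev φ) (K.org (G.dx'.1, false)) := by
  have h := G.chain
  have h2 : ((G.dx :: (G.lt ++ [G.dy])) ++ ((G.dy' :: G.lt') ++ G.dx' :: [])).IsChain
    (fun a b => K.org b = K.org (rv a)) := by simpa using h
  rw [List.isChain_append] at h2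
  have h3 := wk_prefix (G.dy' :: G.lt') G.dx' _ h2.2.1 G.dy' (by simp)
  rw [G.ev_eq, ← G.dx'_eq]
  refine ⟨_, h3, ?_⟩
  rw [wtD_cons]
  have h4 : K.wtD (K.wE Y) G.lt' = 0 := wtD_t G.lab_lt'
  simp [wE, h4, wtl, G.ly']

/-- the M-end of an x-edge of the face is within weight `Y` of `ev` -/
theorem SqGeo.reach_x (Y : ℕ) (G : K.SqGeo σ φ q) {d : K.E × Bool} (hd : d ∈ K.bd φ)
    (hx : ∃ i a, K.lab d.1 = Let.x i a) : K.Reach (K.wE Y) Y (K.ev φ) (K.org (d.1, false)) := by
  obtain ⟨i, a, hb⟩ := hx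
  rw [G.eq] at hd
  simp only [List.mem_cons, List.mem_append, List.mem_singleton, List.not_mem_nil, or_false] at hd
  rcases hd with h | h | h | h | h | h
  · rw [h]; exact (G.reach_dx Y).symm
  · rw [G.lab_lt d h] at hb; cases hb
  · rw [h, G.ly] at hb; cases hb
  · rw [h, G.ly'] at hb; cases hb
  · rw [G.lab_lt' d h] at hb; cases hb
  · rw [h]; exact G.reach_dx' Y

/-- every vertex of the face is within weight `Y + 1` of `ev` -/
theorem SqGeo.reach_all (Y : ℕ) (G : K.SqGeo σ φ q) {d : K.E × Bool} (hd : d ∈ K.bd φ) :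
    K.Reach (K.wE Y) (Y + 1) (K.ev φ) (K.org d) := by
  rw [G.eq] at hd
  simp only [List.mem_cons, List.mem_append, List.mem_singleton, List.not_mem_nil, or_false] at hd
  rcases hd with h | h | h | h | h | h
  · rw [h]; exact ((G.reach_dx0 Y).symm).mono (by omega)
  · exact ((G.reach_lt Y h).symm).mono (by omega)
  · rw [h]; exact ((G.reach_dy Y).symm).mono (by omega)
  · rw [h, G.ev_eq]; exact (Reach.refl _).mono (by omega)
  · exact (G.reach_lt' Y h).mono (by omega)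
  · rw [h, G.dx'_eq]; exact (G.reach_dx' Y).mono (by omega)

open Classical in
/-- a square face has (at most) two x-darts -/
theorem SqGeo.x_darts (G : K.SqGeo σ φ q) {d : K.E × Bool} (hd : d ∈ K.bd φ)
    (hx : ∃ i a, K.lab d.1 = Let.x i a) : d = G.dx ∨ d = G.dx' := by
  obtain ⟨i, a, hb⟩ := hx
  rw [G.eq] at hd
  simp only [List.mem_cons, List.mem_append, List.mem_singleton, List.not_mem_nil, or_false] at hd
  rcases hd with h | h | h | h | h | h
  · exact Or.inl h
  · rw [G.lab_lt d h] at hb; cases hb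
  · rw [h, G.ly] at hb; cases hb
  · rw [h, G.ly'] at hb; cases hb
  · rw [G.lab_lt' d h] at hb; cases hb
  · exact Or.inr h

theorem SqGeo.y_darts (G : K.SqGeo σ φ q) {d : K.E × Bool} (hd : d ∈ K.bd φ)
    (hy : ∃ b, K.lab d.1 = Let.y b) : d = G.dy ∨ d = G.dy' := by
  obtain ⟨b, hb⟩ := hy
  rw [G.eq] at hd
  simp only [List.mem_cons, List.mem_append, List.mem_singleton, List.not_mem_nil, or_false] at hd
  rcases hd with h | h | h | h | h | h
  · rw [h, G.lx] at hb; cases hb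
  · rw [G.lab_lt d h] at hb; cases hb
  · exact Or.inl h
  · exact Or.inr h
  · rw [G.lab_lt' d h] at hb; cases hb
  · rw [h, G.lx'] at hb; cases hb

end PC

theorem SqK.isSq (K : SqK σ) (f : K.F) : K.toPC.IsSq σ (some f) (K.q f) := K.sq f

end Square

end Vale.Agent.P201.Z
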