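import Vale.Agent.P201.Z.F.Glob2
import Vale.Agent.P201.Z.F.Gd
import Vale.Agent.P201.Z.F.LocK
import Vale.Agent.P201.Z.F.Merge
import Vale.Agent.P201.Z.F.Iso
import Vale.Agent.P201.Z.D.VKMain
import Vale.Agent.P201.Z.D.Bridge

/-! P201: `stmtGlob` (helper631). -/

namespace Vale.Agent.P201.Z

theorem stmtGlob : StmtGlob :=
  stmtGlob_of stmtVK stmtGd stmtLocK stmtBridgeS (stmtIso_of stmtMerge stmtLocK stmtT1)

end Vale.Agent.P201.Z
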